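import Mathlib
import Crest.Prelude.Def_DilutedSpinGlass

/-! S0192: finite trees of nested power means (definitions).

Histories are lists, the most recent outcome first. A node with remaining depth `j+1` averages its
children (remaining depth `j`) with exponent `e j`; `e 0 = 1` is the last level. -/

set_option autoImplicit false

namespace Crest.Agent.H9.MP

open Finset MeasureTheory Crest.ProbabilityR.Diluted
open scoped BigOperators

/-- Transition kernels on histories. -/
abbrev Ker (S : Type) := List S → S → ℝ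

/-- Probability kernels. -/
def IsKer {S : Type} [Fintype S] (K : Ker S) : Prop :=
  (∀ h s, 0 ≤ K h s) ∧ ∀ h, ∑ s, K h s = 1

section tree
variable {S : Type} [Fintype S]

/-- Nested power means. -/
noncomputable def T (e : ℕ → ℝ) (K : Ker S) : ℕ → List S → (List S → ℝ) → ℝ
  | 0, h, W => W h
  | j + 1, h, W => (∑ s, K h s * T e K j (s :: h) W ^ e j) ^ (1 / e j)

/-- Expectation over histories of length `n` from the root. -/
def pathE (K : Ker S) : ℕ → (List S → ℝ) → ℝ
  | 0, F => F []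
  | n + 1, F => pathE K n fun h => ∑ s, K h s * F (s :: h)

/-- The uniform kernel. -/
noncomputable def unifK (S : Type) [Fintype S] : Ker S := fun _ _ => (Fintype.card S : ℝ)⁻¹

/-- Independent copies, one for each label. -/
def prodK (L : Type) [Fintype L] (K : Ker S) : Ker (L → S) :=
  fun H s => ∏ m, K (H.map fun t => t m) (s m)

/-- Product of two kernels. -/
def mulK {S' : Type} (K : Ker S) (K' : Ker S') : Ker (S × S') :=
  fun H s => K (H.map Prod.fst) s.1 * K' (H.map Prod.snd) s.2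

/-- The kernel tilted by `Z` (total depth `R`). -/
noncomputable def tiltK (e : ℕ → ℝ) (K : Ker S) (R : ℕ) (Z : List S → ℝ) : Ker S := fun h s =>
  K h s * T e K (R - 1 - h.length) (s :: h) Z ^ e (R - 1 - h.length) /
    ∑ s', K h s' * T e K (R - 1 - h.length) (s' :: h) Z ^ e (R - 1 - h.length)

/-- `K` with the root kernel replaced by `P [] s0`. -/
def rootK (K : Ker S) (P : List S → S → S → ℝ) (s0 : S) : Ker S := fun h s =>
  match h with
  | [] => P [] s0 s
  | _ :: _ => K h s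

/-- `P h s0` is a conditional kernel for `K h`. -/
def IsCond (K : Ker S) (P : List S → S → S → ℝ) : Prop :=
  (∀ h s0 s, 0 ≤ P h s0 s) ∧ (∀ h s0, ∑ s, P h s0 s = 1) ∧
    ∀ h s, ∑ s0, K h s0 * P h s0 s = K h s

/-- All labels read their spin (at independent uniform sites) on one common path. -/
noncomputable def Gtrue {I L : Type} [Fintype I] [Fintype L] [DecidableEq L] (e : ℕ → ℝ) (R : ℕ)
    (K : Ker S) (σ : I → List S → Bool) (W : (L → Bool) → ℝ) : ℝ :=
  𝔼 i : L → I, Real.log (T e K R [] fun h => W fun m => σ (i m) h)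

/-- Every label reads its spin on its own independent path. -/
noncomputable def Gprod {I L : Type} [Fintype I] [Fintype L] [DecidableEq L] (e : ℕ → ℝ) (R : ℕ)
    (K : Ker S) (σ : I → List S → Bool) (W : (L → Bool) → ℝ) : ℝ :=
  𝔼 i : L → I, Real.log (T e (prodK L K) R [] fun H => W fun m => σ (i m) (H.map fun t => t m))

end tree

/-- Admissible exponents for a tree of depth `R`. -/
structure Exps (e : ℕ → ℝ) (R : ℕ) : Prop where
  pos : 0 < R
  zero : e 0 = 1
  anti : ∀ j, j + 1 < R → e (j + 1) ≤ e j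
  last : 0 < e (R - 1)
  top : e R = 0

/-- The equally spaced exponents. -/
noncomputable def eU (R : ℕ) (j : ℕ) : ℝ := ((R : ℝ) - j) / R

/-- The spin tuple with `ε` in the last place. -/
def snocS {p : ℕ} (s' : Fin (p - 1) → Bool) (ε : Bool) : Fin p → Bool :=
  fun ℓ => if h : ℓ.val < p - 1 then s' ⟨ℓ.val, h⟩ else ε

/-- The cavity factor of a site. -/
noncomputable def siteW {p k : ℕ} (θs : Fin k → Inter p) (h : ℝ)
    (s : Fin k × Fin (p - 1) → Bool) : ℝ :=
  ∑ ε : Bool, Real.exp (h * spinVal ε + ∑ j, θs j (snocS (fun ℓ => s (j, ℓ)) ε))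

/-- The cavity functional of a finite trial. -/
noncomputable def Bfin (p : ℕ) (α : ℝ) (μ : Measure (Inter p)) (ν : Measure ℝ) {S I : Type}
    [Fintype S] [Fintype I] (e : ℕ → ℝ) (R : ℕ) (K : Ker S) (σ : I → List S → Bool) : ℝ :=
  (∑' k : ℕ, poissonWeight (α * p) k *
      ∫ θs, ∫ h, Gprod e R K σ (siteW θs h) ∂ν ∂(Measure.pi fun _ : Fin k => μ)) -
    α * (p - 1 : ℝ) * ∫ θ, Gprod e R K σ (fun s : Fin p → Bool => Real.exp (θ s)) ∂μ

/-- Both spin values have positive probability at the last level. -/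
def PosSpin {S I : Type} [Fintype S] (R : ℕ) (K : Ker S) (σ : I → List S → Bool) : Prop :=
  ∀ i (h : List S) (b : Bool), h.length + 1 = R →
    0 < ∑ s, K h s * (if σ i (s :: h) = b then 1 else 0)

/-- The factorized form, with `p` even or nonnegative factors. -/
def Fac (p : ℕ) (μ : Measure (Inter p)) : Prop :=
  ∃ (Ω : Type) (_ : MeasurableSpace Ω) (P : Measure Ω) (_ : IsProbabilityMeasure P)
    (a b : Ω → ℝ) (f : Fin p → Ω → Bool → ℝ),
    Measurable a ∧ Measurable b ∧ (∀ ℓ, Measurable (f ℓ)) ∧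
    ProbabilityTheory.iIndepFun f P ∧
    (∀ ℓ, ProbabilityTheory.IdentDistrib (f ℓ) (f ⟨0, Fin.pos ℓ⟩) P P) ∧
    ProbabilityTheory.IndepFun b (fun ω => fun ℓ => f ℓ ω) P ∧
    (∀ᵐ ω ∂P, 0 < a ω ∧ ∀ s : Fin p → Bool, |b ω * ∏ ℓ, f ℓ ω (s ℓ)| < 1) ∧
    (∀ n : ℕ, 1 ≤ n → Integrable (fun ω => (-b ω) ^ n) P ∧ 0 ≤ ∫ ω, (-b ω) ^ n ∂P) ∧
    P.map (fun ω => fun s : Fin p → Bool => Real.log (a ω * (1 + b ω * ∏ ℓ, f ℓ ω (s ℓ)))) = μ ∧
    (Even p ∨ ∀ ℓ ω s, 0 ≤ f ℓ ω s)

theorem Fac.of_even {p : ℕ} {μ : Measure (Inter p)} (hp : Even p) (h : HasFactorization p μ) :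
    Fac p μ := by
  obtain ⟨Ω, m, P, hP, a, b, f, h1, h2, h3, h4, h5, h6, h7, h8, h9⟩ := h
  exact ⟨Ω, m, P, hP, a, b, f, h1, h2, h3, h4, h5, h6, h7, h8, h9, Or.inl hp⟩

/-! ### Replica expansions -/

/-- `Λ_{a,a'}(y) = (1 - (1 - a' y)^(a/a')) / a`, and `-log (1 - a' y) / a'` for `a = 0`. -/
noncomputable def Lam (a a' y : ℝ) : ℝ :=
  if a = 0 then -Real.log (1 - a' * y) / a' else (1 - (1 - a' * y) ^ (a / a')) / a

/-- Taylor coefficients of `Lam a a'`. -/
noncomputable def gam (a a' : ℝ) (κ : ℕ) : ℝ :=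
  if κ = 0 then 0 else (∏ m ∈ range (κ - 1), (((m : ℝ) + 1) * a' - a)) / κ.factorial

/-- `Y j h U = (1 - (T j h (1 - U))^(e j)) / e j`, and `-log T` if `e j = 0`. -/
noncomputable def Y {S : Type} [Fintype S] (e : ℕ → ℝ) (K : Ker S) :
    ℕ → List S → (List S → ℝ) → ℝ
  | 0, h, U => U h
  | j + 1, h, U => Lam (e (j + 1)) (e j) (∑ s, K h s * Y e K j (s :: h) U)

section ml
variable {ι : Type} [DecidableEq ι]

/-- Powers for the subset convolution. -/
def cpow (y : Finset ι → ℝ) : ℕ → Finset ι → ℝ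
  | 0, A => if A = ∅ then 1 else 0
  | κ + 1, A => ∑ B ∈ A.powerset, y B * cpow y κ (A \ B)

/-- `Lam a a'` on multilinear coefficients. -/
noncomputable def lamS (a a' : ℝ) (y : Finset ι → ℝ) (A : Finset ι) : ℝ :=
  ∑ κ ∈ Icc 1 A.card, gam a a' κ * cpow y κ A

/-- Multilinear coefficients of `Y`, with a filter `ok j` at the level with exponent `e j`. -/
noncomputable def Yf {S : Type} [Fintype S] (e : ℕ → ℝ) (K : Ker S) (ok : ℕ → Finset ι → ℝ) :
    ℕ → List S → (List S → Finset ι → ℝ) → Finset ι → ℝ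
  | 0, h, u => u h
  | j + 1, h, u => lamS (e (j + 1)) (e j) fun B => ok j B * ∑ s, K h s * Yf e K ok j (s :: h) u B

/-- Leaf coefficients of `U = ∑ q, s_q F_q`. -/
def sing {S : Type} (F : ι → List S → ℝ) (h : List S) (B : Finset ι) : ℝ :=
  if B.card = 1 then ∏ q ∈ B, F q h else 0

/-- The multilinear replica functional. -/
noncomputable def Mml {S : Type} [Fintype S] (e : ℕ → ℝ) (K : Ker S) (j : ℕ) (h : List S)
    (F : ι → List S → ℝ) (A : Finset ι) : ℝ :=
  Yf e K (fun _ _ => 1) j h (sing F) A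

/-- Labelled planar shapes of depth `j`. -/
def Sh (ι : Type) : ℕ → Type
  | 0 => ι
  | j + 1 => List (Sh ι j)

/-- The subtrees of a shape of positive depth. -/
def kids {ι : Type} {j : ℕ} (t : Sh ι (j + 1)) : List (Sh ι j) := t

/-- Replica expectation along a shape. -/
noncomputable def ev {S : Type} [Fintype S] (K : Ker S) (F : ι → List S → ℝ) :
    (j : ℕ) → Sh ι j → List S → ℝ
  | 0, q, h => F q h
  | j + 1, ts, h => ((kids ts).map fun t => ∑ s, K h s * ev K F j t (s :: h)).prod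

/-- Sum over ordered partitions into `κ` blocks, each with a shape. -/
def PP {α : Type} (rec : Finset ι → (α → ℝ) → ℝ) : ℕ → Finset ι → (List α → ℝ) → ℝ
  | 0, A, Φ => if A = ∅ then Φ [] else 0
  | κ + 1, A, Φ => ∑ B ∈ A.powerset, rec B fun t => PP rec κ (A \ B) fun ts => Φ (t :: ts)

/-- Weighted sum over the shapes of depth `j` with leaf set `A`. -/
noncomputable def SS (e : ℕ → ℝ) : (j : ℕ) → Finset ι → (Sh ι j → ℝ) → ℝ
  | 0, A, Φ => if A.card = 1 then ∑ q ∈ A, Φ q else 0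
  | j + 1, A, Φ => ∑ κ ∈ Icc 1 A.card, gam (e (j + 1)) (e j) κ * PP (SS e j) κ A Φ

/-- Leaves of a shape. -/
def lv : (j : ℕ) → Sh ι j → Finset ι
  | 0, q => {q}
  | j + 1, ts => (kids ts).foldr (fun t acc => lv j t ∪ acc) ∅

/-- Well-formed shapes. -/
def WF : (j : ℕ) → Sh ι j → Prop
  | 0, _ => True
  | j + 1, ts => kids ts ≠ [] ∧ (∀ t ∈ kids ts, WF j t) ∧
      (kids ts).Pairwise fun t t' => Disjoint (lv j t) (lv j t')

end ml

/-- Total weight of the shapes with `n` leaves. -/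
noncomputable def wt (e : ℕ → ℝ) (j n : ℕ) : ℝ := SS (ι := Fin n) e j univ fun _ => 1

/-! ### Test gadgets -/

section gadget
variable {ι : Type} [Fintype ι] [DecidableEq ι]

/-- Auxiliary randomness of one gadget at one level. -/
abbrev Ax (ι : Type) := Finset ι × (ι → Bool)

/-- Random signs whose moments are `2^(-card ι)` on the members of `π` and `0` on other nonempty
sets. -/
noncomputable def xs (π : Finset (Finset ι)) (z : Ax ι) (q : ι) : ℝ :=
  if h : z.1 ∈ π ∧ z.1.Nonempty then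
    (if q = h.2.choose then ∏ q' ∈ z.1.erase q, spinVal (z.2 q') else spinVal (z.2 q))
  else spinVal (z.2 q)

/-- The filter produced by `xs` on the levels `j < j0`. -/
noncomputable def okF (π : ℕ → Finset (Finset ι)) (j0 : ℕ) (j : ℕ) (B : Finset ι) : ℝ :=
  if B = ∅ then 1 else if j < j0 then (if B ∈ π j then (2 ^ Fintype.card ι : ℝ)⁻¹ else 0) else 1

/-- Filter for two independent gadgets. -/
noncomputable def okF2 (π : ℕ → Finset (Finset ι)) (j0 : ℕ) (j : ℕ) (B : Finset (ι ⊕ ι)) : ℝ :=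
  okF π j0 j B.toLeft * okF π j0 j B.toRight

/-- Leaf coefficients of `1 - (1 - ∑ s_q F_q)(1 - ∑ t_q F'_q)`. -/
def sing2 {S : Type} (F F' : ι → List S → ℝ) (h : List S) (B : Finset (ι ⊕ ι)) : ℝ :=
  if B.toRight = ∅ then sing F h B.toLeft
  else if B.toLeft = ∅ then sing F' h B.toRight
  else -(sing F h B.toLeft * sing F' h B.toRight)

/-- Indicator that the spin at site `i` has the value `x q`. -/
def ind {S I : Type} (σ : I → List S → Bool) (x : ι → Bool) (i : I) (q : ι) (h : List S) : ℝ :=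
  if σ i h = x q then 1 else 0

/-- The mixed multilinear coefficient of `-log` of the power mean at the node `(h, s0)` whose
children have remaining depth `j`. -/
noncomputable def cdef {S : Type} [Fintype S] (e : ℕ → ℝ) (K : Ker S) (P : List S → S → S → ℝ)
    (π : ℕ → Finset (Finset ι)) (j0 : ℕ) (F F' : ι → List S → ℝ) (A : Finset ι) (j : ℕ)
    (h : List S) (s0 : S) : ℝ :=
  lamS 0 (e j) (fun B => okF2 π j0 j B * ∑ s, P h s0 s * Yf e K (okF2 π j0) j (s :: h) (sing2 F F') B)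
    (A.disjSum A)

/-- The gadget factor `1 - ε ∑_{q ∈ s} ξ_q F_q`; `z` is the history of its auxiliary variables. -/
noncomputable def gad (ε : ℝ) (π : ℕ → Finset (Finset ι)) (j0 : ℕ) (s : Finset ι) (F : ι → ℝ)
    (z : List (Ax ι)) : ℝ :=
  1 - ε * ∑ q ∈ s, (∏ j ∈ range j0, xs (π j) (z.getD j (∅, fun _ => true)) q) * F q

/-- Logarithm of the power mean at the node `(h, s0)` of the product of two gadgets. -/
noncomputable def logT2 {S : Type} [Fintype S] (e : ℕ → ℝ) (K : Ker S) (P : List S → S → S → ℝ)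
    (ε : ℝ) (π π' : ℕ → Finset (Finset ι)) (j0 j0' : ℕ) (s s' : Finset ι)
    (F F' : ι → List S → ℝ) (j : ℕ) (h : List S) (s0 : S) : ℝ :=
  Real.log (∑ w : S × Ax ι × Ax ι, P h s0 w.1 * (Fintype.card (Ax ι × Ax ι) : ℝ)⁻¹ *
    T e (mulK K (unifK (Ax ι × Ax ι))) j
      (w :: h.map fun t => (t, (∅, fun _ => true), (∅, fun _ => true)))
      (fun H => gad ε π j0 s (fun q => F q (H.map Prod.fst)) (H.map fun t => t.2.1) *
        gad ε π' j0' s' (fun q => F' q (H.map Prod.fst)) (H.map fun t => t.2.2)) ^ e j) / e j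

/-- The additivity defect of two gadgets at the node `(h, s0)`. -/
noncomputable def Ddef {S : Type} [Fintype S] (e : ℕ → ℝ) (K : Ker S) (P : List S → S → S → ℝ)
    (ε : ℝ) (π π' : ℕ → Finset (Finset ι)) (j0 j0' : ℕ) (s s' : Finset ι)
    (F F' : ι → List S → ℝ) (j : ℕ) (h : List S) (s0 : S) : ℝ :=
  logT2 e K P ε π π' j0 j0' s s' F F' j h s0 - logT2 e K P ε π π' j0 j0' s ∅ F F' j h s0 -
    logT2 e K P ε π π' j0 j0' ∅ s' F F' j h s0

end gadget

/-- Extension by `∅` of a finite family of block systems. -/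
def extP {ι : Type} {R : ℕ} (π : Fin R → Finset (Finset ι)) (j : ℕ) : Finset (Finset ι) :=
  if h : j < R then π ⟨j, h⟩ else ∅

/-- Total size of the mixed coefficients (all levels, all test types on `Fin D`). -/
noncomputable def Cerr {S I : Type} [Fintype S] [Fintype I] (D R : ℕ) (K : Ker S)
    (P : List S → S → S → ℝ) (σ : I → List S → Bool) : ℝ :=
  ∑ j : Fin R, ∑ x : Fin D → Bool, ∑ π : Fin R → Finset (Finset (Fin D)),
    ∑ j0 ∈ range (j.val + 2), ∑ A : Finset (Fin D),
      pathE K (R - 1 - j.val) fun h => ∑ s0, K h s0 * 𝔼 i : I × I,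
        |cdef (eU R) K P (extP π) j0 (ind σ x i.1) (ind σ x i.2) A j h s0|

/-- Total additivity defect (all levels, all test types on `Fin D`). -/
noncomputable def Derr {S I : Type} [Fintype S] [Fintype I] (D R : ℕ) (ε : ℝ) (K : Ker S)
    (P : List S → S → S → ℝ) (σ : I → List S → Bool) : ℝ :=
  ∑ j : Fin R, ∑ x : Fin D → Bool, ∑ π : Fin R → Finset (Finset (Fin D)),
    ∑ j0 ∈ range (j.val + 2), ∑ s : Finset (Fin D), ∑ s' : Finset (Fin D),
      pathE K (R - 1 - j.val) fun h => ∑ s0, K h s0 * 𝔼 i : I × I,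
        |Ddef (eU R) K P ε (extP π) (extP π) j0 j0 s s' (ind σ x i.1) (ind σ x i.2) j h s0|

/-- Push-forward of the Gibbs weights to the gadget sites. -/
noncomputable def marg {I Γ : Type} [Fintype I] [DecidableEq I] [Fintype Γ] [DecidableEq Γ]
    (a : Γ → I) (H : (I → Bool) → ℝ) (τ : Γ → Bool) : ℝ :=
  ∑ σ : I → Bool, if (fun g => σ (a g)) = τ then Real.exp (H σ) else 0

/-- The set whose infimum is the limit. -/
def trialSet (p : ℕ) (α : ℝ) (μ : Measure (Inter p)) (ν : Measure ℝ) : Set ℝ :=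
  {B : ℝ | ∃ (r : ℕ) (m : Fin r → ℝ) (X : (Fin (r + 1) → unitInterval) → ℝ),
    AdmissibleExponents m ∧ Measurable X ∧ B = trialFunctional p α μ ν r m X}

/-! ### Objects for T2 (decoupling) -/

section t2
variable {S ι : Type} [Fintype S]

/-- Replica expectation at the node `(h, s0)`. -/
noncomputable def phi (K : Ker S) (P : List S → S → S → ℝ) (F : ι → List S → ℝ) (j : ℕ)
    (t : Sh ι j) (h : List S) (s0 : S) : ℝ :=
  ∑ s, P h s0 s * ev K F j t (s :: h)

/-- One step `(h, s0) → (s :: h, s0')` of the node chain. -/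
noncomputable def step (K : Ker S) (P : List S → S → S → ℝ) (F : List S → S → ℝ) (h : List S)
    (s0 : S) : ℝ :=
  ∑ s, P h s0 s * ∑ s0', K (s :: h) s0' * F (s :: h) s0'

/-- Expectation over the nodes `(h, s0)` with `h` of length `n`. -/
noncomputable def nodeE (K : Ker S) (n : ℕ) (F : List S → S → ℝ) : ℝ :=
  pathE K n fun h => ∑ s0, K h s0 * F h s0

end t2

/-! ### Objects for T4 (the perturbed system) -/

/-- `μ` conditioned on `β = β s0`. -/
noncomputable def condP {S X : Type} [Fintype S] [DecidableEq X] (μ : S → ℝ) (β : S → X)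
    (s0 s : S) : ℝ :=
  (if β s = β s0 then μ s else 0) / ∑ s', if β s' = β s0 then μ s' else 0

/-- Covariance of two bits. -/
noncomputable def covB {S : Type} [Fintype S] (μ : S → ℝ) (τ τ' : S → Bool) : ℝ :=
  (∑ s, if τ s = true ∧ τ' s = true then μ s else 0) -
    (∑ s, if τ s = true then μ s else 0) * ∑ s, if τ' s = true then μ s else 0

/-- Test types `(x, π, j0, s)`. -/
abbrev Ty (D R : ℕ) : Type :=
  (Fin D → Bool) × (Fin R → Finset (Finset (Fin D))) × Fin (R + 1) × Finset (Fin D)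

/-- Per level randomness of a gadget: a switch bit and the auxiliary variables. -/
abbrev Om (D : ℕ) : Type := Bool × Ax (Fin D)

/-- The factor of a gadget of type `y` whose switch is read at the level with exponent `e k`;
`b` is the spin at its site and `z` the history of its randomness. -/
noncomputable def gfac {D R : ℕ} (ε : ℝ) (k : ℕ) (y : Ty D R) (b : Bool) (z : List (Om D)) : ℝ :=
  if (z.getD k (false, ∅, fun _ => true)).1 = true then
    gad ε (extP y.2.1) y.2.2.1.val y.2.2.2 (fun q => if b = y.1 q then 1 else 0) (z.map Prod.snd)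
  else 1

/-- Outcomes of the perturbed system. -/
abbrev Sys (Γ I : Type) (D : ℕ) : Type := (Γ → Om D) × (I → Bool)

/-- The spin configuration is read at the last level. -/
def conf {Γ I : Type} {D : ℕ} (l : List (Sys Γ I D)) : I → Bool :=
  (l.map Prod.snd).headD fun _ => true

/-- Leaf weight of the perturbed system with active gadgets `Act`. -/
noncomputable def Zsys {Γ I : Type} {D R : ℕ} (ε : ℝ) (lev : Γ → ℕ) (y : Γ → Ty D R) (a : Γ → I)
    (H : (I → Bool) → ℝ) (Act : Finset Γ) (l : List (Sys Γ I D)) : ℝ :=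
  Real.exp (H (conf l)) * ∏ g ∈ Act, gfac ε (lev g) (y g) (conf l (a g)) (l.map fun s => s.1 g)

/-- Its Gibbs kernel. -/
noncomputable def Ksys {Γ I : Type} [Fintype Γ] [DecidableEq Γ] [Fintype I] [DecidableEq I]
    {D R : ℕ} (ε : ℝ) (lev : Γ → ℕ) (y : Γ → Ty D R) (a : Γ → I) (H : (I → Bool) → ℝ)
    (Act : Finset Γ) : Ker (Sys Γ I D) :=
  tiltK (eU R) (unifK (Sys Γ I D)) R (Zsys ε lev y a H Act)

/-- The switch bits of the gadgets in `B`. -/
def bits {Γ I : Type} [DecidableEq Γ] {D : ℕ} (B : Finset Γ) (s : Sys Γ I D) : Γ → Bool :=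
  fun g => if g ∈ B then (s.1 g).1 else false

/-- Gadgets `(level, position)`. -/
abbrev Gam (R Θ : ℕ) : Type := Fin R × Fin (Θ + 2)

/-- All gadgets but `(k, θ k)` and `(k, last)`. -/
def actS {R Θ : ℕ} (θ : Fin R → Fin (Θ + 1)) : Finset (Gam R Θ) :=
  univ.filter fun g => g.2 ≠ (θ g.1).castSucc ∧ g.2 ≠ Fin.last _

/-- The pinned gadgets at level `k`. -/
def pinS {R Θ : ℕ} (θ : Fin R → Fin (Θ + 1)) (k : ℕ) : Finset (Gam R Θ) :=
  univ.filter fun g => g.1.val = k ∧ g.2.val < (θ g.1).val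

/-- The conditional kernels of the perturbed system. -/
noncomputable def Psys {I : Type} [Fintype I] [DecidableEq I] {D R Θ : ℕ} (ε : ℝ)
    (θ : Fin R → Fin (Θ + 1)) (y : Gam R Θ → Ty D R) (a : Gam R Θ → I) (H : (I → Bool) → ℝ)
    (h : List (Sys (Gam R Θ) I D)) (s0 s : Sys (Gam R Θ) I D) : ℝ :=
  condP (Ksys ε (fun g => g.1.val) y a H (actS θ) h) (bits (pinS θ (R - 1 - h.length))) s0 s

/-! ### Objects for T5 -/

/-- One spin of the system `(K0, σ0)` in the last place, independent labels in the others. -/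
noncomputable def Gmix {p : ℕ} {S0 I0 S I : Type} [Fintype S0] [Fintype I0] [Fintype S] [Fintype I]
    (e : ℕ → ℝ) (R : ℕ) (K0 : Ker S0) (σ0 : I0 → List S0 → Bool) (K : Ker S)
    (σ : I → List S → Bool) (θ : Inter p) : ℝ :=
  𝔼 i0 : I0, 𝔼 i : Fin (p - 1) → I,
    Real.log (T e (mulK K0 (prodK (Fin (p - 1)) K)) R [] fun H =>
      Real.exp (θ (snocS (fun ℓ => σ (i ℓ) ((H.map Prod.snd).map fun t => t ℓ))
        (σ0 i0 (H.map Prod.fst)))))

/-! ### Objects for T7 -/

/-- Monotone, shift equivariant functionals of a Hamiltonian. -/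
def Good {C : Type} (Φ : (C → ℝ) → ℝ) : Prop :=
  ∀ (H H' : C → ℝ) (c : ℝ), (∀ s, H s ≤ H' s + c) → Φ H ≤ Φ H' + c

/-- Expectation of `Φ` of the Hamiltonian of the model on `N` spins. -/
noncomputable def ell (p : ℕ) (α : ℝ) (μ : Measure (Inter p)) (ν : Measure ℝ) (N : ℕ)
    (Φ : ((Fin N → Bool) → ℝ) → ℝ) : ℝ :=
  ∑' M : ℕ, poissonWeight (α * N) M *
    ∫ θs, ∫ hs, (𝔼 idx : Fin M → Fin p → Fin N,
        Φ fun σ => (∑ k : Fin M, θs k (fun ℓ => σ (idx k ℓ))) + ∑ i : Fin N, hs i * spinVal (σ i))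
      ∂(Measure.pi fun _ : Fin N => ν) ∂(Measure.pi fun _ : Fin M => μ)

/-- Adding a spin with Poisson(`α p`) interactions. -/
noncomputable def siteAvg (p : ℕ) (α : ℝ) (μ : Measure (Inter p)) (ν : Measure ℝ) (N : ℕ)
    (Φ : ((Fin (N + 1) → Bool) → ℝ) → ℝ) (H : (Fin N → Bool) → ℝ) : ℝ :=
  ∑' k : ℕ, poissonWeight (α * p) k *
    ∫ θs, ∫ h, (𝔼 i : Fin k × Fin (p - 1) → Fin N,
        Φ fun σ => H (fun v => σ v.castSucc) + (h * spinVal (σ (Fin.last N)) +
          ∑ j, θs j (snocS (fun ℓ => σ (i (j, ℓ)).castSucc) (σ (Fin.last N)))))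
      ∂ν ∂(Measure.pi fun _ : Fin k => μ)

/-- Adding Poisson(`α (p - 1)`) interactions. -/
noncomputable def edgeAvg (p : ℕ) (α : ℝ) (μ : Measure (Inter p)) (N : ℕ)
    (Φ : ((Fin N → Bool) → ℝ) → ℝ) (H : (Fin N → Bool) → ℝ) : ℝ :=
  ∑' M : ℕ, poissonWeight (α * (p - 1)) M *
    ∫ θs, (𝔼 i : Fin M × Fin p → Fin N, Φ fun σ => H σ + ∑ k, θs k fun ℓ => σ (i (k, ℓ)))
      ∂(Measure.pi fun _ : Fin M => μ)

/-! ### Objects for T8 -/

/-- Average of `W` over independent spins with probabilities `q m` of `true`. -/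
def mlW {L : Type} [Fintype L] [DecidableEq L] (W : (L → Bool) → ℝ) (q : L → ℝ) : ℝ :=
  ∑ s : L → Bool, W s * ∏ m, if s m = true then q m else 1 - q m

/-- The continuum version of `Gprod`. -/
noncomputable def GQ {L : Type} [Fintype L] [DecidableEq L] {r : ℕ} (m : Fin r → ℝ)
    (q : (Fin (r + 1) → unitInterval) → ℝ) (W : (L → Bool) → ℝ) : ℝ :=
  ∫ u, Real.log (powerMeans m (fun u' : L → Fin (r + 1) → unitInterval =>
    mlW W fun ω => q (u' ω)) u) ∂(uniformArrays L r)

/-- The continuum version of `Bfin`. -/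
noncomputable def TF (p : ℕ) (α : ℝ) (μ : Measure (Inter p)) (ν : Measure ℝ) {r : ℕ}
    (m : Fin r → ℝ) (q : (Fin (r + 1) → unitInterval) → ℝ) : ℝ :=
  (∑' k : ℕ, poissonWeight (α * p) k *
      ∫ θs, ∫ h, GQ m q (siteW θs h) ∂ν ∂(Measure.pi fun _ : Fin k => μ)) -
    α * (p - 1 : ℝ) * ∫ θ, GQ m q (fun s : Fin p → Bool => Real.exp (θ s)) ∂μ

/-- The history of length `n` sampled from the uniforms `u 1, …, u n`. -/
def sampleH {S : Type} {r : ℕ} (φ : List S → unitInterval → S) (u : Fin (r + 1) → unitInterval) :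
    ℕ → List S
  | 0 => []
  | n + 1 => φ (sampleH φ u n) (u (Fin.ofNat (r + 1) (n + 1))) :: sampleH φ u n

/-- The probability of the spin value `true` given the uniforms. -/
noncomputable def sampleQ {S I : Type} [Fintype S] {r : ℕ} (K : Ker S) (σ : I → List S → Bool)
    (ι0 : unitInterval → I) (φ : List S → unitInterval → S) (u : Fin (r + 1) → unitInterval) : ℝ :=
  ∑ s, K (sampleH φ u r) s * if σ (ι0 (u 0)) (s :: sampleH φ u r) = true then 1 else 0

end Crest.Agent.H9.MP
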