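import Crest.Agent.H9.MP.Defs

/-! MP-Poi: Poisson sums. -/

/-
Sketch. poisson_array: Φ(t) = Σ_{k,m} Poi(tλ) k Poi(P(1-t)λ) m ψ k m on [0,1]; d/dx Poi(x) k = Poi(x)(k-1) - Poi(x) k, so Φ' = λ E Δ1ψ - Pλ E Δ2ψ ≤ -cλ
(hasDerivAt_tsum_of_isPreconnected on ℕ × ℕ, or write e^{x+y} g(x,y) as a double power series; or discretize: replace Poi by n steps and use poi_add/poi_lip type bounds).
-/

set_option autoImplicit false

namespace Crest.Agent.H9.MP

open Finset Crest.ProbabilityR.Diluted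

theorem poi_nonneg {lam : ℝ} (h : 0 ≤ lam) (n : ℕ) : 0 ≤ poissonWeight lam n := by
  unfold poissonWeight; positivity

theorem hasSum_poi (lam : ℝ) : HasSum (poissonWeight lam) 1 := by
  have h := (NormedSpace.expSeries_div_hasSum_exp lam).mul_left (Real.exp (-lam))
  rw [← Real.exp_eq_exp_ℝ, ← Real.exp_add, neg_add_cancel, Real.exp_zero] at h
  have e : poissonWeight lam = fun n => Real.exp (-lam) * (lam ^ n / n.factorial) := by
    funext n; rw [poissonWeight, mul_div_assoc]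
  rw [e]; exact h

theorem hasSum_poi_mul (lam : ℝ) : HasSum (fun n : ℕ => poissonWeight lam n * n) lam := by
  rw [← hasSum_nat_add_iff' 1]
  have h := (hasSum_poi lam).mul_left lam
  have e : (fun n : ℕ => poissonWeight lam (n + 1) * ((n + 1 : ℕ) : ℝ))
      = fun n => lam * poissonWeight lam n := by
    funext n
    unfold poissonWeight
    rw [Nat.factorial_succ, pow_succ]; push_cast; field_simp
  rw [e]; simpa using h

theorem hasSum_poi_affine (lam a b : ℝ) :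
    HasSum (fun n : ℕ => poissonWeight lam n * (a + b * n)) (a + b * lam) := by
  have h := ((hasSum_poi lam).mul_left a).add ((hasSum_poi_mul lam).mul_left b)
  have e : (fun n : ℕ => poissonWeight lam n * (a + b * n))
      = fun n : ℕ => a * poissonWeight lam n + b * (poissonWeight lam n * n) := by
    funext n; ring
  rw [e]; simpa using h

theorem summable_poi {lam : ℝ} (h : 0 ≤ lam) {ψ : ℕ → ℝ} {C : ℝ} (hψ : ∀ n, |ψ n| ≤ C * (1 + n)) :
    Summable fun n => poissonWeight lam n * ψ n := by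
  refine Summable.of_norm_bounded (hasSum_poi_affine lam C C).summable fun n => ?_
  rw [Real.norm_eq_abs, abs_mul, abs_of_nonneg (poi_nonneg h n)]
  exact mul_le_mul_of_nonneg_left ((hψ n).trans (le_of_eq (by ring))) (poi_nonneg h n)

theorem tsum_poi_mono {lam : ℝ} (h : 0 ≤ lam) {ψ φ : ℕ → ℝ} {C : ℝ}
    (hψ : ∀ n, |ψ n| ≤ C * (1 + n)) (hφ : ∀ n, |φ n| ≤ C * (1 + n)) {a b : ℝ}
    (hle : ∀ n, ψ n ≤ φ n + (a + b * n)) :
    ∑' n, poissonWeight lam n * ψ n ≤ ∑' n, poissonWeight lam n * φ n + (a + b * lam) := by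
  rw [← (hasSum_poi_affine lam a b).tsum_eq,
    ← (summable_poi h hφ).tsum_add (hasSum_poi_affine lam a b).summable]
  refine (summable_poi h hψ).tsum_le_tsum (fun n => ?_)
    ((summable_poi h hφ).add (hasSum_poi_affine lam a b).summable)
  rw [← mul_add]
  exact mul_le_mul_of_nonneg_left (hle n) (poi_nonneg h n)

/-- Tails of a Poisson sum of linear growth. -/
theorem poi_tail {lam : ℝ} (h : 0 ≤ lam) {ε : ℝ} (hε : 0 < ε) :
    ∃ n0 : ℕ, ∑' n : ℕ, poissonWeight lam n * (if n ≤ n0 then 0 else 1 + (n : ℝ)) ≤ ε := by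
  have ht := tendsto_sum_nat_add (fun n : ℕ => poissonWeight lam n * (1 + (n : ℝ)))
  obtain ⟨n0, hn0⟩ := Filter.eventually_atTop.1 (ht.eventually (gt_mem_nhds hε))
  refine ⟨n0, ?_⟩
  have hs : Summable fun n : ℕ => poissonWeight lam n * (if n ≤ n0 then 0 else 1 + (n : ℝ)) :=
    summable_poi h (C := 1) fun n => by
      split_ifs
      · simp only [abs_zero]; positivity
      · rw [abs_of_nonneg (by positivity), one_mul]
  rw [← hs.sum_add_tsum_nat_add (n0 + 1), sum_eq_zero, zero_add]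
  · refine le_trans (le_of_eq (tsum_congr fun n => ?_)) (hn0 (n0 + 1) (by omega)).le
    rw [if_neg (by omega)]
  · intro n hn
    rw [if_pos (by have := mem_range.1 hn; omega), mul_zero]

theorem tsum_antidiag {F : ℕ × ℕ → ℝ} (hF : Summable F) :
    ∑' n, ∑ km ∈ antidiagonal n, F km = ∑' km, F km := by
  conv_lhs => congr; ext; rw [← Finset.sum_finset_coe, ← tsum_fintype (L := .unconditional _)]
  rw [← HasAntidiagonal.sigmaAntidiagonalEquivProd.tsum_eq F]
  exact ((HasAntidiagonal.sigmaAntidiagonalEquivProd.summable_iff.2 hF).tsum_sigma'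
    (fun n => (hasSum_fintype _).summable)).symm

theorem summable_poi2 {l0 l1 : ℝ} (h0 : 0 ≤ l0) (h1 : 0 ≤ l1) {ψ : ℕ → ℕ → ℝ} {C : ℝ}
    (hψ : ∀ k m, |ψ k m| ≤ C * (1 + k + m)) :
    Summable fun km : ℕ × ℕ => poissonWeight l0 km.1 * (poissonWeight l1 km.2 * ψ km.1 km.2) := by
  have hC : 0 ≤ C := by have := (abs_nonneg _).trans (hψ 0 0); simpa using this
  have hs := ((hasSum_poi_affine l0 1 1).summable.mul_of_nonneg (hasSum_poi_affine l1 1 1).summable
    (fun n => mul_nonneg (poi_nonneg h0 n) (by positivity))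
    (fun n => mul_nonneg (poi_nonneg h1 n) (by positivity))).mul_left C
  refine Summable.of_norm_bounded hs fun km => ?_
  rw [Real.norm_eq_abs, abs_mul, abs_mul, abs_of_nonneg (poi_nonneg h0 _),
    abs_of_nonneg (poi_nonneg h1 _)]
  have h2 : |ψ km.1 km.2| ≤ C * ((1 + 1 * km.1) * (1 + 1 * km.2)) := by
    refine (hψ _ _).trans (mul_le_mul_of_nonneg_left ?_ hC)
    have : (0:ℝ) ≤ (km.1 : ℝ) * km.2 := by positivity
    nlinarith
  calc _ ≤ poissonWeight l0 km.1 * (poissonWeight l1 km.2 * (C * ((1 + 1 * km.1) * (1 + 1 * km.2)))) :=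
        mul_le_mul_of_nonneg_left (mul_le_mul_of_nonneg_left h2 (poi_nonneg h1 _)) (poi_nonneg h0 _)
    _ = _ := by ring

/-- Thinning. -/
theorem poi_thin {l0 l1 : ℝ} (h0 : 0 ≤ l0) (h1 : 0 ≤ l1) {q : ℝ} (hq : q * (l0 + l1) = l0)
    (hq0 : 0 ≤ q) (hq1 : q ≤ 1) {ψ : ℕ → ℕ → ℝ} {C : ℝ} (hψ : ∀ k m, |ψ k m| ≤ C * (1 + k + m)) :
    ∑' n, poissonWeight (l0 + l1) n *
        ∑ km ∈ antidiagonal n, (n.choose km.1 : ℝ) * q ^ km.1 * (1 - q) ^ km.2 * ψ km.1 km.2 =
      ∑' k, poissonWeight l0 k * ∑' m, poissonWeight l1 m * ψ k m := by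
  have hs := summable_poi2 h0 h1 hψ
  have hq' : (1 - q) * (l0 + l1) = l1 := by linarith
  simp only [← tsum_mul_left]
  rw [← hs.tsum_prod, ← tsum_antidiag hs]
  refine tsum_congr fun n => ?_
  rw [mul_sum]
  refine sum_congr rfl fun km hkm => ?_
  obtain ⟨k, m⟩ := km
  obtain rfl : k + m = n := mem_antidiagonal.1 hkm
  have h3 : ((k + m).choose k : ℝ) * k.factorial * m.factorial = (k + m).factorial := by
    have := Nat.add_choose_mul_factorial_mul_factorial m k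
    rw [add_comm m k] at this
    exact_mod_cast (by rw [← this]; ring : (k + m).choose k * k.factorial * m.factorial = _)
  have h4 : l0 ^ k = q ^ k * (l0 + l1) ^ k := by rw [← mul_pow, hq]
  have h5 : l1 ^ m = (1 - q) ^ m * (l0 + l1) ^ m := by rw [← mul_pow, hq']
  have h6 : (((k + m).choose k : ℕ) : ℝ) ≠ 0 := by
    exact_mod_cast (Nat.choose_pos (by omega)).ne'
  simp only [poissonWeight]
  rw [h4, h5, ← h3, neg_add, Real.exp_add, pow_add]
  field_simp

theorem sum_binom (q : ℝ) (n : ℕ) :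
    ∑ km ∈ antidiagonal n, (n.choose km.1 : ℝ) * q ^ km.1 * (1 - q) ^ km.2 = 1 := by
  have := (Commute.all q (1 - q)).add_pow' n
  simp only [add_sub_cancel, one_pow, nsmul_eq_mul] at this
  exact (sum_congr rfl fun _ _ => mul_assoc _ _ _).trans this.symm

theorem sum_binom_mul (q : ℝ) (n : ℕ) (a : ℝ) :
    a = ∑ km ∈ antidiagonal n, (n.choose km.1 : ℝ) * q ^ km.1 * (1 - q) ^ km.2 * a := by
  rw [← sum_mul, sum_binom, one_mul]

theorem poi_add {l0 l1 : ℝ} (h0 : 0 ≤ l0) (h1 : 0 ≤ l1) {ψ : ℕ → ℝ} {C : ℝ}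
    (hψ : ∀ n, |ψ n| ≤ C * (1 + n)) :
    ∑' n, poissonWeight (l0 + l1) n * ψ n =
      ∑' k, poissonWeight l0 k * ∑' m, poissonWeight l1 m * ψ (k + m) := by
  have hq : l0 / (l0 + l1) * (l0 + l1) = l0 := by
    by_cases h : l0 + l1 = 0
    · rw [h, mul_zero]; linarith
    · field_simp
  rw [← poi_thin h0 h1 hq (by positivity) (div_le_one_of_le₀ (by linarith) (by positivity))
    (ψ := fun k m => ψ (k + m)) (C := C) (fun k m => by simpa [add_assoc] using hψ (k + m))]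
  refine tsum_congr fun n => ?_
  congr 1
  refine (sum_binom_mul (l0 / (l0 + l1)) n _).trans ?_
  exact sum_congr rfl fun km hkm => by rw [mem_antidiagonal.1 hkm]

theorem lip_add {ψ : ℕ → ℝ} {L : ℝ} (hψ : ∀ n, |ψ (n + 1) - ψ n| ≤ L) (k : ℕ) :
    ∀ m : ℕ, |ψ (k + m) - ψ k| ≤ L * m
  | 0 => by simp
  | m + 1 => by
    have h1 := lip_add hψ k m
    have h2 := hψ (k + m)
    have h3 := abs_sub_le (ψ (k + m + 1)) (ψ (k + m)) (ψ k)
    rw [← add_assoc]; push_cast; linarith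

theorem lip_growth {ψ : ℕ → ℝ} {L : ℝ} (hψ : ∀ n, |ψ (n + 1) - ψ n| ≤ L) (n : ℕ) :
    |ψ n| ≤ (|ψ 0| + L) * (1 + n) := by
  have hL : 0 ≤ L := (abs_nonneg _).trans (hψ 0)
  have h1 := lip_add hψ 0 n
  rw [zero_add] at h1
  have h2 : |ψ n| ≤ |ψ n - ψ 0| + |ψ 0| := by simpa using abs_add_le (ψ n - ψ 0) (ψ 0)
  have h4 : (0:ℝ) ≤ n := Nat.cast_nonneg _
  nlinarith [mul_nonneg (abs_nonneg (ψ 0)) h4]

theorem poi_lip' {l0 d : ℝ} (h0 : 0 ≤ l0) (hd : 0 ≤ d) {ψ : ℕ → ℝ} {L : ℝ}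
    (hψ : ∀ n, |ψ (n + 1) - ψ n| ≤ L) :
    |∑' n, poissonWeight l0 n * ψ n - ∑' n, poissonWeight (l0 + d) n * ψ n| ≤ d * L := by
  have hL : 0 ≤ L := (abs_nonneg _).trans (hψ 0)
  have hg := lip_growth hψ
  have hin : ∀ k, |∑' m, poissonWeight d m * ψ (k + m) - ψ k| ≤ d * L := by
    intro k
    have hc : ∑' m, poissonWeight d m * ψ k = ψ k := by
      rw [tsum_mul_right, (hasSum_poi d).tsum_eq, one_mul]
    have g1 : ∀ m : ℕ, |ψ (k + m)| ≤ (|ψ k| + L) * (1 + m) := fun m => by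
      simpa using lip_growth (ψ := fun m => ψ (k + m)) (fun n => hψ (k + n)) m
    have g2 : ∀ m : ℕ, |ψ k| ≤ (|ψ k| + L) * (1 + m) := fun m => by
      have h4 : (0:ℝ) ≤ m := Nat.cast_nonneg _
      nlinarith [mul_nonneg (abs_nonneg (ψ k)) h4, mul_nonneg hL h4]
    have a1 := tsum_poi_mono hd g1 g2 (a := 0) (b := L)
      (fun m => by have := (abs_le.1 (lip_add hψ k m)).2; linarith)
    have a2 := tsum_poi_mono hd g2 g1 (a := 0) (b := L)
      (fun m => by have := (abs_le.1 (lip_add hψ k m)).1; linarith)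
    rw [hc] at a1 a2
    rw [abs_le]; constructor <;> linarith
  rw [poi_add h0 hd hg]
  have g3 : ∀ k : ℕ, |∑' m, poissonWeight d m * ψ (k + m)| ≤ (|ψ 0| + L + d * L) * (1 + k) :=
    fun k => by
      have h1 := hin k
      have h2 := hg k
      have h3 := abs_add_le (∑' m, poissonWeight d m * ψ (k + m) - ψ k) (ψ k)
      rw [sub_add_cancel] at h3
      have h4 : (0:ℝ) ≤ k := Nat.cast_nonneg _
      nlinarith [mul_nonneg (mul_nonneg hd hL) h4]
  have g4 : ∀ k : ℕ, |ψ k| ≤ (|ψ 0| + L + d * L) * (1 + k) := fun k =>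
    (hg k).trans (mul_le_mul_of_nonneg_right (by nlinarith [mul_nonneg hd hL]) (by positivity))
  have a1 := tsum_poi_mono h0 g3 g4 (a := d * L) (b := 0)
    (fun k => by have := (abs_le.1 (hin k)).2; linarith)
  have a2 := tsum_poi_mono h0 g4 g3 (a := d * L) (b := 0)
    (fun k => by have := (abs_le.1 (hin k)).1; linarith)
  rw [abs_le]; constructor <;> linarith

theorem poi_lip {l0 l1 : ℝ} (h0 : 0 ≤ l0) (h1 : 0 ≤ l1) {ψ : ℕ → ℝ} {L : ℝ}
    (hψ : ∀ n, |ψ (n + 1) - ψ n| ≤ L) :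
    |∑' n, poissonWeight l0 n * ψ n - ∑' n, poissonWeight l1 n * ψ n| ≤ |l0 - l1| * L := by
  rcases le_total l0 l1 with h | h
  · have := poi_lip' h0 (sub_nonneg.2 h) hψ
    rwa [add_sub_cancel, ← abs_of_nonneg (sub_nonneg.2 h), abs_sub_comm l1 l0] at this
  · have := poi_lip' h1 (sub_nonneg.2 h) hψ
    rwa [add_sub_cancel, ← abs_of_nonneg (sub_nonneg.2 h), abs_sub_comm] at this

/-- Binomial average. -/
noncomputable def bin (q : ℝ) (n : ℕ) (φ : ℕ → ℝ) : ℝ :=
  ∑ km ∈ antidiagonal n, (n.choose km.1 : ℝ) * q ^ km.1 * (1 - q) ^ km.2 * φ km.1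

theorem bin_succ (q : ℝ) (n : ℕ) (φ : ℕ → ℝ) :
    bin q (n + 1) φ = bin q n fun i => (1 - q) * φ i + q * φ (i + 1) := by
  unfold bin
  have := sum_antidiagonal_choose_succ_mul (fun i j => q ^ i * (1 - q) ^ j * φ i) n
  simp only [← mul_assoc] at this
  rw [this, ← sum_add_distrib]
  refine sum_congr rfl fun km hkm => ?_
  rw [Nat.choose_symm_of_eq_add (mem_antidiagonal.1 hkm).symm]; ring

theorem bin_mono {q : ℝ} (h0 : 0 ≤ q) (h1 : q ≤ 1) (n : ℕ) {φ φ' : ℕ → ℝ} {a : ℝ}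
    (h : ∀ i ≤ n, φ i ≤ φ' i + a) : bin q n φ ≤ bin q n φ' + a := by
  unfold bin
  rw [sum_binom_mul q n a, ← sum_add_distrib]
  refine sum_le_sum fun km hkm => ?_
  rw [← mul_add]
  have := sub_nonneg.2 h1
  exact mul_le_mul_of_nonneg_left (h _ (by have := mem_antidiagonal.1 hkm; omega)) (by positivity)

theorem bin_zero (q : ℝ) (n : ℕ) : bin q n (fun _ => 0) = 0 := by simp [bin]

theorem abs_bin_le {q : ℝ} (h0 : 0 ≤ q) (h1 : q ≤ 1) (n : ℕ) {φ : ℕ → ℝ} {C : ℝ}
    (h : ∀ i, |φ i| ≤ C * (1 + i)) : |bin q n φ| ≤ C * (1 + n) := by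
  have hC : 0 ≤ C := by have := (abs_nonneg _).trans (h 0); simpa using this
  have hi : ∀ i ≤ n, |φ i| ≤ C * (1 + n) := fun i hi => (h i).trans
    (mul_le_mul_of_nonneg_left (by have : (i:ℝ) ≤ n := by exact_mod_cast hi
                                   linarith) hC)
  have a1 := bin_mono h0 h1 n (φ := φ) (φ' := fun _ => 0) (a := C * (1 + n))
    (fun i h => by have := (abs_le.1 (hi i h)).2; linarith)
  have a2 := bin_mono h0 h1 n (φ := fun _ => 0) (φ' := φ) (a := C * (1 + n))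
    (fun i h => by have := (abs_le.1 (hi i h)).1; linarith)
  rw [bin_zero] at a1 a2
  rw [abs_le]; constructor <;> linarith

theorem poi_bin {l0 l1 q : ℝ} (h0 : 0 ≤ l0) (h1 : 0 ≤ l1) (hq : q * (l0 + l1) = l0)
    (hq0 : 0 ≤ q) (hq1 : q ≤ 1) {φ : ℕ → ℝ} {C : ℝ} (h : ∀ i, |φ i| ≤ C * (1 + i)) :
    ∑' n, poissonWeight (l0 + l1) n * bin q n φ = ∑' k, poissonWeight l0 k * φ k := by
  have hC : 0 ≤ C := by have := (abs_nonneg _).trans (h 0); simpa using this
  have := poi_thin h0 h1 hq hq0 hq1 (ψ := fun k _ => φ k) (C := C) (fun k m =>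
    (h k).trans (mul_le_mul_of_nonneg_left (by have : (0:ℝ) ≤ m := Nat.cast_nonneg _
                                               linarith) hC))
  simp only [tsum_mul_right, (hasSum_poi l1).tsum_eq, one_mul] at this
  exact this

theorem bin_step {c P : ℝ} (hP : 0 ≤ P) : ∀ (n : ℕ) (ψ : ℕ → ℕ → ℝ),
    (∀ k m, ψ (k + 1) m - ψ k m + c ≤ P * (ψ k (m + 1) - ψ k m)) →
    bin (1 / (1 + P)) n (fun i => ψ i 0)
      ≤ bin (P / (1 + P)) n (fun j => ψ 0 j) + (0 + (-c / (1 + P)) * n)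
  | 0, ψ, _ => by simp [bin]
  | n + 1, ψ, h => by
    have hP1 : 0 < 1 + P := by linarith
    have hq0 : 0 ≤ P / (1 + P) := by positivity
    have hq1 : 0 ≤ 1 - P / (1 + P) := sub_nonneg.2 (div_le_one_of_le₀ (by linarith) hP1.le)
    have ih := bin_step hP n (fun k m => (1 - P / (1 + P)) * ψ k m + P / (1 + P) * ψ k (m + 1))
      (fun k m => by
        have a1 := mul_le_mul_of_nonneg_left (h k m) hq1
        have a2 := mul_le_mul_of_nonneg_left (h k (m + 1)) hq0
        nlinarith)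
    rw [bin_succ, bin_succ]
    have h2 := bin_mono (q := 1 / (1 + P)) (by positivity) (div_le_one_of_le₀ (by linarith) hP1.le) n
      (φ := fun i => (1 - 1 / (1 + P)) * ψ i 0 + 1 / (1 + P) * ψ (i + 1) 0)
      (φ' := fun i => (1 - P / (1 + P)) * ψ i 0 + P / (1 + P) * ψ i (0 + 1)) (a := -c / (1 + P))
      (fun i _ => by
        have a1 := mul_le_mul_of_nonneg_left (h i 0) (by positivity : 0 ≤ 1 / (1 + P))
        have e : -c / (1 + P) = -(1 / (1 + P) * c) := by ring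
        have e2 : P / (1 + P) = 1 / (1 + P) * P := by ring
        rw [e, e2]; nlinarith)
    push_cast; linarith

/-- The interpolation lemma. -/
theorem poisson_array {lam c P : ℝ} (hl : 0 ≤ lam) (hP : 0 ≤ P) {ψ : ℕ → ℕ → ℝ} {C : ℝ}
    (hψ : ∀ k m, |ψ k m| ≤ C * (1 + k + m))
    (hstep : ∀ k m, ψ (k + 1) m - ψ k m + c ≤ P * (ψ k (m + 1) - ψ k m)) :
    ∑' n, poissonWeight lam n * ψ n 0 + c * lam ≤ ∑' n, poissonWeight (P * lam) n * ψ 0 n := by
  have hP1 : 0 < 1 + P := by linarith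
  have hPl : 0 ≤ P * lam := by positivity
  have g1 : ∀ i : ℕ, |ψ i 0| ≤ C * (1 + i) := fun i => by simpa using hψ i 0
  have g2 : ∀ i : ℕ, |ψ 0 i| ≤ C * (1 + i) := fun i => by simpa using hψ 0 i
  have q1 : 1 / (1 + P) ≤ 1 := div_le_one_of_le₀ (by linarith) hP1.le
  have q2 : P / (1 + P) ≤ 1 := div_le_one_of_le₀ (by linarith) hP1.le
  rw [← poi_bin hl hPl (q := 1 / (1 + P)) (by field_simp) (by positivity) q1 g1,
    ← poi_bin hPl hl (q := P / (1 + P)) (by field_simp; ring) (by positivity) q2 g2,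
    add_comm (P * lam) lam]
  have := tsum_poi_mono (lam := lam + P * lam) (by positivity)
    (fun n => abs_bin_le (by positivity) q1 n g1) (fun n => abs_bin_le (by positivity) q2 n g2)
    (fun n => bin_step hP n ψ hstep)
  have e : -c / (1 + P) * (lam + P * lam) = -(c * lam) := by field_simp
  linarith

end Crest.Agent.H9.MP
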