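import Crest.Agent.H9.MP.T7a
import Crest.Agent.H9.MP.Poi

/-! Averaging operators on good functionals (helper file for T7b, T7c, T7). -/

set_option autoImplicit false

namespace Crest.Agent.H9.MP

open MeasureTheory Crest.ProbabilityR.Diluted Filter Finset
open scoped BigOperators

section integral
variable {X A : Type} [MeasurableSpace X] {μ : Measure X} [Fintype A]

theorem integrable_expect {f : A → X → ℝ} (hf : ∀ a, Integrable (f a) μ) :
    Integrable (fun x => 𝔼 a, f a x) μ := by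
  simp only [expect_eq_sum_div_card]
  exact (integrable_finset_sum _ fun a _ => hf a).div_const _

theorem integral_expect {f : A → X → ℝ} (hf : ∀ a, Integrable (f a) μ) :
    ∫ x, (𝔼 a, f a x) ∂μ = 𝔼 a, ∫ x, f a x ∂μ := by
  simp only [expect_eq_sum_div_card]
  rw [integral_div, integral_finset_sum _ fun a _ => hf a]

end integral

variable {C : Type}

/-- Poisson mixtures of functionals. -/
noncomputable def PS (lam : ℝ) (Φ : ℕ → (C → ℝ) → ℝ) (H : C → ℝ) : ℝ :=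
  ∑' m, poissonWeight lam m * Φ m H

theorem growth_of_lip {ψ : ℕ → ℝ} {L : ℝ} (h : ∀ m, |ψ m - ψ 0| ≤ L * m) (m : ℕ) :
    |ψ m| ≤ (|ψ 0| + |L|) * (1 + m) := by
  have h1 := h m
  have h2 : |ψ m| ≤ |ψ m - ψ 0| + |ψ 0| := by
    simpa using abs_add_le (ψ m - ψ 0) (ψ 0)
  have h3 : L * m ≤ |L| * m := mul_le_mul_of_nonneg_right (le_abs_self L) (Nat.cast_nonneg _)
  have h4 : (0:ℝ) ≤ m := Nat.cast_nonneg _
  nlinarith [abs_nonneg (ψ 0), abs_nonneg L, mul_nonneg (abs_nonneg (ψ 0)) h4]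

theorem PS_mono {lam : ℝ} (hl : 0 ≤ lam) {ψ φ : ℕ → ℝ} {L : ℝ} (hψ : ∀ m, |ψ m - ψ 0| ≤ L * m)
    (hφ : ∀ m, |φ m - φ 0| ≤ L * m) {a b : ℝ} (h : ∀ m, ψ m ≤ φ m + (a + b * m)) :
    ∑' m, poissonWeight lam m * ψ m ≤ ∑' m, poissonWeight lam m * φ m + (a + b * lam) := by
  refine tsum_poi_mono hl (C := |ψ 0| + |φ 0| + |L|) (fun n => ?_) (fun n => ?_) h
  · refine (growth_of_lip hψ n).trans (mul_le_mul_of_nonneg_right ?_ (by positivity))
    have := abs_nonneg (φ 0); linarith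
  · refine (growth_of_lip hφ n).trans (mul_le_mul_of_nonneg_right ?_ (by positivity))
    have := abs_nonneg (ψ 0); linarith

theorem PS_good {lam : ℝ} (hl : 0 ≤ lam) {Φ : ℕ → (C → ℝ) → ℝ} {L : ℝ} (hΦ : ∀ m, Good (Φ m))
    (hL : ∀ m H, |Φ m H - Φ 0 H| ≤ L * m) : Good (PS lam Φ) := fun H H' c h => by
  have := PS_mono hl (fun m => hL m H) (fun m => hL m H') (a := c) (b := 0)
    (fun m => by simpa using hΦ m H H' c h)
  simpa [PS] using this

/-- Operators which preserve good functionals, are monotone and commute with Poisson mixtures. -/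
structure Nice (O : ((C → ℝ) → ℝ) → (C → ℝ) → ℝ) : Prop where
  good : ∀ Φ, Good Φ → Good (O Φ)
  mono : ∀ Φ Ψ c, Good Φ → Good Ψ → (∀ H, Φ H ≤ Ψ H + c) → ∀ H, O Φ H ≤ O Ψ H + c
  ps : ∀ (lam : ℝ) (Φ : ℕ → (C → ℝ) → ℝ) (L : ℝ), 0 ≤ lam → (∀ m, Good (Φ m)) →
    (∀ m H, |Φ m H - Φ 0 H| ≤ L * m) → O (PS lam Φ) = PS lam fun m => O (Φ m)

theorem Nice.abs_sub_le {O : ((C → ℝ) → ℝ) → (C → ℝ) → ℝ} (h : Nice O) {Φ Ψ : (C → ℝ) → ℝ}
    (hΦ : Good Φ) (hΨ : Good Ψ) {c : ℝ} (hc : ∀ H, |Φ H - Ψ H| ≤ c) (H : C → ℝ) :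
    |O Φ H - O Ψ H| ≤ c := by
  have h1 := h.mono Φ Ψ c hΦ hΨ (fun H => by have := (abs_le.1 (hc H)).2; linarith) H
  have h2 := h.mono Ψ Φ c hΨ hΦ (fun H => by have := (abs_le.1 (hc H)).1; linarith) H
  rw [abs_le]; constructor <;> linarith

theorem Nice.comp {O O' : ((C → ℝ) → ℝ) → (C → ℝ) → ℝ} (h : Nice O) (h' : Nice O') :
    Nice (fun Φ => O (O' Φ)) where
  good Φ hΦ := h.good _ (h'.good _ hΦ)
  mono Φ Ψ c hΦ hΨ hc := h.mono _ _ c (h'.good _ hΦ) (h'.good _ hΨ) (h'.mono _ _ c hΦ hΨ hc)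
  ps lam Φ L hl hΦ hL := by
    rw [h'.ps lam Φ L hl hΦ hL]
    exact h.ps lam _ L hl (fun m => h'.good _ (hΦ m))
      (fun m H => h'.abs_sub_le (hΦ m) (hΦ 0) (hL m) H)

theorem Nice.iter {O : ((C → ℝ) → ℝ) → (C → ℝ) → ℝ} (h : Nice O) : ∀ n : ℕ, Nice (O^[n])
  | 0 => ⟨fun _ h => h, fun _ _ _ _ _ h => h, fun _ _ _ _ _ _ => rfl⟩
  | n + 1 => by rw [Function.iterate_succ']; exact h.comp (h.iter n)

theorem iter_good {O : ((C → ℝ) → ℝ) → (C → ℝ) → ℝ} (hg : ∀ Φ, Good Φ → Good (O Φ))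
    {Φ : (C → ℝ) → ℝ} (hΦ : Good Φ) : ∀ n : ℕ, Good (O^[n] Φ)
  | 0 => hΦ
  | n + 1 => by rw [Function.iterate_succ_apply']; exact hg _ (iter_good hg hΦ n)

theorem iter_lip {O : ((C → ℝ) → ℝ) → (C → ℝ) → ℝ} (hg : ∀ Φ, Good Φ → Good (O Φ)) {L : ℝ}
    (hL : ∀ Φ, Good Φ → ∀ H, |O Φ H - Φ H| ≤ L) {Φ : (C → ℝ) → ℝ} (hΦ : Good Φ) (H : C → ℝ) :
    ∀ n : ℕ, |O^[n] Φ H - O^[0] Φ H| ≤ L * n
  | 0 => by simp
  | n + 1 => by
    have h1 := iter_lip hg hL hΦ H n
    have h2 := hL _ (iter_good hg hΦ n) H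
    rw [Function.iterate_succ_apply']
    have := abs_sub_le (O (O^[n] Φ) H) (O^[n] Φ H) (O^[0] Φ H)
    push_cast; linarith

variable [Fintype C] {X X' A A' : Type} [MeasurableSpace X] [MeasurableSpace X'] [Fintype A]
  [Fintype A']

/-- Add a random increment to the Hamiltonian. -/
noncomputable def Op (μ : Measure X) (d : X → A → C → ℝ) (Φ : (C → ℝ) → ℝ) (H : C → ℝ) : ℝ :=
  ∫ x, (𝔼 a, Φ fun s => H s + d x a s) ∂μ

/-- Admissible increments. -/
structure Adm (μ : Measure X) (d : X → A → C → ℝ) : Prop where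
  meas : ∀ a s, Measurable fun x => d x a s
  bd : ∃ g : X → ℝ, Integrable g μ ∧ ∀ x a s, |d x a s| ≤ g x

variable {μ : Measure X} [IsProbabilityMeasure μ] {μ' : Measure X'} [IsProbabilityMeasure μ']
  {d : X → A → C → ℝ} {d' : X' → A' → C → ℝ} {Φ Ψ : (C → ℝ) → ℝ}

theorem Adm.integrable (hd : Adm μ d) (hΦ : Good Φ) (H : C → ℝ) (a : A) :
    Integrable (fun x => Φ fun s => H s + d x a s) μ := by
  obtain ⟨g, hg, hb⟩ := hd.bd
  refine Integrable.mono' ((integrable_const |Φ H|).add hg) ?_ (ae_of_all _ fun x => ?_)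
  · exact (hΦ.continuous.measurable.comp
      (measurable_pi_lambda _ fun s => measurable_const.add (hd.meas a s))).aestronglyMeasurable
  · have h1 := hΦ.abs_sub_le (H := fun s => H s + d x a s) (H' := H) (c := g x)
      (fun s => by simpa using hb x a s)
    have h2 := abs_add_le ((Φ fun s => H s + d x a s) - Φ H) (Φ H)
    rw [sub_add_cancel] at h2
    simp only [Real.norm_eq_abs, Pi.add_apply]; linarith

theorem Adm.integrable' (hd : Adm μ d) (hΦ : Good Φ) (H : C → ℝ) :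
    Integrable (fun x => 𝔼 a, Φ fun s => H s + d x a s) μ :=
  integrable_expect fun a => hd.integrable hΦ H a

theorem Adm.Op_eq (hd : Adm μ d) (hΦ : Good Φ) (H : C → ℝ) :
    Op μ d Φ H = 𝔼 a, ∫ x, (Φ fun s => H s + d x a s) ∂μ :=
  integral_expect fun a => hd.integrable hΦ H a

theorem Adm.abs_int_sub_le (hd : Adm μ d) (hΦ : Good Φ) {g : X → ℝ} (hg : Integrable g μ)
    (hb : ∀ x a s, |d x a s| ≤ g x) (H : C → ℝ) (a : A) :
    |∫ x, (Φ fun s => H s + d x a s) ∂μ - Φ H| ≤ ∫ x, g x ∂μ := by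
  have h1 : ∫ x, (Φ fun s => H s + d x a s) ∂μ - Φ H
      = ∫ x, ((Φ fun s => H s + d x a s) - Φ H) ∂μ := by
    rw [integral_sub (hd.integrable hΦ H a) (integrable_const _)]; simp
  rw [h1]
  refine (abs_integral_le_integral_abs).trans (integral_mono
    ((hd.integrable hΦ H a).sub (integrable_const _)).abs hg fun x => ?_)
  exact hΦ.abs_sub_le (fun s => by simpa using hb x a s)

theorem Adm.abs_Op_sub_le [Nonempty A] (hd : Adm μ d) (hΦ : Good Φ) {g : X → ℝ}
    (hg : Integrable g μ) (hb : ∀ x a s, |d x a s| ≤ g x) (H : C → ℝ) :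
    |Op μ d Φ H - Φ H| ≤ ∫ x, g x ∂μ := by
  rw [hd.Op_eq hΦ, ← Fintype.expect_const (ι := A) (Φ H), ← expect_sub_distrib]
  exact (abs_expect_le _ _).trans
    (expect_le univ_nonempty fun a _ => hd.abs_int_sub_le hΦ hg hb H a)

theorem Adm.Op_le [Nonempty A] (hd : Adm μ d) (hΦ : Good Φ) (hΨ : Good Ψ) {H H' : C → ℝ} {c : ℝ}
    (h : ∀ x a, (Φ fun s => H s + d x a s) ≤ (Ψ fun s => H' s + d x a s) + c) :
    Op μ d Φ H ≤ Op μ d Ψ H' + c := by
  unfold Op
  have : ∫ x, (𝔼 a, Ψ fun s => H' s + d x a s) ∂μ + c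
      = ∫ x, ((𝔼 a, Ψ fun s => H' s + d x a s) + c) ∂μ := by
    rw [integral_add (hd.integrable' hΨ H') (integrable_const _)]; simp
  rw [this]
  refine integral_mono (hd.integrable' hΦ H) ((hd.integrable' hΨ H').add (integrable_const _))
    fun x => ?_
  show _ ≤ _ + c
  rw [← Fintype.expect_const (ι := A) c, ← expect_add_distrib]
  exact expect_le_expect fun a _ => h x a

theorem Adm.Op_sum {ι : Type} (hd : Adm μ d) (t : Finset ι) (w : ι → ℝ) {Φ : ι → (C → ℝ) → ℝ}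
    (hΦ : ∀ i, Good (Φ i)) (H : C → ℝ) :
    Op μ d (fun H => ∑ i ∈ t, w i * Φ i H) H = ∑ i ∈ t, w i * Op μ d (Φ i) H := by
  unfold Op
  simp only [expect_sum_comm, ← mul_expect]
  rw [integral_finset_sum _ fun i _ => (hd.integrable' (hΦ i) H).const_mul _]
  simp only [integral_const_mul]

theorem Adm.nice [Nonempty A] (hd : Adm μ d) : Nice (Op μ d) where
  good Φ hΦ H H' c h := hd.Op_le hΦ hΦ fun x a => hΦ _ _ _ fun s => by have := h s; linarith
  mono Φ Ψ c hΦ hΨ h H := hd.Op_le hΦ hΨ fun x a => h _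
  ps lam Φ L hl hΦ hL := by
    funext H
    obtain ⟨g, hg, hb⟩ := hd.bd
    rw [hd.Op_eq (PS_good hl hΦ hL)]
    unfold PS
    simp only [hd.Op_eq (hΦ _), mul_expect]
    have hbd : ∀ (m : ℕ) (a : A), ∫ x, |Φ m fun s => H s + d x a s| ∂μ
        ≤ (|Φ 0 H| + |L| + |∫ x, g x ∂μ|) * (1 + m) := by
      intro m a
      have h1 : ∫ x, |Φ m fun s => H s + d x a s| ∂μ ≤ ∫ x, (|Φ m H| + g x) ∂μ := by
        refine integral_mono (hd.integrable (hΦ m) H a).abs ((integrable_const _).add hg)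
          fun x => ?_
        have h1 := (hΦ m).abs_sub_le (H := fun s => H s + d x a s) (H' := H) (c := g x)
          (fun s => by simpa using hb x a s)
        have h2 := abs_add_le ((Φ m fun s => H s + d x a s) - Φ m H) (Φ m H)
        rw [sub_add_cancel] at h2
        show _ ≤ _ + _
        linarith
      rw [integral_add (integrable_const _) hg] at h1
      have h2 := growth_of_lip (ψ := fun m => Φ m H) (fun m => hL m H) m
      have h3 := le_abs_self (∫ x, g x ∂μ)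
      have h4 : (0:ℝ) ≤ m := Nat.cast_nonneg _
      simp only [integral_const, probReal_univ, smul_eq_mul, one_mul] at h1
      nlinarith [mul_nonneg (abs_nonneg (∫ x, g x ∂μ)) h4]
    have hsum : ∀ a : A, Summable fun m =>
        ∫ x, ‖poissonWeight lam m * Φ m fun s => H s + d x a s‖ ∂μ := by
      intro a
      have := summable_poi hl (ψ := fun m => ∫ x, |Φ m fun s => H s + d x a s| ∂μ)
        (fun m => by rw [abs_of_nonneg (integral_nonneg fun x => abs_nonneg _)]; exact hbd m a)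
      refine this.congr fun m => ?_
      simp only [Real.norm_eq_abs, abs_mul, abs_of_nonneg (poi_nonneg hl m), integral_const_mul]
    have e1 : ∀ a : A, ∫ x, (∑' m, poissonWeight lam m * Φ m fun s => H s + d x a s) ∂μ
        = ∑' m, poissonWeight lam m * ∫ x, (Φ m fun s => H s + d x a s) ∂μ := by
      intro a
      rw [← integral_tsum_of_summable_integral_norm
        (fun m => (hd.integrable (hΦ m) H a).const_mul _) (hsum a)]
      simp only [integral_const_mul]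
    simp only [e1, expect_eq_sum_div_card]
    rw [tsum_div_const, Summable.tsum_finsetSum]
    intro a _
    exact summable_poi hl fun m => abs_integral_le_integral_abs.trans (hbd m a)

theorem Adm.prod (hd : Adm μ d) (hd' : Adm μ' d') :
    Adm (μ.prod μ') (fun x (a : A × A') s => d x.1 a.1 s + d' x.2 a.2 s) where
  meas a s := ((hd.meas a.1 s).comp measurable_fst).add ((hd'.meas a.2 s).comp measurable_snd)
  bd := by
    obtain ⟨g, hg, hb⟩ := hd.bd
    obtain ⟨g', hg', hb'⟩ := hd'.bd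
    exact ⟨fun x => g x.1 + g' x.2, (hg.comp_fst μ').add (hg'.comp_snd μ),
      fun x a s => (abs_add_le _ _).trans (add_le_add (hb _ _ _) (hb' _ _ _))⟩

theorem Op_prod (hd : Adm μ d) (hd' : Adm μ' d') (hΦ : Good Φ) (H : C → ℝ) :
    Op μ d (Op μ' d' Φ) H
      = Op (μ.prod μ') (fun x (a : A × A') s => d x.1 a.1 s + d' x.2 a.2 s) Φ H := by
  unfold Op
  rw [integral_prod _ ((hd.prod hd').integrable' hΦ H)]
  refine integral_congr_ae (ae_of_all _ fun x => ?_)
  beta_reduce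
  rw [← integral_expect fun a => hd'.integrable' hΦ _]
  refine integral_congr_ae (ae_of_all _ fun y => ?_)
  beta_reduce
  rw [← univ_product_univ, expect_product]
  simp only [add_assoc]

theorem Op_congr (e : X ≃ᵐ X') (he : MeasurePreserving e μ μ') (φ : A ≃ A')
    (h : ∀ x a s, d x a s = d' (e x) (φ a) s) (Φ : (C → ℝ) → ℝ) (H : C → ℝ) :
    Op μ d Φ H = Op μ' d' Φ H := by
  unfold Op
  rw [← he.integral_comp']
  refine integral_congr_ae (ae_of_all _ fun x => ?_)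
  exact Fintype.expect_equiv φ _ _ fun a => by simp only [h]

theorem Op_comm (hd : Adm μ d) (hd' : Adm μ' d') (hΦ : Good Φ) :
    Op μ d (Op μ' d' Φ) = Op μ' d' (Op μ d Φ) := by
  funext H
  rw [Op_prod hd hd' hΦ, Op_prod hd' hd hΦ]
  exact Op_congr MeasurableEquiv.prodComm Measure.measurePreserving_swap (Equiv.prodComm _ _)
    (fun x a s => add_comm _ _) Φ H

theorem Op_comm_iter [Nonempty A'] (hd : Adm μ d) (hd' : Adm μ' d') (hΦ : Good Φ) :
    ∀ n : ℕ, Op μ d ((Op μ' d')^[n] Φ) = (Op μ' d')^[n] (Op μ d Φ)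
  | 0 => rfl
  | n + 1 => by
    rw [Function.iterate_succ_apply', Function.iterate_succ_apply',
      Op_comm hd hd' ((hd'.nice.iter n).good _ hΦ), Op_comm_iter hd hd' hΦ n]

theorem Adm.pi (hd : Adm μ d) (M : ℕ) : Adm (Measure.pi fun _ : Fin M => μ)
    (fun xs (as : Fin M → A) s => ∑ k, d (xs k) (as k) s) where
  meas a s := Finset.measurable_sum _ fun k _ => (hd.meas (a k) s).comp (measurable_pi_apply k)
  bd := by
    obtain ⟨g, hg, hb⟩ := hd.bd
    exact ⟨fun xs => ∑ k, g (xs k),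
      integrable_finset_sum _ fun k _ => integrable_comp_eval (μ := fun _ : Fin M => μ) (i := k) hg,
      fun x a s => (abs_sum_le_sum_abs _ _).trans (sum_le_sum fun k _ => hb _ _ _)⟩

theorem Op_pi [Nonempty A] (hd : Adm μ d) (hΦ : Good Φ) : ∀ M : ℕ,
    Op (Measure.pi fun _ : Fin M => μ) (fun xs (as : Fin M → A) s => ∑ k, d (xs k) (as k) s) Φ
      = (Op μ d)^[M] Φ
  | 0 => by funext H; simp [Op]
  | M + 1 => by
    funext H
    rw [Function.iterate_succ_apply', ← Op_pi hd hΦ M, Op_prod hd (hd.pi M) hΦ]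
    exact Op_congr (MeasurableEquiv.piFinSuccAbove (fun _ => X) 0)
      (measurePreserving_piFinSuccAbove (fun _ => μ) 0) (Fin.consEquiv fun _ => A).symm
      (fun x a s => by rw [Fin.sum_univ_succ]; rfl) Φ H

end Crest.Agent.H9.MP
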