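import Crest.Agent.H9.MP.Defs

/-! MP-T1a: basic facts on nested power means. -/

/-
Sketch: all by induction on the depth j (generalizing h). tiltK at |h| = R-1-j uses exponent e j, so T_tilt is
  (sum K (T Z * T' W)^e)^(1/e) = (sum K (T Z)^e)^(1/e) * (sum tilt * (T' W)^e)^(1/e).
tiltK_mulK: T_map with Prod.fst (or T_mulK_mul with W' = 1). T_prodK_prod: Finset.prod_univ_sum after currying.
Gprod_prod: T_prodK_prod, log_prod, and expect over (A × L → I) of a function of the a-slice = expect over (L → I).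
-/

set_option autoImplicit false

namespace Crest.Agent.H9.MP

open Finset
open scoped BigOperators

variable {S S' : Type} [Fintype S] [Fintype S'] {e : ℕ → ℝ} {K : Ker S}

theorem Exps.anti_le {R : ℕ} (h : Exps e R) {j d : ℕ} (hd : j + d < R) : e (j + d) ≤ e j := by
  induction d with
  | zero => exact le_rfl
  | succ d ih => exact (h.anti (j + d) hd).trans (ih (by omega))

theorem Exps.pos' {R : ℕ} (h : Exps e R) : ∀ j < R, 0 < e j := fun j hj => by
  have := h.anti_le (j := j) (d := R - 1 - j) (by omega)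
  rw [show j + (R - 1 - j) = R - 1 by omega] at this
  exact h.last.trans_le this
theorem Exps.le_one {R : ℕ} (h : Exps e R) : ∀ j ≤ R, e j ≤ 1 := fun j hj => by
  rcases hj.lt_or_eq with hj | rfl
  · have := h.anti_le (j := 0) (d := j) (by omega)
    rwa [zero_add, h.zero] at this
  · rw [h.top]; exact zero_le_one
theorem exps_eU {R : ℕ} (hR : 0 < R) : Exps (eU R) R := by
  have hR' : (0:ℝ) < R := by exact_mod_cast hR
  refine ⟨hR, by simp [eU, hR'.ne'], fun j _ => ?_, ?_, by simp [eU]⟩
  · unfold eU; push_cast; gcongr; linarith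
  · unfold eU; rw [Nat.cast_sub hR]; simp [hR']

theorem isKer_unifK [Nonempty S] : IsKer (unifK S) := ⟨fun _ _ => by unfold unifK; positivity, fun _ => by simp [unifK]⟩
theorem IsKer.prodK (hK : IsKer K) (L : Type) [Fintype L] [DecidableEq L] : IsKer (prodK L K) :=
  ⟨fun _ _ => prod_nonneg fun _ _ => hK.1 _ _, fun H => by
    unfold MP.prodK
    rw [← Fintype.piFinset_univ, ← prod_univ_sum]
    simp [hK.2]⟩
theorem IsKer.mulK {K' : Ker S'} (hK : IsKer K) (hK' : IsKer K') : IsKer (mulK K K') :=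
  ⟨fun _ _ => mul_nonneg (hK.1 _ _) (hK'.1 _ _), fun H => by
    unfold MP.mulK
    rw [Fintype.sum_prod_type]
    simp [← mul_sum, hK.2, hK'.2]⟩
theorem IsKer.rootK {P : List S → S → S → ℝ} (hK : IsKer K) (hP : IsCond K P) (s0 : S) :
    IsKer (rootK K P s0) :=
  ⟨fun h s => by cases h with
    | nil => exact hP.1 _ _ _
    | cons a l => exact hK.1 _ _,
   fun h => by cases h with
    | nil => exact hP.2.1 _ _
    | cons a l => exact hK.2 _⟩

theorem T_congr_gen' {K' : Ker S} (j : ℕ) (h h' : List S) (W W' : List S → ℝ)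
    (hK : ∀ l : List S, l.length < j → K (l ++ h) = K' (l ++ h'))
    (hW : ∀ l : List S, l.length = j → W (l ++ h) = W' (l ++ h')) :
    T e K j h W = T e K' j h' W' := by
  induction j generalizing h h' with
  | zero => exact hW [] rfl
  | succ j ih =>
    have h0 : K h = K' h' := hK [] (by simp)
    simp only [T, h0]
    congr 1
    refine sum_congr rfl fun s _ => ?_
    rw [ih (s :: h) (s :: h') (fun l hl => by simpa using hK (l ++ [s]) (by simp; omega))
      (fun l hl => by simpa using hW (l ++ [s]) (by simp; omega))]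

/-- `T` only reads leaves at depth `j` below `h`. -/
theorem T_congr (j : ℕ) (h : List S) {W W' : List S → ℝ}
    (hW : ∀ l : List S, l.length = j → W (l ++ h) = W' (l ++ h)) :
    T e K j h W = T e K j h W' := T_congr_gen' j h h W W' (fun _ _ => rfl) hW

/-- `T` only reads the kernel below `h`. -/
theorem T_congr_ker {K' : Ker S} (j : ℕ) (h : List S) (W : List S → ℝ)
    (hK : ∀ l : List S, l.length < j → K (l ++ h) = K' (l ++ h)) :
    T e K j h W = T e K' j h W := T_congr_gen' j h h W W hK (fun _ _ => rfl)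

/-- Two subtrees that agree. -/
theorem T_congr_gen {K' : Ker S} (j : ℕ) (h h' : List S) (W W' : List S → ℝ)
    (hK : ∀ l : List S, l.length < j → K (l ++ h) = K' (l ++ h'))
    (hW : ∀ l : List S, l.length = j → W (l ++ h) = W' (l ++ h')) :
    T e K j h W = T e K' j h' W' := T_congr_gen' j h h' W W' hK hW

theorem T_nonneg (hK : IsKer K) (j : ℕ) (h : List S) {W : List S → ℝ} (h0 : ∀ l, 0 ≤ W l) :
    0 ≤ T e K j h W := by
  induction j generalizing h with
  | zero => exact h0 h
  | succ j ih =>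
    exact Real.rpow_nonneg (sum_nonneg fun s _ =>
      mul_nonneg (hK.1 _ _) (Real.rpow_nonneg (ih _) _)) _

theorem T_mono (hK : IsKer K) (j : ℕ) (he : ∀ i < j, 0 < e i) (h : List S) {W W' : List S → ℝ}
    (h0 : ∀ l, 0 ≤ W l) (hW : ∀ l, W l ≤ W' l) : T e K j h W ≤ T e K j h W' := by
  induction j generalizing h with
  | zero => exact hW h
  | succ j ih =>
    have hej := he j (by omega)
    refine Real.rpow_le_rpow (sum_nonneg fun s _ =>
      mul_nonneg (hK.1 _ _) (Real.rpow_nonneg (T_nonneg hK j _ h0) _)) ?_ (by positivity)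
    exact sum_le_sum fun s _ => mul_le_mul_of_nonneg_left
      (Real.rpow_le_rpow (T_nonneg hK j _ h0) (ih (fun i hi => he i (by omega)) _) hej.le) (hK.1 _ _)

theorem T_const_mul (hK : IsKer K) (j : ℕ) (he : ∀ i < j, 0 < e i) (h : List S) {W : List S → ℝ}
    (h0 : ∀ l, 0 ≤ W l) {c : ℝ} (hc : 0 ≤ c) :
    T e K j h (fun l => c * W l) = c * T e K j h W := by
  induction j generalizing h with
  | zero => rfl
  | succ j ih =>
    have hej := he j (by omega)
    simp only [T]
    have e1 : ∀ s, K h s * T e K j (s :: h) (fun l => c * W l) ^ e j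
        = c ^ e j * (K h s * T e K j (s :: h) W ^ e j) := fun s => by
      rw [ih (fun i hi => he i (by omega)), Real.mul_rpow hc (T_nonneg hK j _ h0)]; ring
    simp only [e1]
    rw [← mul_sum, Real.mul_rpow (Real.rpow_nonneg hc _) (sum_nonneg fun s _ =>
      mul_nonneg (hK.1 _ _) (Real.rpow_nonneg (T_nonneg hK j _ h0) _)), one_div,
      Real.rpow_rpow_inv hc hej.ne']

theorem T_const (hK : IsKer K) (j : ℕ) (he : ∀ i < j, 0 < e i) (h : List S) {c : ℝ}
    (hc : 0 ≤ c) : T e K j h (fun _ => c) = c := by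
  induction j generalizing h with
  | zero => rfl
  | succ j ih =>
    have hej := he j (by omega)
    simp only [T, ih (fun i hi => he i (by omega))]
    rw [← sum_mul, hK.2, one_mul, one_div, Real.rpow_rpow_inv hc hej.ne']

theorem T_mem (hK : IsKer K) (j : ℕ) (he : ∀ i < j, 0 < e i) (h : List S) {W : List S → ℝ}
    {c C : ℝ} (hc : 0 ≤ c) (hW : ∀ l, c ≤ W l ∧ W l ≤ C) :
    c ≤ T e K j h W ∧ T e K j h W ≤ C :=
  ⟨(T_const hK j he h hc).ge.trans (T_mono hK j he h (fun _ => hc) fun l => (hW l).1),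
   (T_mono hK j he h (fun l => hc.trans (hW l).1) fun l => (hW l).2).trans
    (T_const hK j he h (hc.trans ((hW h).1.trans (hW h).2))).le⟩

theorem IsKer.sum_pos (hK : IsKer K) (h : List S) {f : S → ℝ} (hf : ∀ s, 0 < f s) :
    0 < ∑ s, K h s * f s := by
  obtain ⟨s, -, hs⟩ := exists_ne_zero_of_sum_ne_zero (s := univ) (f := K h)
    (by rw [hK.2]; exact one_ne_zero)
  exact sum_pos' (fun s _ => mul_nonneg (hK.1 _ _) (hf s).le)
    ⟨s, mem_univ _, mul_pos (lt_of_le_of_ne (hK.1 _ _) hs.symm) (hf s)⟩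

theorem T_pos (hK : IsKer K) (j : ℕ) (he : ∀ i < j, 0 < e i) (h : List S) {W : List S → ℝ}
    (h0 : ∀ l, 0 < W l) : 0 < T e K j h W := by
  induction j generalizing h with
  | zero => exact h0 h
  | succ j ih =>
    exact Real.rpow_pos_of_pos (hK.sum_pos h fun s =>
      Real.rpow_pos_of_pos (ih (fun i hi => he i (by omega)) _) _) _

theorem T_le_exp_mul (hK : IsKer K) (j : ℕ) (he : ∀ i < j, 0 < e i) (h : List S)
    {W W' : List S → ℝ} (h0 : ∀ l, 0 < W l) (h0' : ∀ l, 0 < W' l) {c : ℝ}
    (hc : ∀ l, Real.log (W l) ≤ Real.log (W' l) + c) :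
    T e K j h W ≤ Real.exp c * T e K j h W' := by
  rw [← T_const_mul hK j he h (fun l => (h0' l).le) (Real.exp_pos c).le]
  refine T_mono hK j he h (fun l => (h0 l).le) fun l => ?_
  have := Real.exp_le_exp.2 (hc l)
  rwa [Real.exp_add, Real.exp_log (h0 l), Real.exp_log (h0' l), mul_comm] at this

theorem log_T_le (hK : IsKer K) (j : ℕ) (he : ∀ i < j, 0 < e i) (h : List S)
    {W W' : List S → ℝ} (h0 : ∀ l, 0 < W l) (h0' : ∀ l, 0 < W' l) {c : ℝ}
    (hc : ∀ l, Real.log (W l) ≤ Real.log (W' l) + c) :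
    Real.log (T e K j h W) ≤ Real.log (T e K j h W') + c := by
  have := Real.log_le_log (T_pos hK j he h h0) (T_le_exp_mul hK j he h h0 h0' hc)
  rwa [Real.log_mul (Real.exp_pos c).ne' (T_pos hK j he h h0').ne', Real.log_exp, add_comm] at this

theorem abs_log_T_sub_le (hK : IsKer K) (j : ℕ) (he : ∀ i < j, 0 < e i) (h : List S)
    {W W' : List S → ℝ} (h0 : ∀ l, 0 < W l) (h0' : ∀ l, 0 < W' l) {c : ℝ}
    (hc : ∀ l, |Real.log (W l) - Real.log (W' l)| ≤ c) :
    |Real.log (T e K j h W) - Real.log (T e K j h W')| ≤ c := by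
  have h1 := log_T_le hK j he h h0 h0' (c := c) fun l => by have := (abs_le.1 (hc l)).2; linarith
  have h2 := log_T_le hK j he h h0' h0 (c := c) fun l => by have := (abs_le.1 (hc l)).1; linarith
  rw [abs_le]; constructor <;> linarith

/-- Transport along a map that pushes `K'` to `K`. -/
theorem T_map {K' : Ker S'} (φ : S' → S)
    (hφ : ∀ (H : List S') (G : S → ℝ), ∑ s', K' H s' * G (φ s') = ∑ s, K (H.map φ) s * G s)
    (j : ℕ) (H : List S') (W : List S → ℝ) :
    T e K' j H (fun l => W (l.map φ)) = T e K j (H.map φ) W := by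
  induction j generalizing H with
  | zero => rfl
  | succ j ih =>
    simp only [T, ih, List.map_cons]
    rw [hφ H fun s => T e K j (s :: H.map φ) W ^ e j]

theorem T_mulK_mul {K' : Ker S'} (hK : IsKer K) (hK' : IsKer K') (j : ℕ) (he : ∀ i < j, 0 < e i)
    (H : List (S × S')) {W : List S → ℝ} {W' : List S' → ℝ} (h0 : ∀ l, 0 ≤ W l)
    (h0' : ∀ l, 0 ≤ W' l) :
    T e (mulK K K') j H (fun l => W (l.map Prod.fst) * W' (l.map Prod.snd)) =
      T e K j (H.map Prod.fst) W * T e K' j (H.map Prod.snd) W' := by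
  induction j generalizing H with
  | zero => rfl
  | succ j ih =>
    simp only [T, ih (fun i hi => he i (by omega)), List.map_cons]
    rw [← Real.mul_rpow (sum_nonneg fun s _ =>
      mul_nonneg (hK.1 _ _) (Real.rpow_nonneg (T_nonneg hK j _ h0) _)) (sum_nonneg fun s _ =>
      mul_nonneg (hK'.1 _ _) (Real.rpow_nonneg (T_nonneg hK' j _ h0') _)), sum_mul_sum,
      Fintype.sum_prod_type]
    congr 1
    refine sum_congr rfl fun s _ => sum_congr rfl fun s' _ => ?_
    rw [Real.mul_rpow (T_nonneg hK j _ h0) (T_nonneg hK' j _ h0'), mulK]; ring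

/-- Independent groups of labels factorize. -/
theorem T_prodK_prod (hK : IsKer K) {A L : Type} [Fintype A] [DecidableEq A] [Fintype L]
    [DecidableEq L] (j : ℕ) (he : ∀ i < j, 0 < e i) (H : List (A × L → S))
    {W : A → List (L → S) → ℝ} (h0 : ∀ a l, 0 ≤ W a l) :
    T e (prodK (A × L) K) j H (fun l => ∏ a, W a (l.map fun t m => t (a, m))) =
      ∏ a, T e (prodK L K) j (H.map fun t m => t (a, m)) (W a) := by
  induction j generalizing H with
  | zero => rfl
  | succ j ih =>
    have hP := hK.prodK L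
    simp only [T, ih (fun i hi => he i (by omega)), List.map_cons]
    rw [Real.finset_prod_rpow _ _ (fun a _ => sum_nonneg fun s _ =>
      mul_nonneg (hP.1 _ _) (Real.rpow_nonneg (T_nonneg hP j _ (h0 a)) _)), prod_univ_sum,
      Fintype.piFinset_univ]
    congr 1
    refine Fintype.sum_equiv (Equiv.curry A L S) _ _ fun s => ?_
    rw [← Real.finset_prod_rpow _ _ (fun a _ => T_nonneg hP j _ (h0 a)), prod_mul_distrib]
    congr 1
    simp only [prodK, List.map_map]
    rw [Fintype.prod_prod_type]; rfl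

theorem abs_expect_sub_le {J : Type} [Fintype J] [Nonempty J] {f g : J → ℝ} {c : ℝ}
    (h : ∀ i, |f i - g i| ≤ c) : |(𝔼 i, f i) - 𝔼 i, g i| ≤ c := by
  rw [← expect_sub_distrib]
  exact (abs_expect_le _ _).trans (expect_le univ_nonempty fun i _ => h i)

theorem expect_eval {A B : Type} [Fintype A] [DecidableEq A] [Fintype B] [Nonempty B] (a : A)
    (f : B → ℝ) : 𝔼 x : A → B, f (x a) = 𝔼 b, f b := by
  rw [Fintype.expect_equiv (Equiv.funSplitAt a B) (fun x => f (x a)) (fun y => f y.1) (fun x => rfl),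
    ← univ_product_univ, expect_product]
  simp

theorem expect_slice {A L I : Type} [Fintype A] [DecidableEq A] [Fintype L] [DecidableEq L]
    [Fintype I] [Nonempty I] (a : A) (f : (L → I) → ℝ) :
    𝔼 x : A × L → I, f (fun m => x (a, m)) = 𝔼 b, f b := by
  rw [← expect_eval a f]
  exact Fintype.expect_equiv (Equiv.curry A L I) _ _ fun x => rfl

theorem abs_Gprod_sub_le {I L : Type} [Fintype I] [Nonempty I] [Fintype L] [DecidableEq L]
    (hK : IsKer K) {R : ℕ} (he : ∀ i < R, 0 < e i) (σ : I → List S → Bool)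
    {W W' : (L → Bool) → ℝ} (h0 : ∀ s, 0 < W s) (h0' : ∀ s, 0 < W' s) {c : ℝ}
    (hc : ∀ s, |Real.log (W s) - Real.log (W' s)| ≤ c) :
    |Gprod e R K σ W - Gprod e R K σ W'| ≤ c :=
  abs_expect_sub_le fun _ =>
    abs_log_T_sub_le (hK.prodK L) R he [] (fun _ => h0 _) (fun _ => h0' _) fun _ => hc _

theorem abs_Gtrue_sub_le {I L : Type} [Fintype I] [Nonempty I] [Fintype L] [DecidableEq L]
    (hK : IsKer K) {R : ℕ} (he : ∀ i < R, 0 < e i) (σ : I → List S → Bool)
    {W W' : (L → Bool) → ℝ} (h0 : ∀ s, 0 < W s) (h0' : ∀ s, 0 < W' s) {c : ℝ}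
    (hc : ∀ s, |Real.log (W s) - Real.log (W' s)| ≤ c) :
    |Gtrue e R K σ W - Gtrue e R K σ W'| ≤ c :=
  abs_expect_sub_le fun _ =>
    abs_log_T_sub_le hK R he [] (fun _ => h0 _) (fun _ => h0' _) fun _ => hc _

theorem Gprod_const {I L : Type} [Fintype I] [Nonempty I] [Fintype L] [DecidableEq L]
    (hK : IsKer K) {R : ℕ} (he : ∀ i < R, 0 < e i) (σ : I → List S → Bool) {c : ℝ} (hc : 0 < c) :
    Gprod e R K σ (fun _ : L → Bool => c) = Real.log c := by
  simp [Gprod, T_const (hK.prodK L) R he [] hc.le]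

theorem Gtrue_const {I L : Type} [Fintype I] [Nonempty I] [Fintype L] [DecidableEq L]
    (hK : IsKer K) {R : ℕ} (he : ∀ i < R, 0 < e i) (σ : I → List S → Bool) {c : ℝ} (hc : 0 < c) :
    Gtrue e R K σ (fun _ : L → Bool => c) = Real.log c := by
  simp [Gtrue, T_const hK R he [] hc.le]

theorem Gprod_prod {I A L : Type} [Fintype I] [Nonempty I] [Fintype A] [DecidableEq A] [Fintype L]
    [DecidableEq L] (hK : IsKer K) {R : ℕ} (he : ∀ i < R, 0 < e i) (σ : I → List S → Bool)
    {W : A → (L → Bool) → ℝ} (h0 : ∀ a s, 0 < W a s) :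
    Gprod e R K σ (fun s : A × L → Bool => ∏ a, W a fun m => s (a, m)) =
      ∑ a, Gprod e R K σ (W a) := by
  unfold Gprod
  simp only [← expect_slice (I := I) (L := L) (A := A)]
  have key : ∀ i : A × L → I, Real.log (T e (prodK (A × L) K) R [] fun H =>
      ∏ a, W a fun m => σ (i (a, m)) (H.map fun t => t (a, m)))
      = ∑ a, Real.log (T e (prodK L K) R [] fun H =>
        W a fun m => σ (i (a, m)) (H.map fun t => t m)) := by
    intro i
    have := T_prodK_prod (e := e) hK (A := A) (L := L) R he []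
      (W := fun a H => W a fun m => σ (i (a, m)) (H.map fun t => t m)) (fun a l => (h0 a _).le)
    simp only [List.map_map, List.map_nil] at this
    rw [← Real.log_prod (fun a _ => (T_pos (hK.prodK L) R he [] fun _ => h0 a _).ne'), ← this]
    rfl
  simp only [key]
  rw [expect_sum_comm]
  exact sum_congr rfl fun a _ => expect_slice a fun i => Real.log (T e (prodK L K) R [] fun H =>
        W a fun m => σ (i m) (H.map fun t => t m))

theorem IsKer.tiltK (hK : IsKer K) {R : ℕ} (he : ∀ i < R, 0 < e i) (hR : 0 < R)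
    {Z : List S → ℝ} (hZ : ∀ l, 0 < Z l) : IsKer (tiltK e K R Z) := by
  have hT : ∀ (h : List S) s, 0 < T e K (R - 1 - h.length) (s :: h) Z ^ e (R - 1 - h.length) :=
    fun h s => Real.rpow_pos_of_pos (T_pos hK _ (fun i hi => he i (by omega)) _ hZ) _
  refine ⟨fun h s => div_nonneg (mul_nonneg (hK.1 _ _) (hT h s).le) (hK.sum_pos h (hT h)).le,
    fun h => ?_⟩
  unfold MP.tiltK
  rw [← sum_div, div_self (hK.sum_pos h (hT h)).ne']

/-- The cocycle identity. -/
theorem T_tilt (hK : IsKer K) {R : ℕ} (he : ∀ i < R, 0 < e i) {Z W : List S → ℝ}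
    (hZ : ∀ l, 0 < Z l) (hW : ∀ l, 0 ≤ W l) (j : ℕ) (h : List S) (hj : h.length + j = R) :
    T e K j h (fun l => Z l * W l) = T e K j h Z * T e (tiltK e K R Z) j h W := by
  induction j generalizing h with
  | zero => rfl
  | succ j ih =>
    have hK' := hK.tiltK he (by omega) hZ
    have hj' : R - 1 - h.length = j := by omega
    have hT : ∀ s, 0 < T e K j (s :: h) Z := fun s => T_pos hK _ (fun i hi => he i (by omega)) _ hZ
    have hD := hK.sum_pos h fun s => Real.rpow_pos_of_pos (hT s) (e j)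
    simp only [T]
    rw [← Real.mul_rpow hD.le (sum_nonneg fun s _ =>
      mul_nonneg (hK'.1 _ _) (Real.rpow_nonneg (T_nonneg hK' j _ hW) _)), mul_sum]
    congr 1
    refine sum_congr rfl fun s _ => ?_
    rw [ih (s :: h) (by simp; omega), Real.mul_rpow (hT s).le (T_nonneg hK' j _ hW)]
    have : tiltK e K R Z h s = K h s * T e K j (s :: h) Z ^ e j /
        ∑ s', K h s' * T e K j (s' :: h) Z ^ e j := by rw [tiltK, hj']
    rw [this]; field_simp

/-- Tilting a product kernel by a function of the first factor. -/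
theorem tiltK_mulK {K' : Ker S'} (hK : IsKer K) (hK' : IsKer K') {R : ℕ} (he : ∀ i < R, 0 < e i)
    (hR : 0 < R) {Z : List S → ℝ} (hZ : ∀ l, 0 < Z l) :
    tiltK e (mulK K K') R (fun l => Z (l.map Prod.fst)) = mulK (tiltK e K R Z) K' := by
  have hφ : ∀ (H : List (S × S')) (G : S → ℝ),
      ∑ s', mulK K K' H s' * G s'.1 = ∑ s, K (H.map Prod.fst) s * G s := by
    intro H G
    rw [Fintype.sum_prod_type]
    refine sum_congr rfl fun s _ => ?_
    simp only [mulK, mul_right_comm _ _ (G s)]
    rw [← mul_sum, hK'.2, mul_one]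
  funext H s
  simp only [tiltK, T_map Prod.fst hφ, List.map_cons]
  rw [hφ H fun s => T e K (R - 1 - H.length) (s :: H.map Prod.fst) Z ^ e (R - 1 - H.length)]
  simp only [mulK, tiltK, List.length_map]
  ring

theorem pathE_mono (hK : IsKer K) (n : ℕ) {F G : List S → ℝ}
    (h : ∀ l : List S, l.length = n → F l ≤ G l) : pathE K n F ≤ pathE K n G := by
  induction n generalizing F G with
  | zero => exact h [] rfl
  | succ n ih =>
    exact ih fun l hl => sum_le_sum fun s _ =>
      mul_le_mul_of_nonneg_left (h _ (by simp [hl])) (hK.1 _ _)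
theorem pathE_const (hK : IsKer K) (n : ℕ) (c : ℝ) : pathE K n (fun _ => c) = c := by
  induction n with
  | zero => rfl
  | succ n ih => simp only [pathE, ← sum_mul, hK.2, one_mul, ih]
theorem pathE_add (n : ℕ) (F G : List S → ℝ) :
    pathE K n (fun l => F l + G l) = pathE K n F + pathE K n G := by
  induction n generalizing F G with
  | zero => rfl
  | succ n ih => simp only [pathE, mul_add, sum_add_distrib, ih]
theorem pathE_const_mul (n : ℕ) (c : ℝ) (F : List S → ℝ) :
    pathE K n (fun l => c * F l) = c * pathE K n F := by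
  induction n generalizing F with
  | zero => rfl
  | succ n ih => simp only [pathE, mul_left_comm _ c, ← mul_sum, ih]
theorem pathE_sum {α : Type} (A : Finset α) (n : ℕ) (F : α → List S → ℝ) :
    pathE K n (fun l => ∑ a ∈ A, F a l) = ∑ a ∈ A, pathE K n (F a) := by
  induction n generalizing F with
  | zero => rfl
  | succ n ih =>
    simp only [pathE, mul_sum]
    rw [← ih]; congr 1; funext l; rw [sum_comm]
theorem pathE_le_of_ker_le {K' : Ker S} (hK : IsKer K) (hK' : IsKer K') {C : ℝ} (hC : 0 ≤ C)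
    (h : ∀ l s, K l s ≤ C * K' l s) (n : ℕ) {F : List S → ℝ} (hF : ∀ l, 0 ≤ F l) :
    pathE K n F ≤ C ^ n * pathE K' n F := by
  induction n generalizing F with
  | zero => simp [pathE]
  | succ n ih =>
    simp only [pathE]
    calc _ ≤ pathE K n fun l => C * ∑ s, K' l s * F (s :: l) := by
          refine pathE_mono hK n fun l _ => ?_
          rw [mul_sum]
          exact sum_le_sum fun s _ => by
            rw [← mul_assoc]; exact mul_le_mul_of_nonneg_right (h l s) (hF _)
      _ ≤ C * (C ^ n * pathE K' n fun l => ∑ s, K' l s * F (s :: l)) := by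
          rw [pathE_const_mul]
          exact mul_le_mul_of_nonneg_left
            (ih fun l => sum_nonneg fun s _ => mul_nonneg (hK'.1 _ _) (hF _)) hC
      _ = _ := by ring
theorem tiltK_le (hK : IsKer K) {R : ℕ} (he : Exps e R) {Z Z' : List S → ℝ} (hZ : ∀ l, 0 < Z l)
    (hZ' : ∀ l, 0 < Z' l) {c : ℝ} (hc : ∀ l, |Real.log (Z l) - Real.log (Z' l)| ≤ c) (l : List S)
    (s : S) : tiltK e K R Z l s ≤ Real.exp (2 * c) * tiltK e K R Z' l s := by
  have hc0 : 0 ≤ c := (abs_nonneg _).trans (hc l)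
  have hR := he.pos
  unfold tiltK
  set j := R - 1 - l.length with hj
  have hej : ∀ i < j, 0 < e i := fun i hi => he.pos' i (by omega)
  have he0 := he.pos' j (by omega)
  have he1 := he.le_one j (by omega)
  have key : ∀ {Z Z' : List S → ℝ}, (∀ l, 0 < Z l) → (∀ l, 0 < Z' l) →
      (∀ l, Real.log (Z l) ≤ Real.log (Z' l) + c) → ∀ s,
      K l s * T e K j (s :: l) Z ^ e j ≤ Real.exp c * (K l s * T e K j (s :: l) Z' ^ e j) := by
    intro Z Z' hZ hZ' h s
    rw [mul_left_comm]
    refine mul_le_mul_of_nonneg_left ?_ (hK.1 _ _)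
    refine (Real.rpow_le_rpow (T_pos hK j hej _ hZ).le (T_le_exp_mul hK j hej _ hZ hZ' h)
      he0.le).trans ?_
    rw [Real.mul_rpow (Real.exp_pos c).le (T_pos hK j hej _ hZ').le, ← Real.exp_mul]
    exact mul_le_mul_of_nonneg_right (Real.exp_le_exp.2 (mul_le_of_le_one_right hc0 he1))
      (Real.rpow_nonneg (T_pos hK j hej _ hZ').le _)
  have h1 := key hZ hZ' (fun l => by have := (abs_le.1 (hc l)).2; linarith) s
  have h2 := sum_le_sum (s := univ) fun s _ =>
    key hZ' hZ (fun l => by have := (abs_le.1 (hc l)).1; linarith) s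
  rw [← mul_sum] at h2
  have hD := hK.sum_pos l fun s => Real.rpow_pos_of_pos (T_pos hK j hej (s :: l) hZ) (e j)
  have hD' := hK.sum_pos l fun s => Real.rpow_pos_of_pos (T_pos hK j hej (s :: l) hZ') (e j)
  have hN' : 0 ≤ K l s * T e K j (s :: l) Z' ^ e j :=
    mul_nonneg (hK.1 _ _) (Real.rpow_nonneg (T_pos hK j hej _ hZ').le _)
  rw [← mul_div_assoc, div_le_div_iff₀ hD hD', two_mul, Real.exp_add]
  calc _ ≤ (Real.exp c * (K l s * T e K j (s :: l) Z' ^ e j)) *
        (Real.exp c * ∑ s', K l s' * T e K j (s' :: l) Z ^ e j) :=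
        mul_le_mul h1 h2 hD'.le (by positivity)
    _ = _ := by ring
/-- Cauchy–Schwarz / Jensen. -/
theorem pathE_sq_le (hK : IsKer K) (n : ℕ) (F : List S → ℝ) :
    pathE K n F ^ 2 ≤ pathE K n fun l => F l ^ 2 := by
  have h0 : 0 ≤ pathE K n fun l => (F l - pathE K n F) ^ 2 :=
    (pathE_const hK n 0).ge.trans (pathE_mono hK n fun l _ => sq_nonneg _)
  have h1 : (pathE K n fun l => (F l - pathE K n F) ^ 2)
      = pathE K n (fun l => F l ^ 2) + ((-2 * pathE K n F) * pathE K n F + pathE K n F ^ 2) := by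
    rw [← pathE_const_mul, ← pathE_const hK n (pathE K n F ^ 2), ← pathE_add, ← pathE_add]
    congr 1; funext l; ring
  nlinarith

end Crest.Agent.H9.MP
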