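import Crest.Agent.H9.MP.T1a

/-! MP-T1b: the replica expansion of nested power means. -/

/-
Sketch. hasSum_Lam: binomial series (Mathlib: Real.one_add_rpow_hasFPowerSeriesOnBall_zero / Ring.choose, or ODE) and
Real.hasSum_pow_div_log_of_abs_lt_one for a = 0. Mml_eq_SS: induction on j; Yf ∅ = 0; PP rec κ A (prod φ) = cpow (B ↦ rec B φ) κ A
by SS_const_mul, SS_sum. Relabelling invariance (Mml_const_card, SS_one): for y depending only on card, cpow y κ depends only on
card: cpow y κ A = c κ (card A), c (κ+1) n = Σ_k choose n k * y k * c κ (n-k) (Finset.sum_powerset_apply_card), i.e. EGF product.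
hasSum_Y: induction on j simultaneously with the majorant w j n = wt e j n * ρ^n (trivial tree S = Unit, U = ρ; |Mml| ≤ w by
Mml_eq_SS, abs_ev_le, SS_mono or directly): Σ_n w j n / n! = Y^{Unit}_j, e j * Y_j = 1 - (1-ρ)^(e j) < 1; EGF power
(Σ_n y_n/n!)^κ = Σ_n c κ n / n! (Cauchy product, tsum_mul_tsum_eq_tsum_sum_antidiagonal_of_summable_norm), swap Σ_κ Σ_n by
summability of the nonnegative majorant; c κ n = 0 for κ > n. wt_le: one term ≤ the sum = (1-(1-ρ)^e)/e ≤ -log(1-ρ).
ev_expand': ev is multilinear in F q for q ∈ lv t (WF t) and does not read F q for q ∉ lv t.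
-/

set_option autoImplicit false

namespace Crest.Agent.H9.MP

open Finset
open scoped BigOperators

variable {S S' : Type} [Fintype S] [Fintype S'] {e : ℕ → ℝ} {K : Ker S}
  {ι : Type} [DecidableEq ι]

theorem gam_nonneg {a a' : ℝ} (ha : 0 ≤ a) (h : a ≤ a') (κ : ℕ) : 0 ≤ gam a a' κ := by
  unfold gam
  split_ifs
  · exact le_rfl
  · refine div_nonneg (prod_nonneg fun m _ => ?_) (Nat.cast_nonneg _)
    have : (0:ℝ) ≤ m * a' := mul_nonneg (Nat.cast_nonneg _) (ha.trans h)
    linarith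

theorem gam_pos {a a' : ℝ} (ha : 0 ≤ a) (h : a < a') {κ : ℕ} (hκ : 1 ≤ κ) : 0 < gam a a' κ := by
  unfold gam
  rw [if_neg (by omega)]
  refine div_pos (prod_pos fun m _ => ?_) (by exact_mod_cast κ.factorial_pos)
  have : (0:ℝ) ≤ m * a' := mul_nonneg (Nat.cast_nonneg _) (ha.trans h.le)
  linarith

theorem gam_one (a a' : ℝ) : gam a a' 1 = 1 := by simp [gam]

theorem gam_two (a a' : ℝ) : gam a a' 2 = (a' - a) / 2 := by simp [gam]

theorem gam_le {a a' : ℝ} (ha : 0 ≤ a) (h : a ≤ a') (h1 : a' ≤ 1) {κ : ℕ} (hκ : 2 ≤ κ) :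
    gam a a' κ ≤ a' - a := by
  obtain ⟨n, rfl⟩ : ∃ n, κ = n + 2 := ⟨κ - 2, by omega⟩
  unfold gam
  rw [if_neg (by omega), div_le_iff₀ (by exact_mod_cast (n + 2).factorial_pos),
    show n + 2 - 1 = n + 1 from rfl]
  clear hκ
  have hd : 0 ≤ a' - a := sub_nonneg.2 h
  induction n with
  | zero => simp; linarith
  | succ n ih =>
    rw [prod_range_succ, Nat.factorial_succ (n + 2)]
    have h2 : (0:ℝ) ≤ n := Nat.cast_nonneg _
    have h3 : (0:ℝ) ≤ n * a' := mul_nonneg h2 (ha.trans h)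
    have h4 : (n:ℝ) * a' ≤ n := mul_le_of_le_one_right h2 h1
    calc _ ≤ ((a' - a) * (n + 2).factorial) * ((n:ℝ) + 2 + 1) := by
          refine mul_le_mul ih ?_ ?_ (by positivity) <;> push_cast <;> nlinarith
      _ = _ := by push_cast; ring

theorem choose_mul_factorial (r : ℝ) (n : ℕ) :
    (n.factorial : ℝ) * Ring.choose r n = ∏ m ∈ range n, (r - m) := by
  rw [← nsmul_eq_mul, ← Ring.descPochhammer_eq_factorial_smul_choose]
  induction n with
  | zero => simp
  | succ n ih =>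
    rw [descPochhammer_succ_right, Polynomial.smeval_mul, ih, prod_range_succ]
    simp [Polynomial.smeval_sub, Polynomial.smeval_natCast]

theorem hasSum_Lam {a a' y : ℝ} (ha : 0 ≤ a) (h : a ≤ a') (ha' : 0 < a') (hy : |a' * y| < 1) :
    HasSum (fun κ => gam a a' κ * y ^ κ) (Lam a a' y) := by
  unfold Lam
  have hz : ∑ i ∈ range 1, gam a a' i * y ^ i = 0 := by simp [gam]
  rw [← hasSum_nat_add_iff' 1, hz, sub_zero]
  split_ifs with h0
  · subst h0
    have := (Real.hasSum_pow_div_log_of_abs_lt_one hy).div_const a'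
    have e : (fun n : ℕ => gam 0 a' (n + 1) * y ^ (n + 1))
        = fun n : ℕ => (a' * y) ^ (n + 1) / (n + 1) / a' := by
      funext n
      have : ∏ m ∈ range n, ((m:ℝ) + 1) = n.factorial := by
        rw [← prod_range_add_one_eq_factorial]; push_cast; rfl
      simp only [gam, if_neg n.succ_ne_zero, Nat.add_sub_cancel, sub_zero, prod_mul_distrib,
        prod_const, card_range, this, Nat.factorial_succ]
      push_cast; field_simp; ring
    rw [e]; exact this
  · have h1 := (Real.one_add_rpow_hasFPowerSeriesOnBall_zero (a := a / a')).hasSum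
      (y := -(a' * y)) (by
        rw [Metric.mem_eball, edist_zero_right, enorm_neg, ← ofReal_norm_eq_enorm,
          ENNReal.ofReal_lt_one]; exact hy)
    simp only [binomialSeries_apply, List.ofFn_const, List.prod_replicate, smul_eq_mul,
      zero_add] at h1
    rw [← hasSum_nat_add_iff' 1] at h1
    have h2 := (h1.neg).div_const a
    have e : (fun n : ℕ => gam a a' (n + 1) * y ^ (n + 1))
        = fun n : ℕ => -(Ring.choose (a / a') (n + 1) * (-(a' * y)) ^ (n + 1)) / a := by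
      funext n
      have h3 := choose_mul_factorial (a / a') (n + 1)
      have h4 : (-a') ^ (n + 1) * ∏ m ∈ range (n + 1), (a / a' - m)
          = -a * ∏ m ∈ range n, (((m:ℝ) + 1) * a' - a) := by
        have : (-a') ^ (n + 1) = ∏ _m ∈ range (n + 1), (-a') := by simp
        rw [this, ← prod_mul_distrib, prod_range_succ', mul_comm]
        congr 1
        · field_simp; simp
        · refine prod_congr rfl fun m _ => ?_
          push_cast; field_simp; ring
      have h5 : ((n + 1).factorial : ℝ) ≠ 0 := by exact_mod_cast (n + 1).factorial_ne_zero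
      rw [← h3] at h4
      simp only [gam, if_neg n.succ_ne_zero, Nat.add_sub_cancel]
      rw [← neg_mul a' y, mul_pow]
      field_simp
      linear_combination y ^ (n + 1) * h4
    have e2 : (1 - (1 - a' * y) ^ (a / a')) / a = -((1 + -(a' * y)) ^ (a / a') -
        ∑ i ∈ range 1, Ring.choose (a / a') i * (-(a' * y)) ^ i) / a := by
      simp [sub_eq_add_neg]
    rw [e, e2]; exact h2

theorem one_sub_Y (hK : IsKer K) {a : ℝ} (ha : 0 < a) (h : List S) (f : S → ℝ) :
    1 - a * ∑ s, K h s * ((1 - f s) / a) = ∑ s, K h s * f s := by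
  have : ∀ s, a * (K h s * ((1 - f s) / a)) = K h s - K h s * f s := fun s => by field_simp
  rw [mul_sum]
  simp only [this, sum_sub_distrib, hK.2]; ring

/-- `Y` below the root. -/
theorem Y_eq (hK : IsKer K) {R : ℕ} (he : Exps e R) {j : ℕ} (hj : j < R) (h : List S)
    {U : List S → ℝ} (hU : ∀ l, U l < 1) :
    Y e K j h U = (1 - T e K j h (fun l => 1 - U l) ^ e j) / e j := by
  have hU' : ∀ l, 0 < 1 - U l := fun l => sub_pos.2 (hU l)
  induction j generalizing h with
  | zero => simp [Y, T, he.zero]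
  | succ j ih =>
    have h0 := he.pos' j (by omega)
    have h1 := he.pos' (j + 1) hj
    have hD := hK.sum_pos h fun s => Real.rpow_pos_of_pos
      (T_pos hK j (fun i hi => he.pos' i (by omega)) (s :: h) hU') (e j)
    simp only [Y, T, Lam, if_neg h1.ne', ih (by omega)]
    rw [← Real.rpow_mul hD.le, one_sub_Y hK h0]
    congr 3; ring

/-- `Y` at the root is `-log T`. -/
theorem Y_root (hK : IsKer K) {R : ℕ} (he : Exps e R) (h : List S) {U : List S → ℝ}
    (hU : ∀ l, U l < 1) : Y e K R h U = -Real.log (T e K R h fun l => 1 - U l) := by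
  have hU' : ∀ l, 0 < 1 - U l := fun l => sub_pos.2 (hU l)
  obtain ⟨j, rfl⟩ : ∃ j, R = j + 1 := ⟨R - 1, by have := he.pos; omega⟩
  have h0 := he.pos' j (by omega)
  have hD := hK.sum_pos h fun s => Real.rpow_pos_of_pos
    (T_pos hK j (fun i hi => he.pos' i (by omega)) (s :: h) hU') (e j)
  simp only [Y, T, Lam, if_pos he.top, Y_eq hK he (Nat.lt_succ_self j) _ hU]
  rw [one_sub_Y hK h0, Real.log_rpow hD]; ring

/-- Finite weighted sums of point evaluations. -/
def Rep {α : Type} (P : ℝ → α → Prop) (f : (α → ℝ) → ℝ) : Prop :=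
  ∃ l : List (ℝ × α), (∀ x ∈ l, P x.1 x.2) ∧ ∀ Φ, f Φ = (l.map fun x => x.1 * Φ x.2).sum

section rep
variable {α β γ : Type} {P : ℝ → α → Prop} {f g : (α → ℝ) → ℝ}

theorem Rep.zero : Rep P fun _ => 0 := ⟨[], by simp, by simp⟩

theorem Rep.single {t : α} (h : P 1 t) : Rep P fun Φ => Φ t := ⟨[(1, t)], by simpa, by simp⟩

theorem Rep.add (hf : Rep P f) (hg : Rep P g) : Rep P fun Φ => f Φ + g Φ := by
  obtain ⟨l, h1, h2⟩ := hf
  obtain ⟨l', h1', h2'⟩ := hg
  exact ⟨l ++ l', fun x hx => (List.mem_append.1 hx).elim (h1 x) (h1' x), fun Φ => by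
    simp [h2, h2']⟩

theorem Rep.sum {ι : Type} (s : Finset ι) {F : ι → (α → ℝ) → ℝ} (h : ∀ i ∈ s, Rep P (F i)) :
    Rep P fun Φ => ∑ i ∈ s, F i Φ := by
  classical
  induction s using Finset.induction_on with
  | empty => simpa using Rep.zero
  | insert a s ha ih =>
    simp only [sum_insert ha]
    exact (h a (mem_insert_self _ _)).add (ih fun i hi => h i (mem_insert_of_mem hi))

theorem Rep.map {Q : ℝ → β → Prop} (hf : Rep P f) (c : ℝ) (φ : α → β)
    (h : ∀ w t, P w t → Q (c * w) (φ t)) : Rep Q fun Φ => c * f fun t => Φ (φ t) := by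
  obtain ⟨l, h1, h2⟩ := hf
  refine ⟨l.map fun x => (c * x.1, φ x.2), fun x hx => ?_, fun Φ => ?_⟩
  · obtain ⟨y, hy, rfl⟩ := List.mem_map.1 hx
    exact h _ _ (h1 y hy)
  · beta_reduce
    rw [h2, ← List.sum_map_mul_left, List.map_map]
    congr 2; funext x; simp [mul_assoc]

theorem Rep.bind {Q : ℝ → β → Prop} {R : ℝ → γ → Prop} {g : (β → ℝ) → ℝ} (hf : Rep P f)
    (hg : Rep Q g) (φ : α → β → γ) (h : ∀ w t w' t', P w t → Q w' t' → R (w * w') (φ t t')) :
    Rep R fun Φ => f fun t => g fun t' => Φ (φ t t') := by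
  obtain ⟨l, h1, h2⟩ := hf
  simp only [h2]
  clear h2
  induction l with
  | nil => simpa using Rep.zero
  | cons x l ih =>
    simp only [List.map_cons, List.sum_cons]
    exact (hg.map x.1 (φ x.2) fun w t hw => h _ _ _ _ (h1 x (by simp)) hw).add
      (ih fun y hy => h1 y (by simp [hy]))

theorem Rep.map_add (hf : Rep P f) (Φ Ψ : α → ℝ) : f (fun t => Φ t + Ψ t) = f Φ + f Ψ := by
  obtain ⟨l, -, h2⟩ := hf
  simp only [h2, mul_add, List.sum_map_add]

theorem Rep.map_mul (hf : Rep P f) (c : ℝ) (Φ : α → ℝ) : f (fun t => c * Φ t) = c * f Φ := by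
  obtain ⟨l, -, h2⟩ := hf
  simp only [h2, ← List.sum_map_mul_left, mul_left_comm c]

theorem Rep.map_sum (hf : Rep P f) {ι : Type} (s : Finset ι) (Φ : ι → α → ℝ) :
    f (fun t => ∑ i ∈ s, Φ i t) = ∑ i ∈ s, f (Φ i) := by
  classical
  induction s using Finset.induction_on with
  | empty => simpa using hf.map_mul 0 fun _ => 0
  | insert a s ha ih => simp only [sum_insert ha, hf.map_add, ih]

theorem Rep.le (hf : Rep P f) {Φ Ψ : α → ℝ} (h : ∀ w t, P w t → w * Φ t ≤ w * Ψ t) :
    f Φ ≤ f Ψ := by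
  obtain ⟨l, h1, h2⟩ := hf
  rw [h2, h2]
  exact List.sum_le_sum fun x hx => h _ _ (h1 x hx)

end rep

/-- The union of the leaves of a list of shapes. -/
def lvL (j : ℕ) (ts : List (Sh ι j)) : Finset ι := ts.foldr (fun t acc => lv j t ∪ acc) ∅

@[simp] theorem lvL_nil (j : ℕ) : lvL (ι := ι) j [] = ∅ := rfl
@[simp] theorem lvL_cons (j : ℕ) (t : Sh ι j) (ts : List (Sh ι j)) :
    lvL j (t :: ts) = lv j t ∪ lvL j ts := rfl
theorem lv_zero (q : ι) : lv (ι := ι) 0 q = ({q} : Finset ι) := rfl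
theorem lv_succ (j : ℕ) (t : Sh ι (j + 1)) : lv (j + 1) t = lvL j (kids t) := rfl

theorem lv_subset_lvL {j : ℕ} {t : Sh ι j} : ∀ {ts : List (Sh ι j)}, t ∈ ts → lv j t ⊆ lvL j ts
  | [], h => by simp at h
  | t' :: ts, h => by
    rcases List.mem_cons.1 h with rfl | h
    · exact subset_union_left
    · exact (lv_subset_lvL h).trans subset_union_right

theorem disjoint_lvL {j : ℕ} {B : Finset ι} : ∀ {ts : List (Sh ι j)},
    (∀ t ∈ ts, Disjoint B (lv j t)) → Disjoint B (lvL j ts)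
  | [], _ => by simp
  | t :: ts, h => by
    rw [lvL_cons, disjoint_union_right]
    exact ⟨h t (by simp), disjoint_lvL fun t' ht' => h t' (by simp [ht'])⟩

theorem PP_rep {j : ℕ} {pos : Prop} {rec : Finset ι → (Sh ι j → ℝ) → ℝ}
    (h : ∀ B, Rep (fun w t => (pos → 0 ≤ w) ∧ WF j t ∧ lv j t = B) (rec B)) :
    ∀ (κ : ℕ) (A : Finset ι), Rep (fun w ts => (pos → 0 ≤ w) ∧ ts.length = κ ∧ (∀ t ∈ ts, WF j t) ∧
      (ts.Pairwise fun t t' => Disjoint (lv j t) (lv j t')) ∧ lvL j ts = A) (PP rec κ A)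
  | 0, A => by
    by_cases hA : A = ∅
    · have : PP rec 0 A = fun Φ => Φ [] := by funext Φ; simp [PP, hA]
      rw [this]; exact Rep.single (by simp [hA])
    · have : PP rec 0 A = fun _ => 0 := by funext Φ; simp [PP, hA]
      rw [this]; exact Rep.zero
  | κ + 1, A => by
    refine Rep.sum A.powerset fun B hB => (h B).bind (PP_rep h κ (A \ B)) List.cons ?_
    rintro w t w' ts ⟨h1, h2, h3⟩ ⟨h4, h5, h6, h7, h8⟩
    refine ⟨fun hp => mul_nonneg (h1 hp) (h4 hp), by simp [h5], ?_, ?_, ?_⟩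
    · intro t' ht'
      rcases List.mem_cons.1 ht' with rfl | ht'
      · exact h2
      · exact h6 t' ht'
    · refine List.Pairwise.cons (fun t' ht' => ?_) h7
      rw [h3]
      exact disjoint_sdiff.mono_right (h8 ▸ lv_subset_lvL ht')
    · rw [lvL_cons, h3, h8, union_sdiff_of_subset (mem_powerset.1 hB)]

theorem SS_rep (e : ℕ → ℝ) : ∀ (j : ℕ) (A : Finset ι),
    Rep (fun w t => ((∀ i < j, ∀ κ, 0 ≤ gam (e (i + 1)) (e i) κ) → 0 ≤ w) ∧ WF j t ∧ lv j t = A)
      (SS e j A)
  | 0, A => by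
    by_cases hA : A.card = 1
    · obtain ⟨q, rfl⟩ := card_eq_one.1 hA
      have : SS e 0 {q} = fun Φ => Φ q := by funext Φ; simp [SS]
      rw [this]; exact Rep.single ⟨fun _ => zero_le_one, trivial, rfl⟩
    · have : SS e 0 A = fun _ => 0 := by funext Φ; simp [SS, hA]
      rw [this]; exact Rep.zero
  | j + 1, A => by
    refine Rep.sum (Icc 1 A.card) fun κ hκ => (PP_rep (SS_rep e j) κ A).map _ (fun ts => ts) ?_
    rintro w ts ⟨h1, h2, h3, h4, h5⟩
    refine ⟨fun hp => mul_nonneg (hp j (by omega) κ) (h1 fun i hi => hp i (by omega)),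
      ⟨?_, h3, h4⟩, h5⟩
    intro h0
    have : ts = [] := h0
    rw [this] at h2
    have := (mem_Icc.1 hκ).1
    simp at h2; omega

theorem Exps.gam_nonneg {R : ℕ} (he : Exps e R) {j : ℕ} (hj : j ≤ R) :
    ∀ i < j, ∀ κ, 0 ≤ gam (e (i + 1)) (e i) κ := fun i hi κ => by
  rcases (show i + 1 ≤ R by omega).lt_or_eq with h | h
  · exact MP.gam_nonneg (he.pos' _ h).le (he.anti i h) κ
  · rw [h, he.top]; exact MP.gam_nonneg le_rfl (he.pos' i (by omega)).le κ

theorem SS_add (j : ℕ) (A : Finset ι) (Φ Ψ : Sh ι j → ℝ) :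
    SS e j A (fun t => Φ t + Ψ t) = SS e j A Φ + SS e j A Ψ := (SS_rep e j A).map_add Φ Ψ

theorem SS_const_mul (j : ℕ) (A : Finset ι) (c : ℝ) (Φ : Sh ι j → ℝ) :
    SS e j A (fun t => c * Φ t) = c * SS e j A Φ := (SS_rep e j A).map_mul c Φ

theorem SS_sum {α : Type} (B : Finset α) (j : ℕ) (A : Finset ι) (Φ : α → Sh ι j → ℝ) :
    SS e j A (fun t => ∑ a ∈ B, Φ a t) = ∑ a ∈ B, SS e j A (Φ a) := (SS_rep e j A).map_sum B Φ

theorem SS_mono {R : ℕ} (he : Exps e R) {j : ℕ} (hj : j ≤ R) (A : Finset ι) {Φ Ψ : Sh ι j → ℝ}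
    (h : ∀ t, WF j t → lv j t = A → Φ t ≤ Ψ t) : SS e j A Φ ≤ SS e j A Ψ := 
  (SS_rep e j A).le fun _ t ht =>
    mul_le_mul_of_nonneg_left (h t ht.2.1 ht.2.2) (ht.1 (he.gam_nonneg hj))

theorem SS_congr (j : ℕ) (A : Finset ι) {Φ Ψ : Sh ι j → ℝ}
    (h : ∀ t, WF j t → lv j t = A → Φ t = Ψ t) : SS e j A Φ = SS e j A Ψ :=
  le_antisymm ((SS_rep e j A).le fun _ t ht => by rw [h t ht.2.1 ht.2.2])
    ((SS_rep e j A).le fun _ t ht => by rw [h t ht.2.1 ht.2.2])

/-- `SS` is a finite weighted sum. -/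
theorem SS_finite {R : ℕ} (he : Exps e R) {j : ℕ} (hj : j ≤ R) (A : Finset ι) :
    ∃ (n : ℕ) (t : Fin n → Sh ι j) (w : Fin n → ℝ), (∀ k, 0 ≤ w k ∧ WF j (t k) ∧ lv j (t k) = A) ∧
      ∀ Φ : Sh ι j → ℝ, SS e j A Φ = ∑ k, w k * Φ (t k) := by
  obtain ⟨l, h1, h2⟩ := SS_rep (ι := ι) e j A
  refine ⟨l.length, fun k => (l.get k).2, fun k => (l.get k).1, fun k => ?_, fun Φ => ?_⟩
  · have := h1 _ (List.get_mem l k)
    exact ⟨this.1 (he.gam_nonneg hj), this.2⟩
  · rw [h2, ← List.sum_ofFn]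
    conv_lhs => rw [← List.ofFn_get l, List.map_ofFn]
    rfl

theorem PP_prod {j : ℕ} (φ : Sh ι j → ℝ) : ∀ (κ : ℕ) (A : Finset ι),
    PP (SS e j) κ A (fun ts => (ts.map φ).prod) = cpow (fun B => SS e j B φ) κ A
  | 0, A => by simp [PP, cpow]
  | κ + 1, A => by
    simp only [PP, cpow, List.map_cons, List.prod_cons]
    refine sum_congr rfl fun B _ => ?_
    simp only [(PP_rep (SS_rep e j) κ (A \ B)).map_mul, PP_prod φ κ]
    simp only [mul_comm (φ _), SS_const_mul]; ring

theorem Mml_eq_SS (j : ℕ) (h : List S) (F : ι → List S → ℝ) (A : Finset ι) :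
    Mml e K j h F A = SS e j A fun t => ev K F j t h := by
  induction j generalizing h A with
  | zero =>
    simp only [Mml, Yf, sing, SS, ev]
    split_ifs with hA
    · obtain ⟨q, rfl⟩ := card_eq_one.1 hA; simp
    · rfl
  | succ j ih =>
    simp only [Mml, Yf, lamS, SS, ev, one_mul] at ih ⊢
    refine sum_congr rfl fun κ _ => ?_
    congr 1
    refine Eq.trans ?_ (PP_prod (e := e) (fun t => ∑ s, K h s * ev K F j t (s :: h)) κ A).symm
    simp only [SS_sum, SS_const_mul, ih]

/-- `cpow` for coefficients depending only on the cardinality. -/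
noncomputable def cN (y : ℕ → ℝ) : ℕ → ℕ → ℝ
  | 0, n => if n = 0 then 1 else 0
  | κ + 1, n => ∑ kl ∈ antidiagonal n, (n.choose kl.1 : ℝ) * (y kl.1 * cN y κ kl.2)

theorem cpow_card (y : ℕ → ℝ) : ∀ (κ : ℕ) (A : Finset ι),
    cpow (fun B => y B.card) κ A = cN y κ A.card
  | 0, A => by simp [cpow, cN]
  | κ + 1, A => by
    simp only [cpow, cN]
    rw [Nat.sum_antidiagonal_eq_sum_range_succ_mk]
    simp only [← nsmul_eq_mul]
    rw [← sum_powerset_apply_card (fun m => y m * cN y κ (A.card - m))]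
    refine sum_congr rfl fun B hB => ?_
    rw [cpow_card y κ, card_sdiff_of_subset (mem_powerset.1 hB)]

/-- `Mml` of a constant family. -/
noncomputable def mN (e : ℕ → ℝ) (K : Ker S) (U : List S → ℝ) : ℕ → List S → ℕ → ℝ
  | 0, h, n => if n = 1 then U h else 0
  | j + 1, h, n => ∑ κ ∈ Icc 1 n, gam (e (j + 1)) (e j) κ *
      cN (fun m => ∑ s, K h s * mN e K U j (s :: h) m) κ n

theorem Mml_const (U : List S → ℝ) : ∀ (j : ℕ) (h : List S) (A : Finset ι),
    Mml e K j h (fun _ => U) A = mN e K U j h A.card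
  | 0, h, A => by
    simp only [Mml, Yf, sing, mN]
    split_ifs with hA
    · simp [hA]
    · rfl
  | j + 1, h, A => by
    have ih := Mml_const U j
    simp only [Mml, Yf, lamS, mN, one_mul] at ih ⊢
    simp only [ih]
    exact sum_congr rfl fun κ _ => by
      rw [cpow_card (fun m => ∑ s, K h s * mN e K U j (s :: h) m)]

/-- For a constant family the functional depends only on the number of replicas. -/
theorem Mml_const_card (j : ℕ) (h : List S) (U : List S → ℝ) (A : Finset ι) :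
    Mml e K j h (fun _ => U) A = Mml (ι := Fin A.card) e K j h (fun _ => U) univ := by
  rw [Mml_const, Mml_const]; simp

theorem ev_nonneg (hK : IsKer K) {F : ι → List S → ℝ} (hF : ∀ q l, 0 ≤ F q l) (j : ℕ)
    (t : Sh ι j) (h : List S) : 0 ≤ ev K F j t h := by
  induction j generalizing h with
  | zero => exact hF _ _
  | succ j ih =>
    refine List.prod_nonneg fun x hx => ?_
    obtain ⟨t', -, rfl⟩ := List.mem_map.1 hx
    exact sum_nonneg fun s _ => mul_nonneg (hK.1 _ _) (ih _ _)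

theorem ev_one (hK : IsKer K) (j : ℕ) (t : Sh ι j) (h : List S) :
    ev K (fun _ _ => 1) j t h = 1 := by
  induction j generalizing h with
  | zero => rfl
  | succ j ih => simp [ev, ih, hK.2]

theorem SS_one (j : ℕ) (A : Finset ι) : SS e j A (fun _ => 1) = wt e j A.card := by
  have h1 := Mml_eq_SS (e := e) (K := unifK Unit) j [] (fun (_ : ι) _ => 1) A
  have h2 := Mml_eq_SS (e := e) (K := unifK Unit) j [] (fun (_ : Fin A.card) _ => 1) univ
  simp only [ev_one isKer_unifK] at h1 h2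
  rw [wt, ← h1, ← h2, Mml_const_card]

theorem wt_nonneg {R : ℕ} (he : Exps e R) {j : ℕ} (hj : j ≤ R) (n : ℕ) : 0 ≤ wt e j n := by
  have := SS_mono (ι := Fin n) he hj univ (Φ := fun _ => 0) (Ψ := fun _ => 1)
    fun _ _ _ => zero_le_one
  have h0 := SS_const_mul (e := e) (ι := Fin n) j univ 0 fun _ => 0
  simp only [zero_mul] at h0
  rwa [h0] at this

theorem pow_card_lvL {j : ℕ} (ρ : ℝ) : ∀ ts : List (Sh ι j),
    (ts.Pairwise fun t t' => Disjoint (lv j t) (lv j t')) →
    (ts.map fun t => ρ ^ (lv j t).card).prod = ρ ^ (lvL j ts).card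
  | [], _ => by simp
  | t :: ts, h => by
    obtain ⟨h1, h2⟩ := List.pairwise_cons.1 h
    rw [List.map_cons, List.prod_cons, pow_card_lvL ρ ts h2, lvL_cons,
      card_union_of_disjoint (disjoint_lvL h1), pow_add]

theorem abs_prod_map_le {α : Type} {φ ψ : α → ℝ} : ∀ ts : List α, (∀ t ∈ ts, |φ t| ≤ ψ t) →
    |(ts.map φ).prod| ≤ (ts.map ψ).prod
  | [], _ => by simp
  | t :: ts, h => by
    simp only [List.map_cons, List.prod_cons, abs_mul]
    exact mul_le_mul (h t (by simp)) (abs_prod_map_le ts fun t' ht' => h t' (by simp [ht']))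
      (abs_nonneg _) ((abs_nonneg _).trans (h t (by simp)))

theorem ev_const (hK : IsKer K) (ρ : ℝ) (j : ℕ) (t : Sh ι j) (ht : WF j t) (h : List S) :
    ev K (fun _ _ => ρ) j t h = ρ ^ (lv j t).card := by
  induction j generalizing h with
  | zero => rw [lv_zero (ι := ι) t, card_singleton, pow_one]; rfl
  | succ j ih =>
    rw [lv_succ, ← pow_card_lvL ρ _ ht.2.2, ev]
    congr 1
    refine List.map_congr_left fun t' ht' => ?_
    simp only [ih t' (ht.2.1 t' ht')]
    rw [← sum_mul, hK.2, one_mul]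

theorem abs_ev_le (hK : IsKer K) {F : ι → List S → ℝ} {ρ : ℝ} (h0 : 0 ≤ ρ)
    (hF : ∀ q l, |F q l| ≤ ρ) (j : ℕ) (t : Sh ι j) (ht : WF j t) (h : List S) :
    |ev K F j t h| ≤ ρ ^ (lv j t).card := by
  induction j generalizing h with
  | zero => rw [lv_zero (ι := ι) t, card_singleton, pow_one]; exact hF _ _
  | succ j ih =>
    rw [lv_succ, ← pow_card_lvL ρ _ ht.2.2, ev]
    refine abs_prod_map_le _ fun t' ht' => (abs_sum_le_sum_abs _ _).trans ?_
    calc _ ≤ ∑ s, K h s * ρ ^ (lv j t').card := sum_le_sum fun s _ => by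
          rw [abs_mul, abs_of_nonneg (hK.1 _ _)]
          exact mul_le_mul_of_nonneg_left (ih t' (ht.2.1 t' ht') _) (hK.1 _ _)
      _ = _ := by rw [← sum_mul, hK.2, one_mul]

theorem abs_Mml_le (hK : IsKer K) {R : ℕ} (he : Exps e R) {j : ℕ} (hj : j ≤ R) (h : List S)
    {F : ι → List S → ℝ} {ρ : ℝ} (h0 : 0 ≤ ρ) (hF : ∀ q l, |F q l| ≤ ρ) (A : Finset ι) :
    |Mml e K j h F A| ≤ wt e j A.card * ρ ^ A.card := by
  rw [Mml_eq_SS, ← SS_one, mul_comm, abs_le, ← neg_mul, ← SS_const_mul, ← SS_const_mul]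
  constructor
  · refine SS_mono he hj A fun t ht hl => ?_
    have := (abs_le.1 (abs_ev_le hK h0 hF j t ht h)).1
    rw [hl] at this; linarith
  · refine SS_mono he hj A fun t ht hl => ?_
    have := (abs_le.1 (abs_ev_le hK h0 hF j t ht h)).2
    rw [hl] at this; linarith

theorem abs_mN_le (hK : IsKer K) {R : ℕ} (he : Exps e R) {j : ℕ} (hj : j ≤ R) (h : List S)
    {U : List S → ℝ} {ρ : ℝ} (hU : ∀ l, |U l| ≤ ρ) (n : ℕ) :
    |mN e K U j h n| ≤ wt e j n * ρ ^ n := by
  have := abs_Mml_le (ι := Fin n) hK he hj h ((abs_nonneg _).trans (hU h)) (fun _ => hU) univ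
  simpa [Mml_const] using this

theorem mN_const (hK : IsKer K) (j : ℕ) (h : List S) (ρ : ℝ) (n : ℕ) :
    mN e K (fun _ => ρ) j h n = wt e j n * ρ ^ n := by
  have h1 := Mml_const (ι := Fin n) (e := e) (K := K) (fun _ => ρ) j h univ
  rw [Mml_eq_SS, SS_congr j univ (Ψ := fun _ => ρ ^ n * 1) (fun t ht hl => by
    rw [ev_const hK ρ j t ht h, hl]; simp), SS_const_mul] at h1
  simp only [card_univ, Fintype.card_fin] at h1
  rw [← h1, wt, mul_comm]

theorem mN_zero (U : List S → ℝ) (j : ℕ) (h : List S) : mN e K U j h 0 = 0 := by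
  cases j <;> simp [mN]

theorem cN_eq_zero {y : ℕ → ℝ} (hy : y 0 = 0) : ∀ κ n : ℕ, n < κ → cN y κ n = 0
  | 0, _, h => by omega
  | κ + 1, n, h => by
    refine sum_eq_zero fun kl hkl => ?_
    have := mem_antidiagonal.1 hkl
    by_cases h1 : kl.1 = 0
    · rw [h1, hy]; simp
    · rw [cN_eq_zero hy κ kl.2 (by omega)]; simp

theorem abs_cN_le {y w : ℕ → ℝ} (h : ∀ m, |y m| ≤ w m) : ∀ κ n : ℕ, |cN y κ n| ≤ cN w κ n
  | 0, n => by simp only [cN]; split_ifs <;> simp
  | κ + 1, n => by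
    refine (abs_sum_le_sum_abs _ _).trans (sum_le_sum fun kl _ => ?_)
    rw [abs_mul, abs_mul, Nat.abs_cast]
    exact mul_le_mul_of_nonneg_left (mul_le_mul (h _) (abs_cN_le h κ _) (abs_nonneg _)
      ((abs_nonneg _).trans (h _))) (Nat.cast_nonneg _)

theorem hasSum_cN {y : ℕ → ℝ} {a : ℝ} (h : HasSum (fun m : ℕ => y m / m.factorial) a) :
    ∀ κ : ℕ, HasSum (fun n : ℕ => cN y κ n / n.factorial) (a ^ κ)
  | 0 => by
    have := hasSum_single (f := fun n : ℕ => cN y 0 n / n.factorial) 0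
      (fun n hn => by simp [cN, hn])
    simpa [cN] using this
  | κ + 1 => by
    have ih := hasSum_cN h κ
    have e : (fun n : ℕ => cN y (κ + 1) n / n.factorial) = fun n => ∑ kl ∈ antidiagonal n,
        y kl.1 / kl.1.factorial * (cN y κ kl.2 / kl.2.factorial) := by
      funext n
      rw [cN, sum_div]
      refine sum_congr rfl fun kl hkl => ?_
      obtain ⟨k, m⟩ := kl
      obtain rfl : k + m = n := mem_antidiagonal.1 hkl
      have h3 : ((k + m).choose k : ℝ) * k.factorial * m.factorial = (k + m).factorial := by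
        have := Nat.add_choose_mul_factorial_mul_factorial m k
        rw [add_comm m k] at this
        exact_mod_cast (by rw [← this]; ring : (k + m).choose k * k.factorial * m.factorial = _)
      have h6 : (((k + m).choose k : ℕ) : ℝ) ≠ 0 := by
        exact_mod_cast (Nat.choose_pos (by omega)).ne'
      rw [← h3]; field_simp
    rw [e, pow_succ', ← h.tsum_eq]
    conv => enter [2, 2]; rw [h.tsum_eq, ← ih.tsum_eq]
    rw [tsum_mul_tsum_eq_tsum_sum_antidiagonal_of_summable_norm h.summable.norm ih.summable.norm]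
    exact (summable_norm_sum_mul_antidiagonal_of_summable_norm h.summable.norm
      ih.summable.norm).of_norm.hasSum

theorem hasSum_lamN {a a' : ℝ} (ha : 0 ≤ a) (h : a ≤ a') (ha' : 0 < a') {y w : ℕ → ℝ}
    {Yv Wv : ℝ} (hy : HasSum (fun m : ℕ => y m / m.factorial) Yv)
    (hw : HasSum (fun m : ℕ => w m / m.factorial) Wv) (hyw : ∀ m, |y m| ≤ w m) (hy0 : y 0 = 0)
    (hW : a' * Wv < 1) :
    HasSum (fun n : ℕ => (∑ κ ∈ Icc 1 n, gam a a' κ * cN y κ n) / n.factorial) (Lam a a' Yv) := by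
  have hf : ∀ m : ℕ, (0:ℝ) < m.factorial := fun m => by exact_mod_cast m.factorial_pos
  have h1 : Yv ≤ Wv := hasSum_le (fun m =>
    div_le_div_of_nonneg_right ((le_abs_self _).trans (hyw m)) (hf m).le) hy hw
  have h2 : -Yv ≤ Wv := hasSum_le (fun m => by
    rw [← neg_div]
    exact div_le_div_of_nonneg_right ((neg_le_abs _).trans (hyw m)) (hf m).le) hy.neg hw
  have hYW : |Yv| ≤ Wv := abs_le.2 ⟨by linarith, h1⟩
  have hW0 : 0 ≤ Wv := (abs_nonneg _).trans hYW
  have hG : Summable fun x : ℕ × ℕ => gam a a' x.1 * (cN w x.1 x.2 / x.2.factorial) := by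
    rw [summable_prod_of_nonneg fun x => mul_nonneg (gam_nonneg ha h _)
      (div_nonneg ((abs_nonneg _).trans (abs_cN_le hyw _ _)) (hf _).le)]
    refine ⟨fun κ => (hasSum_cN hw κ).summable.mul_left (gam a a' κ), ?_⟩
    simp only [tsum_mul_left, (hasSum_cN hw _).tsum_eq]
    exact (hasSum_Lam ha h ha' (by rwa [abs_of_nonneg (by positivity)])).summable
  have hF : Summable fun x : ℕ × ℕ => gam a a' x.1 * (cN y x.1 x.2 / x.2.factorial) := by
    refine Summable.of_norm_bounded hG fun x => ?_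
    rw [Real.norm_eq_abs, abs_mul, abs_of_nonneg (gam_nonneg ha h _), abs_div, Nat.abs_cast]
    exact mul_le_mul_of_nonneg_left (div_le_div_of_nonneg_right (abs_cN_le hyw _ _) (hf _).le)
      (gam_nonneg ha h _)
  have h3 := hF.hasSum.prod_fiberwise fun κ => (hasSum_cN hy κ).mul_left (gam a a' κ)
  have h4 := hasSum_Lam (y := Yv) ha h ha' (by
    rw [abs_mul, abs_of_pos ha']; exact (mul_le_mul_of_nonneg_left hYW ha'.le).trans_lt hW)
  rw [← h3.unique h4]
  refine ((Equiv.prodComm ℕ ℕ).hasSum_iff.2 hF.hasSum).prod_fiberwise fun n => ?_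
  rw [sum_div]
  simp only [mul_div_assoc]
  refine hasSum_sum_of_ne_finset_zero fun κ hκ => ?_
  by_cases h0 : κ = 0
  · simp [h0, gam]
  · have : n < κ := by
      by_contra h5; exact hκ (mem_Icc.2 ⟨by omega, by omega⟩)
    simp [cN_eq_zero hy0 κ n this]

theorem hasSum_mN {R : ℕ} (he : Exps e R) {ρ : ℝ} (hρ : ρ < 1) (h0 : 0 ≤ ρ) : ∀ j ≤ R,
    ∀ (S : Type) [Fintype S] (K : Ker S), IsKer K → ∀ (h : List S) (U : List S → ℝ),
    (∀ l, |U l| ≤ ρ) → HasSum (fun n : ℕ => mN e K U j h n / n.factorial) (Y e K j h U) := by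
  intro j
  induction j with
  | zero =>
    intro _ S _ K _ h U _
    have := hasSum_single (f := fun n : ℕ => mN e K U 0 h n / n.factorial) 1
      (fun n hn => by simp [mN, hn])
    simpa [mN, Y] using this
  | succ j ih =>
    intro hj S _ K hK h U hU
    have hej := he.pos' j (by omega)
    have hw := ih (by omega) Unit (unifK Unit) isKer_unifK [] (fun _ => ρ)
      (fun _ => (abs_of_nonneg h0).le)
    simp only [mN_const isKer_unifK] at hw
    have hy := hasSum_sum (s := univ) fun s _ =>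
      (ih (by omega) S K hK (s :: h) U hU).mul_left (K h s)
    simp only [← mul_div_assoc, ← sum_div] at hy
    have ha : 0 ≤ e (j + 1) ∧ e (j + 1) ≤ e j := by
      rcases hj.lt_or_eq with h | h
      · exact ⟨(he.pos' _ h).le, he.anti j h⟩
      · rw [h, he.top]; exact ⟨le_rfl, hej.le⟩
    refine hasSum_lamN ha.1 ha.2 hej hy hw (fun m => ?_) (by simp [mN_zero]) ?_
    · refine (abs_sum_le_sum_abs _ _).trans ?_
      calc _ ≤ ∑ s, K h s * (wt e j m * ρ ^ m) := sum_le_sum fun s _ => by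
            rw [abs_mul, abs_of_nonneg (hK.1 _ _)]
            exact mul_le_mul_of_nonneg_left (abs_mN_le hK he (by omega) _ hU m) (hK.1 _ _)
        _ = _ := by rw [← sum_mul, hK.2, one_mul]
    · rw [Y_eq isKer_unifK he (by omega) _ (fun _ => hρ), mul_div_cancel₀ _ hej.ne', sub_lt_self_iff]
      exact Real.rpow_pos_of_pos (T_pos isKer_unifK j (fun i hi => he.pos' i (by omega)) _
        fun _ => sub_pos.2 hρ) _

theorem hasSum_wt {R : ℕ} (he : Exps e R) {j : ℕ} (hj : j ≤ R) {ρ : ℝ} (h0 : 0 ≤ ρ) (h1 : ρ < 1) :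
    ∃ a, HasSum (fun n : ℕ => wt e j n / n.factorial * ρ ^ n) a ∧ a ≤ -Real.log (1 - ρ) := by
  have hw := hasSum_mN he h1 h0 j hj Unit (unifK Unit) isKer_unifK [] (fun _ => ρ)
    (fun _ => (abs_of_nonneg h0).le)
  simp only [mN_const isKer_unifK, mul_div_right_comm] at hw
  refine ⟨_, hw, ?_⟩
  have hx : 0 < 1 - ρ := sub_pos.2 h1
  have hT := T_const (e := e) (isKer_unifK (S := Unit)) j (fun i hi => he.pos' i (by omega)) [] hx.le
  rcases hj.lt_or_eq with h | rfl
  · have hej := he.pos' j h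
    rw [Y_eq isKer_unifK he h _ (fun _ => h1), hT, div_le_iff₀ hej, Real.rpow_def_of_pos hx]
    have := Real.add_one_le_exp (Real.log (1 - ρ) * e j)
    linarith
  · rw [Y_root isKer_unifK he _ (fun _ => h1), hT]

/-- Uniform in the depth. -/
theorem wt_le {R : ℕ} (he : Exps e R) {j : ℕ} (hj : j ≤ R) (n : ℕ) {ρ : ℝ} (h0 : 0 ≤ ρ)
    (h1 : ρ < 1) : wt e j n / n.factorial * ρ ^ n ≤ -Real.log (1 - ρ) := by
  obtain ⟨a, h2, h3⟩ := hasSum_wt he hj h0 h1
  exact (le_hasSum h2 n fun m _ =>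
    mul_nonneg (div_nonneg (wt_nonneg he hj m) (Nat.cast_nonneg _)) (by positivity)).trans h3

/-- The replica expansion. -/
theorem hasSum_Y (hK : IsKer K) {R : ℕ} (he : Exps e R) {j : ℕ} (hj : j ≤ R) (h : List S)
    {U : List S → ℝ} {ρ : ℝ} (hρ : ρ < 1) (hU : ∀ l, |U l| ≤ ρ) :
    HasSum (fun n : ℕ => Mml (ι := Fin n) e K j h (fun _ => U) univ / n.factorial)
      (Y e K j h U) := by
  have := hasSum_mN he hρ ((abs_nonneg _).trans (hU h)) j hj S K hK h U hU
  simpa [Mml_const] using this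

theorem ev_mulK {K' : Ker S'} (F : ι → List S → ℝ) (F' : ι → List S' → ℝ) (j : ℕ) (t : Sh ι j)
    (H : List (S × S')) :
    ev (mulK K K') (fun q l => F q (l.map Prod.fst) * F' q (l.map Prod.snd)) j t H =
      ev K F j t (H.map Prod.fst) * ev K' F' j t (H.map Prod.snd) := by
  induction j generalizing H with
  | zero => rfl
  | succ j ih =>
    simp only [ev, ih, List.map_cons]
    rw [← List.prod_map_mul]
    congr 2; funext t'
    rw [sum_mul_sum, Fintype.sum_prod_type]
    exact sum_congr rfl fun s _ => sum_congr rfl fun s' _ => by rw [mulK]; ring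

theorem prod_map_prod {α L : Type} [Fintype L] (φ : L → α → ℝ) : ∀ ts : List α,
    (ts.map fun t => ∏ m, φ m t).prod = ∏ m, (ts.map (φ m)).prod
  | [] => by simp
  | t :: ts => by simp only [List.map_cons, List.prod_cons, prod_map_prod φ ts, prod_mul_distrib]

theorem ev_prodK {L : Type} [Fintype L] [DecidableEq L] (F : L → ι → List S → ℝ) (j : ℕ)
    (t : Sh ι j) (H : List (L → S)) :
    ev (prodK L K) (fun q l => ∏ m, F m q (l.map fun u => u m)) j t H =
      ∏ m, ev K (F m) j t (H.map fun u => u m) := by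
  induction j generalizing H with
  | zero => rfl
  | succ j ih =>
    simp only [ev, ih, List.map_cons]
    rw [← prod_map_prod]
    congr 2; funext t'
    rw [prod_univ_sum, Fintype.piFinset_univ]
    exact sum_congr rfl fun s _ => by rw [prodK, prod_mul_distrib]

theorem ev_congr {F F' : ι → List S → ℝ} (j : ℕ) (t : Sh ι j) (h : List S)
    (hF : ∀ q ∈ lv j t, F q = F' q) : ev K F j t h = ev K F' j t h := by
  induction j generalizing h with
  | zero => simp only [ev]; rw [hF t (mem_singleton_self (α := ι) t)]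
  | succ j ih =>
    simp only [ev]
    congr 1
    refine List.map_congr_left fun t' ht' => sum_congr rfl fun s _ => ?_
    rw [ih t' _ fun q hq => hF q (lv_subset_lvL ht' hq)]

theorem expect_mul_indep [Fintype ι] {X : Type} [Fintype X] [Nonempty X] (B : Finset ι)
    {f g : (ι → X) → ℝ} (hf : ∀ τ τ', (∀ q ∈ B, τ q = τ' q) → f τ = f τ')
    (hg : ∀ τ τ', (∀ q ∉ B, τ q = τ' q) → g τ = g τ') :
    𝔼 τ, f τ * g τ = (𝔼 τ, f τ) * 𝔼 τ, g τ := by
  obtain ⟨x0⟩ := ‹Nonempty X›
  set E := (Equiv.piEquivPiSubtypeProd (fun q => q ∈ B) fun _ => X).symm with hE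
  have h1 : ∀ y, f (E y) = f (E (y.1, fun _ => x0)) := fun y =>
    hf _ _ fun q hq => by simp [hE, hq]
  have h2 : ∀ y, g (E y) = g (E (fun _ => x0, y.2)) := fun y =>
    hg _ _ fun q hq => by simp [hE, hq]
  rw [← Fintype.expect_equiv E (fun y => f (E (y.1, fun _ => x0)) * g (E (fun _ => x0, y.2))) _
      (fun y => by rw [h1 y, h2 y]),
    ← Fintype.expect_equiv E (fun y => f (E (y.1, fun _ => x0))) _ (fun y => by rw [h1 y]),
    ← Fintype.expect_equiv E (fun y => g (E (fun _ => x0, y.2))) _ (fun y => by rw [h2 y]),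
    ← univ_product_univ, expect_product, expect_product, expect_product]
  simp only [Fintype.expect_const, ← mul_expect, ← expect_mul]

theorem prod_map_expect [Fintype ι] {X : Type} [Fintype X] [Nonempty X] {j : ℕ} (c : ι → X → ℝ)
    (ψ : (ι → X) → Sh ι j → ℝ) (hψ : ∀ τ τ' t, (∀ q ∈ lv j t, τ q = τ' q) → ψ τ t = ψ τ' t) :
    ∀ ts : List (Sh ι j), (ts.Pairwise fun t t' => Disjoint (lv j t) (lv j t')) →
    (ts.map fun t => 𝔼 τ : ι → X, (∏ q ∈ lv j t, c q (τ q)) * ψ τ t).prod
      = 𝔼 τ : ι → X, (∏ q ∈ lvL j ts, c q (τ q)) * (ts.map (ψ τ)).prod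
  | [], _ => by simp
  | t :: ts, h => by
    obtain ⟨h1, h2⟩ := List.pairwise_cons.1 h
    have hd := disjoint_lvL h1
    rw [List.map_cons, List.prod_cons, prod_map_expect c ψ hψ ts h2, ← expect_mul_indep (lv j t)]
    · refine expect_congr rfl fun τ _ => ?_
      rw [lvL_cons, prod_union hd, List.map_cons, List.prod_cons]; ring
    · intro τ τ' hτ
      rw [hψ τ τ' t hτ, prod_congr rfl fun q hq => by rw [hτ q hq]]
    · intro τ τ' hτ
      have hq : ∀ q ∈ lvL j ts, τ q = τ' q := fun q hq => hτ q (disjoint_right.1 hd hq)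
      rw [prod_congr rfl fun q h => by rw [hq q h],
        List.map_congr_left fun t' ht' => hψ τ τ' t' fun q h => hq q (lv_subset_lvL ht' h)]

theorem ev_expect [Fintype ι] {X : Type} [Fintype X] [DecidableEq X] [Nonempty X]
    (o : List S → X) (G : ι → X → ℝ) (j : ℕ) (t : Sh ι j) (ht : WF j t) (h : List S) :
    ev K (fun q l => G q (o l)) j t h =
      𝔼 τ : ι → X, (∏ q ∈ lv j t, (Fintype.card X * G q (τ q))) *
        ev K (fun q l => if o l = τ q then 1 else 0) j t h := by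
  induction j generalizing h with
  | zero =>
    rw [lv_zero (ι := ι) t]
    simp only [ev, prod_singleton]
    rw [expect_eval (A := ι) t fun x => Fintype.card X * G t x * if o h = x then 1 else 0,
      Fintype.expect_eq_sum_div_card]
    have : (Fintype.card X : ℝ) ≠ 0 := by exact_mod_cast Fintype.card_ne_zero
    simp
  | succ j ih =>
    simp only [ev]
    rw [lv_succ, ← prod_map_expect (fun q x => Fintype.card X * G q x)
      (fun τ t => ∑ s, K h s * ev K (fun q l => if o l = τ q then 1 else 0) j t (s :: h))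
      (fun τ τ' t' hτ => sum_congr rfl fun s _ => by
        rw [ev_congr j t' _ fun q hq => by rw [hτ q hq]]) _ ht.2.2]
    congr 1
    refine List.map_congr_left fun t' ht' => ?_
    simp only [ih t' (ht.2.1 t' ht'), mul_expect, mul_sum]
    rw [← expect_sum_comm]
    exact expect_congr rfl fun τ _ => sum_congr rfl fun s _ => by ring

/-- The same for an arbitrary leaf set. -/
theorem ev_expand' [Fintype ι] {X : Type} [Fintype X] [DecidableEq X] [Nonempty X]
    (o : List S → X) (G : ι → X → ℝ) (j : ℕ) (t : Sh ι j) (ht : WF j t) (h : List S) :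
    ev K (fun q l => G q (o l)) j t h =
      ∑ τ : ι → X, (∏ q ∈ lv j t, G q (τ q)) / (Fintype.card X : ℝ) ^ (lv j t)ᶜ.card *
        ev K (fun q l => if o l = τ q then 1 else 0) j t h := by
  rw [ev_expect o G j t ht h, Fintype.expect_eq_sum_div_card, sum_div]
  refine sum_congr rfl fun τ _ => ?_
  have : (Fintype.card X : ℝ) ≠ 0 := by exact_mod_cast Fintype.card_ne_zero
  rw [prod_mul_distrib, prod_const, Fintype.card_fun, ← card_add_card_compl (lv j t), pow_add]
  push_cast; field_simp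

/-- Multilinearity: `ev` is an average over the values `τ q` of an observable `o` on the
replicas. -/
theorem ev_expand [Fintype ι] {X : Type} [Fintype X] [DecidableEq X] (o : List S → X)
    (G : ι → X → ℝ) (j : ℕ) (t : Sh ι j) (ht : WF j t) (hl : lv j t = univ) (h : List S) :
    ev K (fun q l => G q (o l)) j t h =
      ∑ τ : ι → X, (∏ q, G q (τ q)) * ev K (fun q l => if o l = τ q then 1 else 0) j t h := by
  haveI : Nonempty X := ⟨o []⟩
  rw [ev_expand' o G j t ht h, hl]; simp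

end Crest.Agent.H9.MP
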