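import Crest.Agent.H9.MP.T2b

/-! MP-T2: small mixed coefficients make the labels independent. -/

/-
Sketch. (a) |Gtrue K - Σ_{s0} K [] s0 Gtrue (rootK K P s0)| ≤ (1/R)(2Kb)²: log T_R = (1/a) log Σ_{s0} K [] s0 exp(a X s0), a = e (R-1) = 1/R,
X s0 = log T (rootK ..) ∈ [-Kb,Kb] (IsCond; T_congr_ker below the root); 0 ≤ (1/a) log E exp(aX) - E X ≤ C a.
(b) W = c (1 - U), c = cosh Kb, |U| ≤ ρ = tanh Kb < 1; log T = log c - Σ_n Mml_n / n! (T_const_mul, Y_root, hasSum_Y) for both the true and the product tree;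
tail n > D ≤ Σ_{n>D} (-log(1-ρ')) (ρ/ρ')^n uniformly (Mml_eq_SS, abs_ev_le, wt_le). For n ≤ D write Mml_n on A ⊆ Fin D, card A = n (Mml_const_card).
(c) Mml_eq_SS at depth R = (R-1)+1, root shape [t_1..t_κ], ev_expand' with o = spins of the labels (X = L → Bool), indicator of τ q = Π_m ind σ (τ · m) (i m) q,
ev_prodK: need avg_i |Π_k phi(Π_m f_m) t_k - Π_k Π_m phi(f_m) t_k| ≤ Σ_k Σ_m δ(t_k) by telescoping over an enumeration of L, G = Π_{m' < m} f_m'
(average over i m first); weights: gam 0 a κ ≤ 1, PP-sum of Σ_k Φ(t_k) ≤ C(D) max_B SS B Φ; shape_decouple.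
-/

set_option autoImplicit false

namespace Crest.Agent.H9.MP

open Finset
open scoped BigOperators

theorem expect_update {A B : Type} [Fintype A] [DecidableEq A] [Fintype B] [Nonempty B] (a : A)
    (f : (A → B) → ℝ) : 𝔼 x : A → B, f x = 𝔼 x : A → B, 𝔼 b : B, f (Function.update x a b) := by
  have h1 : ∀ g : (A → B) → ℝ, 𝔼 x : A → B, g x =
      𝔼 y : {j // j ≠ a} → B, 𝔼 b : B, g ((Equiv.funSplitAt a B).symm (b, y)) := by
    intro g
    rw [Fintype.expect_equiv (Equiv.funSplitAt a B) g (fun y => g ((Equiv.funSplitAt a B).symm y))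
      (fun x => by rw [Equiv.symm_apply_apply]), ← univ_product_univ, expect_product, expect_comm]
  rw [h1, h1 fun x => 𝔼 b : B, f (Function.update x a b)]
  refine expect_congr rfl fun y _ => ?_
  have : ∀ b' b : B, Function.update ((Equiv.funSplitAt a B).symm (b', y)) a b =
      (Equiv.funSplitAt a B).symm (b, y) := by
    intro b' b; funext j
    by_cases h : j = a
    · subst h; simp [Equiv.funSplitAt, Equiv.piSplitAt]
    · simp [Equiv.funSplitAt, Equiv.piSplitAt, h]
  simp only [this, expect_const univ_nonempty]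

section
variable {ι : Type} [DecidableEq ι] {e : ℕ → ℝ}

theorem abs_SS_le {R : ℕ} (he : Exps e R) {j : ℕ} (hj : j ≤ R) (A : Finset ι) {Φ Ψ : Sh ι j → ℝ}
    (h : ∀ t, WF j t → lv j t = A → |Φ t| ≤ Ψ t) : |SS e j A Φ| ≤ SS e j A Ψ := by
  refine abs_le.2 ⟨?_, SS_mono he hj A fun t ht hl => (le_abs_self _).trans (h t ht hl)⟩
  have := SS_mono he hj A (Φ := fun t => -1 * Ψ t) (Ψ := Φ) fun t ht hl => by
    have := (abs_le.1 (h t ht hl)).1; linarith
  rw [SS_const_mul] at this; linarith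

theorem SS_sub (j : ℕ) (A : Finset ι) (Φ Ψ : Sh ι j → ℝ) :
    SS e j A (fun t => Φ t - Ψ t) = SS e j A Φ - SS e j A Ψ := by
  have := SS_add (e := e) j A Φ (fun t => -1 * Ψ t)
  rw [SS_const_mul] at this
  simp only [sub_eq_add_neg]; simpa using this

theorem SS_expect {α : Type} [Fintype α] (j : ℕ) (A : Finset ι) (Φ : α → Sh ι j → ℝ) :
    SS e j A (fun t => 𝔼 a, Φ a t) = 𝔼 a, SS e j A (Φ a) := by
  simp only [expect_eq_sum_div_card, div_eq_inv_mul]
  rw [SS_const_mul, SS_sum]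

end

theorem Y_trunc {ρ ε : ℝ} (h0 : 0 ≤ ρ) (hρ : ρ < 1) (hε : 0 < ε) : ∃ D : ℕ, ∀ (S : Type) [Fintype S]
    (K : Ker S) (e : ℕ → ℝ) (R : ℕ), IsKer K → Exps e R → ∀ U : List S → ℝ, (∀ l, |U l| ≤ ρ) →
    |Y e K R [] U - ∑ n ∈ range D, Mml (ι := Fin n) e K R [] (fun _ => U) univ / n.factorial| ≤
      ε := by
  set ρ' := (1 + ρ) / 2 with hρ'
  have h1 : 0 < ρ' := by positivity
  have h2 : ρ' < 1 := by linarith
  have hr0 : 0 ≤ ρ / ρ' := by positivity
  have hr : ρ / ρ' < 1 := by rw [div_lt_one h1]; linarith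
  set b := -Real.log (1 - ρ')
  have hs : Summable fun n : ℕ => b * (ρ / ρ') ^ n :=
    (summable_geometric_of_lt_one hr0 hr).mul_left b
  obtain ⟨D, hD⟩ := ((tendsto_sum_nat_add fun n : ℕ => b * (ρ / ρ') ^ n).eventually
    (gt_mem_nhds hε)).exists
  refine ⟨D, fun S _ K e R hK he U hU => ?_⟩
  have hY := hasSum_Y hK he le_rfl [] hρ hU
  rw [← hY.tsum_eq, ← hY.summable.sum_add_tsum_nat_add D, add_sub_cancel_left]
  rw [← Real.norm_eq_abs]
  refine le_trans (tsum_of_norm_bounded ((summable_nat_add_iff D).2 hs).hasSum fun n => ?_) hD.le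
  generalize n + D = n
  rw [Real.norm_eq_abs, abs_div, Nat.abs_cast, Mml_eq_SS]
  have a1 := abs_SS_le he le_rfl (univ : Finset (Fin n)) (Φ := fun t => ev K (fun _ => U) R t [])
    (Ψ := fun _ => ρ ^ n * 1) fun t ht hl => by
      have := abs_ev_le hK (F := fun (_ : Fin n) => U) h0 (fun _ => hU) R t ht []
      simpa [hl] using this
  rw [SS_const_mul, SS_one, card_univ, Fintype.card_fin] at a1
  have a2 := wt_le he le_rfl n h1.le h2
  calc _ ≤ ρ ^ n * wt e R n / n.factorial := div_le_div_of_nonneg_right a1 (by positivity)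
    _ = wt e R n / n.factorial * ρ' ^ n * (ρ / ρ') ^ n := by
        clear_value ρ'; rw [div_pow]; field_simp
    _ ≤ _ := mul_le_mul_of_nonneg_right a2 (by positivity)

section
variable {S : Type} [Fintype S] {K : Ker S} {P : List S → S → S → ℝ}

theorem T_rootK {e : ℕ → ℝ} (s0 : S) (j : ℕ) (s : S) (W : List S → ℝ) :
    T e (rootK K P s0) j [s] W = T e K j [s] W :=
  T_congr_ker j [s] W fun l _ => by
    funext s'
    cases l <;> rfl

theorem ev_rootK {ι : Type} (s0 : S) (F : ι → List S → ℝ) : ∀ (j : ℕ) (t : Sh ι j) (s : S)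
    (h : List S), ev (rootK K P s0) F j t (s :: h) = ev K F j t (s :: h)
  | 0, _, _, _ => rfl
  | j + 1, t, s, h => by
    simp only [ev, ev_rootK s0 F j]
    rfl

theorem ev_rootK_top {ι : Type} (s0 : S) (F : ι → List S → ℝ) (j : ℕ) (t : Sh ι (j + 1)) :
    ev (rootK K P s0) F (j + 1) t [] = ((kids t).map fun t' => phi K P F j t' [] s0).prod := by
  simp only [ev, ev_rootK, phi]
  rfl

theorem top_step (hK : IsKer K) (hP : IsCond K P) {e : ℕ → ℝ} {r : ℕ} (he : ∀ i < r + 1, 0 < e i)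
    {W : List S → ℝ} {B : ℝ} (hW : ∀ l, Real.exp (-B) ≤ W l ∧ W l ≤ Real.exp B)
    (ha : e r * (2 * B) ≤ 1) :
    |Real.log (T e K (r + 1) [] W) -
      ∑ s0, K [] s0 * Real.log (T e (rootK K P s0) (r + 1) [] W)| ≤ e r * (2 * B) ^ 2 := by
  set a := e r
  have ha0 : 0 < a := he r (Nat.lt_succ_self r)
  have hW0 : ∀ l, 0 < W l := fun l => (Real.exp_pos _).trans_le (hW l).1
  set X : S → ℝ := fun s0 => Real.log (T e (rootK K P s0) (r + 1) [] W) with hX
  have hXb : ∀ s0, |X s0| ≤ B := fun s0 => by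
    obtain ⟨b1, b2⟩ := T_mem (hK.rootK hP s0) (r + 1) he [] (Real.exp_pos _).le hW
    have b0 := T_pos (hK.rootK hP s0) (r + 1) he [] hW0
    exact abs_le.2 ⟨(Real.le_log_iff_exp_le b0).2 b1, (Real.log_le_iff_le_exp b0).2 b2⟩
  have hpow : ∀ (K' : Ker S), IsKer K' → Real.exp (a * Real.log (T e K' (r + 1) [] W)) =
      ∑ s, K' [] s * T e K' r [s] W ^ a := by
    intro K' hK'
    rw [mul_comm, ← Real.rpow_def_of_pos (T_pos hK' _ he [] hW0)]
    simp only [T]
    rw [← Real.rpow_mul (sum_nonneg fun s _ => mul_nonneg (hK'.1 _ _) (Real.rpow_nonneg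
      (T_nonneg hK' _ _ fun l => (hW0 l).le) _)), one_div_mul_cancel ha0.ne', Real.rpow_one]
  have hsum : Real.exp (a * Real.log (T e K (r + 1) [] W)) = ∑ s0, K [] s0 * Real.exp (a * X s0) := by
    rw [hpow K hK, ← hP.sum_eq]
    refine sum_congr rfl fun s0 _ => ?_
    rw [hX]; simp only
    rw [hpow _ (hK.rootK hP s0)]
    simp only [T_rootK]; rfl
  set m := ∑ s0, K [] s0 * X s0 with hm
  have hmb : |m| ≤ B := abs_wsum_le_of (hK.1 []) (hK.2 []) hXb
  have hd : ∀ s0, |X s0 - m| ≤ 2 * B := fun s0 => by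
    have := hXb s0; exact (abs_sub _ _).trans (by linarith)
  have hz : ∑ s0, K [] s0 * (1 + a * (X s0 - m)) = 1 := by
    simp only [mul_add, mul_one, sum_add_distrib, hK.2, mul_left_comm _ a, ← mul_sum, mul_sub,
      sum_sub_distrib, ← sum_mul, ← hm]
    ring
  have hsum' : Real.exp (a * (Real.log (T e K (r + 1) [] W) - m)) =
      ∑ s0, K [] s0 * Real.exp (a * (X s0 - m)) := by
    simp only [mul_sub a, Real.exp_sub, hsum, sum_div, mul_div_assoc]
  generalize Real.log (T e K (r + 1) [] W) - m = y at hsum' ⊢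
  have hlo : 1 ≤ Real.exp (a * y) := by
    rw [hsum', ← hz]
    exact sum_le_sum fun s0 _ => mul_le_mul_of_nonneg_left
      (by rw [add_comm]; exact Real.add_one_le_exp _) (hK.1 _ _)
  have hhi : Real.exp (a * y) ≤ 1 + (a * (2 * B)) ^ 2 := by
    rw [hsum']
    calc _ ≤ ∑ s0, K [] s0 * ((1 + a * (X s0 - m)) + (a * (2 * B)) ^ 2) := by
          refine sum_le_sum fun s0 _ => mul_le_mul_of_nonneg_left ?_ (hK.1 _ _)
          have b1 : |a * (X s0 - m)| ≤ a * (2 * B) := by
            rw [abs_mul, abs_of_pos ha0]; exact mul_le_mul_of_nonneg_left (hd s0) ha0.le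
          have b2 := (abs_le.1 (Real.abs_exp_sub_one_sub_id_le (b1.trans ha))).2
          have b3 : (a * (X s0 - m)) ^ 2 ≤ (a * (2 * B)) ^ 2 := by
            rw [← sq_abs]; exact pow_le_pow_left₀ (abs_nonneg _) b1 2
          linarith
      _ = _ := by simp only [mul_add (K [] _) (1 + _), sum_add_distrib, hz, ← sum_mul, hK.2, one_mul]
  have c1 : 0 ≤ y := by
    have := Real.one_le_exp_iff.1 hlo
    exact nonneg_of_mul_nonneg_right this ha0 |> fun h => by
      by_contra hc; exact absurd this (not_le.2 (mul_neg_of_pos_of_neg ha0 (not_le.1 hc)))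
  have c2 : a * y ≤ (a * (2 * B)) ^ 2 := by
    have := Real.add_one_le_exp (a * y); linarith
  rw [abs_of_nonneg c1]
  refine le_of_mul_le_mul_left (c2.trans (le_of_eq (by ring))) ha0

theorem label_telescope (hK : IsKer K) (hP : IsCond K P) {e : ℕ → ℝ} {R r : ℕ} (he : Exps e R)
    (hr : r ≤ R) {ι I L : Type} [Fintype ι] [DecidableEq ι] [Fintype I] [Nonempty I] [Fintype L]
    [DecidableEq L] (σ : I → List S → Bool) {ε : ℝ}
    (H : ∀ (x : ι → Bool) (G : ι → List S → ℝ), (∀ q l, |G q l| ≤ 1) → ∀ A : Finset ι,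
      SS e r A (fun t => ∑ s0, K [] s0 * 𝔼 i : I,
        |phi K P (fun q l => G q l * ind σ x i q l) r t [] s0 -
          phi K P G r t [] s0 * phi K P (ind σ x i) r t [] s0|) ≤ ε)
    (x : L → ι → Bool) (A : Finset ι) (B : Finset L) :
    SS e r A (fun t => ∑ s0, K [] s0 * 𝔼 i : L → I,
      |phi K P (fun q l => ∏ m ∈ B, ind σ (x m) (i m) q l) r t [] s0 -
        ∏ m ∈ B, phi K P (ind σ (x m) (i m)) r t [] s0|) ≤ B.card * ε := by
  induction B using Finset.induction_on with
  | empty =>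
    simp only [prod_empty, phi, ev_one hK, mul_one, hP.2.1, sub_self, abs_zero, expect_const_zero,
      mul_zero, sum_const_zero, SS_zero, card_empty, Nat.cast_zero, zero_mul, le_refl]
  | insert m B hm ih =>
    have hG : ∀ (i : L → I) q l, |∏ m ∈ B, ind σ (x m) (i m) q l| ≤ 1 := fun i q l => by
      rw [abs_prod]; exact prod_le_one (fun _ _ => abs_nonneg _) fun _ _ => abs_ind_le _ _ _ _ _
    have key : SS e r A (fun t => ∑ s0, K [] s0 * 𝔼 i : L → I,
        |phi K P (fun q l => (∏ m ∈ B, ind σ (x m) (i m) q l) * ind σ (x m) (i m) q l) r t [] s0 -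
          phi K P (fun q l => ∏ m ∈ B, ind σ (x m) (i m) q l) r t [] s0 *
            phi K P (ind σ (x m) (i m)) r t [] s0|) ≤ ε := by
      have e1 : ∀ (i : L → I) (v : I), (fun q l => ∏ m' ∈ B,
          ind σ (x m') (Function.update i m v m') q l) =
          fun q l => ∏ m' ∈ B, ind σ (x m') (i m') q l := by
        intro i v; funext q l
        exact prod_congr rfl fun m' hm' => by
          rw [Function.update_of_ne (ne_of_mem_of_not_mem hm' hm)]
      simp only [expect_update m (fun i : L → I => |phi K P (fun q l =>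
        (∏ m ∈ B, ind σ (x m) (i m) q l) * ind σ (x m) (i m) q l) r _ [] _ - _|)]
      simp only [funext_iff] at e1
      simp only [e1, Function.update_self]
      simp only [mul_expect (s := (univ : Finset (L → I))), ← expect_sum_comm]
      rw [SS_expect]
      exact expect_le univ_nonempty fun i _ => H (x m) _ (hG i) A
    rw [card_insert_of_notMem hm, Nat.cast_succ, add_mul, one_mul]
    refine le_trans ?_ (add_le_add ih key)
    rw [← SS_add]
    refine SS_mono he hr A fun t _ _ => ?_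
    rw [← sum_add_distrib]
    refine sum_le_sum fun s0 _ => ?_
    rw [← mul_add, ← expect_add_distrib]
    refine mul_le_mul_of_nonneg_left (expect_le_expect fun i _ => ?_) (hK.1 _ _)
    simp only [prod_insert hm, mul_comm (ind σ (x m) (i m) _ _)]
    rw [add_comm]
    refine (abs_sub_le _ _ _).trans (add_le_add le_rfl ?_)
    rw [mul_comm (phi K P (ind σ (x m) (i m)) r t [] s0), ← sub_mul, abs_mul]
    exact mul_le_of_le_one_right (abs_nonneg _) (abs_phi_le_one hK hP (abs_ind_le _ _ _) _ _ _ _)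

theorem list_prod_finset_comm {α L : Type} [Fintype L] (f : α → L → ℝ) : ∀ l : List α,
    ∏ m, (l.map fun a => f a m).prod = (l.map fun a => ∏ m, f a m).prod
  | [] => by simp
  | a :: l => by simp only [List.map_cons, List.prod_cons, prod_mul_distrib, list_prod_finset_comm f l]

theorem ev_diff_le (hK : IsKer K) (hP : IsCond K P) {ι I L : Type} [Fintype ι] [DecidableEq ι]
    [Fintype L] [DecidableEq L] (σ : I → List S → Bool) (i : L → I) {U : (L → Bool) → ℝ}
    (hU : ∀ s, |U s| ≤ 1) (r : ℕ) (t : Sh ι (r + 1)) (ht : WF (r + 1) t) (s0 : S) :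
    |ev (rootK K P s0) (fun _ l => U fun m => σ (i m) l) (r + 1) t [] -
      ev (prodK L (rootK K P s0)) (fun _ H => U fun m => σ (i m) (H.map fun u => u m))
        (r + 1) t []| ≤
      ∑ τ : ι → L → Bool, ((kids t).map fun t' =>
        |phi K P (fun q l => ∏ m, ind σ (fun q => τ q m) (i m) q l) r t' [] s0 -
          ∏ m, phi K P (ind σ (fun q => τ q m) (i m)) r t' [] s0|).sum := by
  rw [ev_expand' (fun l m => σ (i m) l) (fun _ => U) _ t ht,
    ev_expand' (fun (H : List (L → S)) m => σ (i m) (H.map fun u => u m)) (fun _ => U) _ t ht,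
    ← sum_sub_distrib]
  refine (abs_sum_le_sum_abs _ _).trans (sum_le_sum fun τ _ => ?_)
  have hind : ∀ (y z : L → Bool), (if y = z then (1 : ℝ) else 0) =
      ∏ m, if y m = z m then 1 else 0 := by
    intro y z
    rw [Finset.prod_ite_zero]; simp [funext_iff]
  rw [← mul_sub, abs_mul]
  refine (mul_le_of_le_one_left (abs_nonneg _) ?_).trans ?_
  · rw [abs_div, abs_prod]
    refine div_le_one_of_le₀ ((prod_le_one (fun _ _ => abs_nonneg _) fun _ _ => hU _).trans ?_)
      (abs_nonneg _)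
    rw [abs_of_nonneg (by positivity)]
    exact one_le_pow₀ (by exact_mod_cast Fintype.card_pos)
  · simp only [hind]
    have := ev_prodK (K := rootK K P s0) (fun m => ind σ (fun q => τ q m) (i m)) (r + 1) t []
    simp only [ind] at this
    rw [this]
    simp only [List.map_nil, ev_rootK_top]
    rw [list_prod_finset_comm]
    refine abs_list_prod_sub_le _ _ (fun t' => abs_phi_le_one hK hP (fun q l => ?_) _ _ _ _)
      (fun t' => ?_) _
    · rw [abs_prod]
      exact prod_le_one (fun _ _ => abs_nonneg _) fun _ _ => by split_ifs <;> simp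
    · rw [abs_prod]
      exact prod_le_one (fun _ _ => abs_nonneg _) fun _ _ =>
        abs_phi_le_one hK hP (abs_ind_le _ _ _) _ _ _ _

theorem Mml_diff_le (hK : IsKer K) (hP : IsCond K P) {e : ℕ → ℝ} {r : ℕ} (he : Exps e (r + 1))
    {ι I L : Type} [Fintype ι] [DecidableEq ι] [Fintype I] [Nonempty I] [Fintype L]
    [DecidableEq L] (σ : I → List S → Bool) {ε M : ℝ} (h1 : 1 ≤ M)
    (hM : NS (ι := ι) e r (fun _ => 1) ≤ M)
    (H : ∀ (x : ι → Bool) (G : ι → List S → ℝ), (∀ q l, |G q l| ≤ 1) → ∀ A : Finset ι,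
      SS e r A (fun t => ∑ s0, K [] s0 * 𝔼 i : I,
        |phi K P (fun q l => G q l * ind σ x i q l) r t [] s0 -
          phi K P G r t [] s0 * phi K P (ind σ x i) r t [] s0|) ≤ ε)
    {U : (L → Bool) → ℝ} (hU : ∀ s, |U s| ≤ 1) (A : Finset ι) :
    ∑ s0, K [] s0 * 𝔼 i : L → I,
      |Mml e (rootK K P s0) (r + 1) [] (fun _ l => U fun m => σ (i m) l) A -
        Mml e (prodK L (rootK K P s0)) (r + 1) []
          (fun _ H => U fun m => σ (i m) (H.map fun u => u m)) A| ≤
      (1 + 2 ^ Fintype.card ι * (Fintype.card ι + 1) ^ 2 * M ^ Fintype.card ι) *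
        (2 ^ Fintype.card ι * (Fintype.card (ι → L → Bool) * (Fintype.card L * ε))) := by
  set f : Sh ι r → ℝ := fun t' => ∑ τ : ι → L → Bool, ∑ s0, K [] s0 * 𝔼 i : L → I,
    |phi K P (fun q l => ∏ m, ind σ (fun q => τ q m) (i m) q l) r t' [] s0 -
      ∏ m, phi K P (ind σ (fun q => τ q m) (i m)) r t' [] s0| with hf
  have hf0 : ∀ t, 0 ≤ f t := fun t => sum_nonneg fun _ _ => sum_nonneg fun _ _ =>
    mul_nonneg (hK.1 _ _) (expect_nonneg fun _ _ => abs_nonneg _)
  have hN : NS e r f ≤ 2 ^ Fintype.card ι * (Fintype.card (ι → L → Bool) * (Fintype.card L * ε)) := by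
    unfold NS
    refine (sum_le_card_nsmul _ _ (Fintype.card (ι → L → Bool) * (Fintype.card L * ε))
      fun B _ => ?_).trans (by simp)
    rw [hf, SS_sum]
    refine (sum_le_card_nsmul _ _ (Fintype.card L * ε) fun τ _ => ?_).trans (by simp)
    exact label_telescope hK hP he (Nat.le_succ r) σ H (fun m q => τ q m) B univ
  have hs := NS_split he le_rfl h1 hM (γ := 1) (by
      rw [he.top, sub_zero]; exact he.le_one r (Nat.le_succ r))
    (Ψ := fun t => ((kids t).map f).sum) (u := f) (f := f) le_rfl hf0 (fun t _ => hf0 t)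
    (fun t _ => by simp) (fun t _ => by simp)
  have hΨ0 : ∀ t : Sh ι (r + 1), 0 ≤ ((kids t).map f).sum := fun t =>
    List.sum_nonneg fun y hy => by obtain ⟨z, _, rfl⟩ := List.mem_map.1 hy; exact hf0 z
  refine le_trans ?_ (((SS_le_NS he le_rfl A fun t _ => hΨ0 t).trans hs).trans ?_)
  · simp only [Mml_eq_SS, ← SS_sub]
    refine (sum_le_sum fun s0 _ => mul_le_mul_of_nonneg_left (expect_le_expect fun i _ =>
      abs_SS_le he le_rfl A fun t ht _ => ev_diff_le hK hP σ i hU r t ht s0) (hK.1 _ _)).trans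
      (le_of_eq ?_)
    simp only [← SS_expect, ← SS_const_mul]
    rw [← SS_sum]
    congr 1; funext t
    simp only [hf, expect_sum_comm, expect_list_sum, mul_sum]
    rw [sum_comm]
    simp only [list_sum_comm]
    have := list_sum_comm (fun _ : ι → L → Bool => (1 : ℝ)) (fun t' τ => ∑ s0, K [] s0 *
      𝔼 i : L → I, |phi K P (fun q l => ∏ m, ind σ (fun q => τ q m) (i m) q l) r t' [] s0 -
        ∏ m, phi K P (ind σ (fun q => τ q m) (i m)) r t' [] s0|) (kids t)
    simpa only [one_mul] using this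
  · rw [one_mul, zero_add, ← one_add_mul]
    exact mul_le_mul_of_nonneg_left hN (by positivity)

theorem log_T_eq_Y {e : ℕ → ℝ} {R : ℕ} (hK : IsKer K) (he : Exps e R) {W : List S → ℝ} {c : ℝ}
    (hc : 0 < c) (hW : ∀ l, 0 < W l) :
    Real.log (T e K R [] W) = Real.log c - Y e K R [] fun l => 1 - W l / c := by
  rw [Y_root hK he [] (fun l => by have := div_pos (hW l) hc; linarith)]
  have h0 : ∀ l, 0 < W l / c := fun l => div_pos (hW l) hc
  simp only [sub_sub_cancel, sub_neg_eq_add]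
  rw [← Real.log_mul hc.ne' (T_pos hK R he.pos' [] h0).ne',
    ← T_const_mul hK R he.pos' [] (fun l => (h0 l).le) hc.le]
  simp only [mul_div_cancel₀ _ hc.ne']

end

theorem decouple (n0 : ℕ) (Kb ε : ℝ) (hε : 0 < ε) :
    ∃ D R0 : ℕ, ∀ R, R0 ≤ R → 0 < R → ∃ η > 0, ∀ (S I : Type) [Fintype S] [Fintype I] [Nonempty I]
      (K : Ker S) (P : List S → S → S → ℝ) (σ : I → List S → Bool), IsKer K → IsCond K P →
      Cerr D R K P σ ≤ η → ∀ (L : Type) [Fintype L] [DecidableEq L], Fintype.card L ≤ n0 →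
      ∀ W : (L → Bool) → ℝ, (∀ s, Real.exp (-Kb) ≤ W s ∧ W s ≤ Real.exp Kb) →
        |Gtrue (eU R) R K σ W - ∑ s0, K [] s0 * Gprod (eU R) R (rootK K P s0) σ W| ≤ ε := by
  set ρ := 1 - Real.exp (-2 * |Kb|) with hρ
  have hρ0 : 0 ≤ ρ := sub_nonneg.2 (Real.exp_le_one_iff.2 (by have := abs_nonneg Kb; linarith))
  have hρ1 : ρ < 1 := by have := Real.exp_pos (-2 * |Kb|); linarith
  obtain ⟨D, hD⟩ := Y_trunc hρ0 hρ1 (show 0 < ε / 4 by positivity)
  obtain ⟨M, h1, hM⟩ := exists_NS_one_le (ι := Fin D)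
  obtain ⟨C, hC⟩ : ∃ C : ℝ, C = (1 + 2 ^ Fintype.card (Fin D) * (Fintype.card (Fin D) + 1) ^ 2 *
    M ^ Fintype.card (Fin D)) := ⟨_, rfl⟩
  have hC0 : 0 < C := by rw [hC]; positivity
  set ε' := ε / 4 / ((D + 1) * (C * (2 ^ Fintype.card (Fin D) * ((2 ^ n0) ^ D * (n0 + 1)))))
    with hε'
  have hε0 : 0 < ε' := by positivity
  obtain ⟨R1, hR1⟩ := shape_decouple D ε' hε0
  obtain ⟨R2, hR2⟩ := exists_nat_ge (max (2 * |Kb|) ((2 * |Kb|) ^ 2 / (ε / 4)))
  refine ⟨D, max R1 R2, fun R hR0 hR => ?_⟩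
  obtain ⟨η, hη, H⟩ := hR1 R (le_of_max_le_left hR0) hR
  refine ⟨η, hη, fun S I _ _ _ K P σ hK hP hc L _ _ hL W hW => ?_⟩
  obtain ⟨r, rfl⟩ : ∃ r, R = r + 1 := ⟨R - 1, by omega⟩
  have he := exps_eU hR
  have hKb : 0 ≤ Kb := by
    have := Real.exp_le_exp.1 ((hW fun _ => true).1.trans (hW fun _ => true).2); linarith
  rw [abs_of_nonneg hKb] at hρ hR2
  have hW0 : ∀ s, 0 < W s := fun s => (Real.exp_pos _).trans_le (hW s).1
  have hR' : (0 : ℝ) < ((r + 1 : ℕ) : ℝ) := by exact_mod_cast hR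
  have hR2' : (R2 : ℝ) ≤ ((r + 1 : ℕ) : ℝ) := by exact_mod_cast le_of_max_le_right hR0
  have her : eU (r + 1) r = 1 / ((r + 1 : ℕ) : ℝ) := by unfold eU; push_cast; congr 1; ring
  have a1 : |Gtrue (eU (r + 1)) (r + 1) K σ W -
      ∑ s0, K [] s0 * Gtrue (eU (r + 1)) (r + 1) (rootK K P s0) σ W| ≤ ε / 4 := by
    unfold Gtrue
    simp only [mul_expect, ← expect_sum_comm]
    refine abs_expect_sub_le fun i => (top_step hK hP he.pos' (B := Kb) (fun l => hW _) ?_).trans ?_
    · rw [her, one_div_mul_eq_div, div_le_one hR']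
      exact ((le_max_left _ _).trans hR2).trans hR2'
    · rw [her, one_div_mul_eq_div, div_le_iff₀ hR', ← div_le_iff₀' (by positivity)]
      exact ((le_max_right _ _).trans hR2).trans hR2'
  set U : (L → Bool) → ℝ := fun s => 1 - W s / Real.exp Kb with hU
  have hUρ : ∀ s, |U s| ≤ ρ := fun s => by
    have b1 : W s / Real.exp Kb ≤ 1 := (div_le_one (Real.exp_pos _)).2 (hW s).2
    have b2 : Real.exp (-2 * Kb) ≤ W s / Real.exp Kb := by
      rw [le_div_iff₀ (Real.exp_pos _), ← Real.exp_add]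
      exact le_of_eq_of_le (by congr 1; ring) (hW s).1
    rw [abs_of_nonneg (by simp only [hU]; linarith)]
    simp only [hU, hρ]; linarith
  have hMml : ∀ n ∈ range D, ∑ s0, K [] s0 * 𝔼 i : L → I,
      |Mml (ι := Fin n) (eU (r + 1)) (rootK K P s0) (r + 1) []
          (fun _ l => U fun m => σ (i m) l) univ / n.factorial -
        Mml (ι := Fin n) (eU (r + 1)) (prodK L (rootK K P s0)) (r + 1) []
          (fun _ H => U fun m => σ (i m) (H.map fun u => u m)) univ / n.factorial| ≤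
      ε / 4 / (D + 1) := by
    intro n hn
    obtain ⟨A, -, rfl⟩ := exists_subset_card_eq (s := (univ : Finset (Fin D))) (n := n)
      (by simpa using (mem_range.1 hn).le)
    have b1 := Mml_diff_le hK hP he σ h1 (hM _ _ he r (Nat.le_succ r))
      (H S I K P σ hK hP hc) (fun s => (hUρ s).trans hρ1.le) A
    rw [← hC] at b1
    refine le_trans (sum_le_sum fun s0 _ => mul_le_mul_of_nonneg_left
      (expect_le_expect fun i _ => ?_) (hK.1 _ _)) (b1.trans ?_)
    · rw [← sub_div, abs_div, Nat.abs_cast, Mml_const_card _ _ _ A, Mml_const_card _ _ _ A]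
      exact div_le_self (abs_nonneg _)
        (by exact_mod_cast Nat.one_le_iff_ne_zero.2 (Nat.factorial_ne_zero _))
    · have c1 : (Fintype.card (Fin D → L → Bool) : ℝ) ≤ (2 ^ n0) ^ D := by
        simp only [Fintype.card_fun, Fintype.card_bool, Fintype.card_fin]
        push_cast
        exact pow_le_pow_left₀ (by positivity) (pow_le_pow_right₀ one_le_two hL) _
      have c2 : (Fintype.card L : ℝ) ≤ n0 + 1 := by exact_mod_cast hL.trans (Nat.le_succ _)
      calc _ ≤ C * (2 ^ Fintype.card (Fin D) * ((2 ^ n0) ^ D * ((n0 + 1) * ε'))) := by gcongr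
        _ = _ := by rw [hε']; field_simp
  have a2 : ∑ s0, K [] s0 * |Gtrue (eU (r + 1)) (r + 1) (rootK K P s0) σ W -
      Gprod (eU (r + 1)) (r + 1) (rootK K P s0) σ W| ≤ ε / 2 + ε / 4 := by
    have b1 := sum_le_sum hMml
    rw [sum_comm, sum_const, card_range, nsmul_eq_mul] at b1
    have b2 : (D : ℝ) * (ε / 4 / (D + 1)) ≤ ε / 4 := by
      rw [mul_div_assoc', div_le_iff₀ (by positivity)]; nlinarith
    refine le_trans ?_ (add_le_add le_rfl (b1.trans b2))
    rw [← mul_one (ε / 2), ← hK.2 [], mul_sum, ← sum_add_distrib]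
    refine sum_le_sum fun s0 _ => ?_
    rw [← mul_sum, mul_comm (ε / 2), ← mul_add]
    refine mul_le_mul_of_nonneg_left ?_ (hK.1 _ _)
    have hK' := hK.rootK hP s0
    unfold Gtrue Gprod
    rw [← expect_sub_distrib, ← expect_sum_comm, ← expect_const (univ_nonempty (α := L → I)) (ε / 2),
      ← expect_add_distrib]
    refine (abs_expect_le _ _).trans (expect_le_expect fun i _ => ?_)
    rw [log_T_eq_Y hK' he (Real.exp_pos Kb) (fun _ => hW0 _),
      log_T_eq_Y (hK'.prodK L) he (Real.exp_pos Kb) (fun _ => hW0 _)]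
    have c1 := hD _ _ _ _ hK' he (fun l => U fun m => σ (i m) l) fun _ => hUρ _
    have c2 := hD _ _ _ _ (hK'.prodK L) he
      (fun H => U fun m => σ (i m) (H.map fun u => u m)) fun _ => hUρ _
    refine le_trans ?_ (add_le_add le_rfl (abs_sum_le_sum_abs _ _))
    rw [sum_sub_distrib]
    simp only [hU] at c1 c2 ⊢
    rw [abs_le] at c1 c2
    rw [abs_le]
    constructor
    · linarith [le_abs_self (∑ n ∈ range D, Mml (ι := Fin n) (eU (r + 1)) (rootK K P s0) (r + 1) []
          (fun _ l => 1 - (W fun m => σ (i m) l) / Real.exp Kb) univ / n.factorial -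
        ∑ n ∈ range D, Mml (ι := Fin n) (eU (r + 1)) (prodK L (rootK K P s0)) (r + 1) []
          (fun _ H => 1 - (W fun m => σ (i m) (H.map fun u => u m)) / Real.exp Kb) univ /
            n.factorial), c1.1, c1.2, c2.1, c2.2]
    · linarith [neg_abs_le (∑ n ∈ range D, Mml (ι := Fin n) (eU (r + 1)) (rootK K P s0) (r + 1) []
          (fun _ l => 1 - (W fun m => σ (i m) l) / Real.exp Kb) univ / n.factorial -
        ∑ n ∈ range D, Mml (ι := Fin n) (eU (r + 1)) (prodK L (rootK K P s0)) (r + 1) []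
          (fun _ H => 1 - (W fun m => σ (i m) (H.map fun u => u m)) / Real.exp Kb) univ /
            n.factorial), c1.1, c1.2, c2.1, c2.2]
  have a3 : |∑ s0, K [] s0 * Gtrue (eU (r + 1)) (r + 1) (rootK K P s0) σ W -
      ∑ s0, K [] s0 * Gprod (eU (r + 1)) (r + 1) (rootK K P s0) σ W| ≤ ε / 2 + ε / 4 := by
    simp only [← sum_sub_distrib, ← mul_sub]
    exact (abs_wsum_le (hK.1 []) _).trans a2
  exact (abs_sub_le _ _ _).trans (by linarith)

end Crest.Agent.H9.MP
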