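import Crest.Agent.H9.MP.T2ax

/-! MP-T2a: mixed coefficients control covariances. -/

/-
Sketch. ω = 2^(-D), f_i = ind σ x i. PSD trick: for a PSD form M(i,i') = Cov(y_i, y_i') and |g| ≤ 1, with signs s_i,
(avg_i |Cov(g,y_i)|)^2 = Cov(g, avg s_i y_i)^2 ≤ Var(avg s_i y_i) = avg_{i,i'} s_i s_i' Cov(y_i,y_i'). Then nodeE-Jensen (pathE_sq_le).
leaf_cov: the term j = 0, j0 = 0, A = {q} of Cerr: cdef = -Cov_P(f_i q, f_i' q) (gam 0 1 2 = 1/2).
unary_cov: A = lv t. Choose π j' = leaf sets of the depth-j' subshapes of t for j' < j, π j = π (j+1) = {A}; j0 = j+2 at the node ν = (h,s0)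
 (children of depth j+1) and j0 = j+1 at the next node ν' (children of depth j; there the filters j0 = j+1, j+2 agree since only levels ≤ j are read).
 (1) filter lemma: if for all j' < j ≤ j0 the nonempty members of π j' inside lv t are exactly the depth-j' blocks of t, then
   Yf (okF π j0) j h (sing F) (lv t) = c(t) * ev K F j t h, c(leaf) = 1, c[t_1..t_κ] = gam κ * κ! * Π (ω c(t_k)) ≥ c0(D,R) > 0
   (cpow of y supported on the blocks of a partition with κ blocks is κ! Π y(B_k) for κ' = κ, else 0; gam_pos since eU is strict; κ ≤ D).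
   Yf okF2 sing2 on B with B.toRight = ∅ is Yf okF (sing F) on B.toLeft (and symmetrically).
 (2) with a = e (j+1) > 0, a' = e j ≥ a, Q = K h' over s0', u(B) = Σ_s P h' s0' s Yf_j (s::h') B, u_L = u(A,∅), u_R = u(∅,A):
   c_ν' = ω²(u(AA) + a' u_L u_R), Yf_{j+1} h' (AA) = ω²(Q u(AA) + (a'-a) Q u_L Q u_R), Yf_{j+1} h' (A,∅) = ω Q u_L (IsCond: K h' = Q P), hence
   c_ν - ω² P Q c_ν' = -ω⁴ (a' P Cov_Q(u_L,u_R) + a Cov_P(Q u_L, Q u_R)); both are PSD, Cov_{PQ} = P Cov_Q + Cov_P Q, so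
   avg s_i s_i' Cov_{PQ}(u_i,u_i') ≤ (avg|c_ν| + step avg|c_ν'|)/(a ω⁴), and nodeE n (step F) = nodeE (n+1) F by IsCond.
-/

set_option autoImplicit false

namespace Crest.Agent.H9.MP

open Finset
open scoped BigOperators

section cov
variable {X I : Type} [Fintype X] [Fintype I]

/-- Covariance for finite weights. -/
def cov (w u v : X → ℝ) : ℝ := ∑ x, w x * (u x * v x) - (∑ x, w x * u x) * ∑ x, w x * v x

theorem cov_comm (w u v : X → ℝ) : cov w u v = cov w v u := by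
  unfold cov; rw [mul_comm (∑ x, w x * u x)]; simp only [mul_comm (u _)]

theorem cov_eq {w : X → ℝ} (u v : X → ℝ) :
    cov w u v = ∑ x, w x * (u x * (v x - ∑ y, w y * v y)) := by
  unfold cov
  rw [sum_mul, ← sum_sub_distrib]
  exact sum_congr rfl fun x _ => by ring

theorem cov_self_eq {w : X → ℝ} (h1 : ∑ x, w x = 1) (u : X → ℝ) :
    cov w u u = ∑ x, w x * (u x - ∑ y, w y * u y) ^ 2 := by
  have : ∀ m : ℝ, ∑ x, w x * (u x - m) ^ 2 = ∑ x, w x * (u x * u x) - 2 * m * ∑ x, w x * u x +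
      m ^ 2 * ∑ x, w x := by
    intro m
    rw [mul_sum, mul_sum, ← sum_sub_distrib, ← sum_add_distrib]
    exact sum_congr rfl fun x _ => by ring
  rw [this, h1, cov]; ring

theorem cov_self_nonneg {w : X → ℝ} (h0 : ∀ x, 0 ≤ w x) (h1 : ∑ x, w x = 1) (u : X → ℝ) :
    0 ≤ cov w u u := by
  rw [cov_self_eq h1]
  exact sum_nonneg fun x _ => mul_nonneg (h0 x) (sq_nonneg _)

theorem wsum_sq_le {w : X → ℝ} (h0 : ∀ x, 0 ≤ w x) (u v : X → ℝ) :
    (∑ x, w x * (u x * v x)) ^ 2 ≤ (∑ x, w x * u x ^ 2) * ∑ x, w x * v x ^ 2 := by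
  refine sum_sq_le_sum_mul_sum_of_sq_le_mul _ (fun x _ => mul_nonneg (h0 x) (sq_nonneg _))
    (fun x _ => mul_nonneg (h0 x) (sq_nonneg _)) fun x _ => le_of_eq (by ring)

theorem cov_sq_le {w : X → ℝ} (h0 : ∀ x, 0 ≤ w x) (h1 : ∑ x, w x = 1) {g : X → ℝ}
    (hg : ∀ x, |g x| ≤ 1) (u : X → ℝ) : cov w g u ^ 2 ≤ cov w u u := by
  rw [cov_eq, cov_self_eq h1]
  refine (wsum_sq_le h0 _ _).trans (mul_le_of_le_one_left
    (sum_nonneg fun x _ => mul_nonneg (h0 x) (sq_nonneg _)) ?_)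
  rw [← h1]
  refine sum_le_sum fun x _ => mul_le_of_le_one_right (h0 x) ?_
  rw [← sq_abs]; exact pow_le_one₀ (abs_nonneg _) (hg x)

theorem cov_avg_right (w g : X → ℝ) (s : I → ℝ) (u : I → X → ℝ) :
    cov w g (fun x => 𝔼 i, s i * u i x) = 𝔼 i, s i * cov w g (u i) := by
  unfold cov
  simp only [mul_sub, expect_sub_distrib, mul_expect, ← expect_sum_comm, mul_sum]
  congr 1 <;> refine expect_congr rfl fun i _ => sum_congr rfl fun x _ => by ring

theorem cov_avg_avg (w : X → ℝ) (s : I → ℝ) (u : I → X → ℝ) :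
    cov w (fun x => 𝔼 i, s i * u i x) (fun x => 𝔼 i, s i * u i x) =
      𝔼 i : I × I, s i.1 * s i.2 * cov w (u i.1) (u i.2) := by
  rw [cov_avg_right, ← univ_product_univ,
    expect_product' _ _ (fun a b => s a * s b * cov w (u a) (u b))]
  refine expect_congr rfl fun i _ => ?_
  rw [cov_comm, cov_avg_right, mul_expect]
  exact expect_congr rfl fun j _ => by ring

theorem avg_cov_nonneg {w : X → ℝ} (h0 : ∀ x, 0 ≤ w x) (h1 : ∑ x, w x = 1) (s : I → ℝ)
    (u : I → X → ℝ) : 0 ≤ 𝔼 i : I × I, s i.1 * s i.2 * cov w (u i.1) (u i.2) := by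
  rw [← cov_avg_avg]; exact cov_self_nonneg h0 h1 _

theorem avg_abs_cov_sq_le {w : X → ℝ} (h0 : ∀ x, 0 ≤ w x) (h1 : ∑ x, w x = 1) {g : X → ℝ}
    (hg : ∀ x, |g x| ≤ 1) (u : I → X → ℝ) : ∃ s : I → ℝ, (∀ i, |s i| ≤ 1) ∧
      (𝔼 i, |cov w g (u i)|) ^ 2 ≤ 𝔼 i : I × I, s i.1 * s i.2 * cov w (u i.1) (u i.2) := by
  refine ⟨fun i => if 0 ≤ cov w g (u i) then 1 else -1, fun i => ?_, ?_⟩
  · dsimp only; split_ifs <;> simp
  rw [← cov_avg_avg w (fun i => if 0 ≤ cov w g (u i) then 1 else -1) u]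
  refine le_of_eq_of_le ?_ (cov_sq_le h0 h1 hg _)
  rw [cov_avg_right]
  congr 1
  refine expect_congr rfl fun i _ => ?_
  split_ifs with h
  · rw [abs_of_nonneg h, one_mul]
  · rw [abs_of_neg (not_le.1 h)]; ring

end cov

section node
variable {S : Type} [Fintype S] {K : Ker S} {P : List S → S → S → ℝ}

theorem nodeE_mono (hK : IsKer K) (n : ℕ) {F G : List S → S → ℝ}
    (h : ∀ l s, l.length = n → F l s ≤ G l s) : nodeE K n F ≤ nodeE K n G :=
  pathE_mono hK n fun l hl => sum_le_sum fun s _ => mul_le_mul_of_nonneg_left (h l s hl) (hK.1 l s)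

theorem nodeE_const (hK : IsKer K) (n : ℕ) (c : ℝ) : nodeE K n (fun _ _ => c) = c := by
  unfold nodeE
  simp only [← sum_mul, hK.2, one_mul]
  exact pathE_const hK n c

theorem nodeE_nonneg (hK : IsKer K) (n : ℕ) {F : List S → S → ℝ} (h : ∀ l s, 0 ≤ F l s) :
    0 ≤ nodeE K n F :=
  (nodeE_const hK n 0).symm.le.trans (nodeE_mono hK n fun l s _ => h l s)

theorem nodeE_add (n : ℕ) (F G : List S → S → ℝ) :
    nodeE K n (fun l s => F l s + G l s) = nodeE K n F + nodeE K n G := by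
  unfold nodeE
  simp only [mul_add, sum_add_distrib]
  exact pathE_add n _ _

theorem nodeE_const_mul (n : ℕ) (c : ℝ) (F : List S → S → ℝ) :
    nodeE K n (fun l s => c * F l s) = c * nodeE K n F := by
  unfold nodeE
  rw [← pathE_const_mul]
  simp only [mul_sum, mul_left_comm c]

theorem nodeE_sum {α : Type} (A : Finset α) (n : ℕ) (F : α → List S → S → ℝ) :
    nodeE K n (fun l s => ∑ a ∈ A, F a l s) = ∑ a ∈ A, nodeE K n (F a) := by
  unfold nodeE
  rw [← pathE_sum]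
  simp only [mul_sum]
  congr 1; funext l; exact sum_comm

theorem nodeE_sq_le (hK : IsKer K) (n : ℕ) (F : List S → S → ℝ) :
    nodeE K n F ^ 2 ≤ nodeE K n fun l s => F l s ^ 2 := by
  refine (pathE_sq_le hK n _).trans (pathE_mono hK n fun l _ => ?_)
  have := wsum_sq_le (hK.1 l) (fun _ => 1) (F l)
  simpa [hK.2] using this

theorem IsCond.sum_eq (hP : IsCond K P) (h : List S) (G : S → ℝ) :
    ∑ s0, K h s0 * ∑ s, P h s0 s * G s = ∑ s, K h s * G s := by
  simp only [mul_sum]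
  rw [sum_comm]
  refine sum_congr rfl fun s _ => ?_
  rw [← hP.2.2 h s, sum_mul]
  exact sum_congr rfl fun s0 _ => by ring

theorem nodeE_step (hP : IsCond K P) (n : ℕ) (F : List S → S → ℝ) :
    nodeE K n (step K P F) = nodeE K (n + 1) F := by
  unfold nodeE step
  simp only [hP.sum_eq, pathE]

/-- The weights of one step. -/
def stepW (K : Ker S) (P : List S → S → S → ℝ) (h : List S) (s0 : S) (x : S × S) : ℝ :=
  P h s0 x.1 * K (x.1 :: h) x.2

theorem step_eq (F : List S → S → ℝ) (h : List S) (s0 : S) :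
    step K P F h s0 = ∑ x : S × S, stepW K P h s0 x * F (x.1 :: h) x.2 := by
  unfold step stepW
  rw [Fintype.sum_prod_type]
  simp only [mul_sum, mul_assoc]

theorem stepW_nonneg (hK : IsKer K) (hP : IsCond K P) (h : List S) (s0 : S) (x : S × S) :
    0 ≤ stepW K P h s0 x := mul_nonneg (hP.1 _ _ _) (hK.1 _ _)

theorem sum_stepW (hK : IsKer K) (hP : IsCond K P) (h : List S) (s0 : S) :
    ∑ x, stepW K P h s0 x = 1 := by
  unfold stepW
  rw [Fintype.sum_prod_type]
  simp only [← mul_sum, hK.2, mul_one, hP.2.1]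

end node

section top
variable {ι : Type} [Fintype ι] [DecidableEq ι]

theorem okF_top {π : ℕ → Finset (Finset ι)} {j0 k : ℕ} {A : Finset ι} (hk : k < j0)
    (hπ : π k = {A}) (C : Finset ι) :
    okF π j0 k C = if C = ∅ then 1 else if C = A then (2 ^ Fintype.card ι : ℝ)⁻¹ else 0 := by
  simp only [okF, if_pos hk, hπ, mem_singleton]

theorem top_eval {π : ℕ → Finset (Finset ι)} {j0 k : ℕ} {A : Finset ι} (hk : k < j0)
    (hπ : π k = {A}) (hA : A.Nonempty) (a a' : ℝ) {v : Finset (ι ⊕ ι) → ℝ} (hv : v ∅ = 0) :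
    lamS a a' (fun B => okF2 π j0 k B * v B) (A.disjSum A) =
      ((2 ^ Fintype.card ι : ℝ)⁻¹) ^ 2 *
        (v (A.disjSum A) + (a' - a) * (v (A.disjSum ∅) * v (disjSum ∅ A))) ∧
    lamS a a' (fun B => okF2 π j0 k B * v B) (A.disjSum ∅) =
      (2 ^ Fintype.card ι : ℝ)⁻¹ * v (A.disjSum ∅) ∧
    lamS a a' (fun B => okF2 π j0 k B * v B) (disjSum ∅ A) =
      (2 ^ Fintype.card ι : ℝ)⁻¹ * v (disjSum ∅ A) := by
  have hne := hA.ne_empty
  have hy : ∀ B : Finset (ι ⊕ ι), B ≠ A.disjSum ∅ → B ≠ disjSum ∅ A → B ≠ A.disjSum A →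
      okF2 π j0 k B * v B = 0 := by
    intro B h1 h2 h3
    rw [okF2, okF_top hk hπ, okF_top hk hπ]
    rw [ne_eq, eq_disjSum_iff] at h1 h2 h3
    by_cases hl : B.toLeft = ∅ <;> by_cases hr : B.toRight = ∅
    · have : B = ∅ := by rw [← toLeft_disjSum_toRight (u := B), hl, hr]; simp
      rw [this, hv, mul_zero]
    · rw [if_neg hr, if_neg (fun h => h2 ⟨hl, h⟩)]; simp
    · rw [if_neg hl, if_neg (fun h => h1 ⟨h, hr⟩)]; simp
    · rw [if_neg hl, if_neg hr]
      by_cases hl' : B.toLeft = A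
      · rw [if_neg (fun h => h3 ⟨hl', h⟩)]; simp
      · rw [if_neg hl']; simp
  obtain ⟨x, hx⟩ := hA
  have hL : (A.disjSum (∅ : Finset ι)).Nonempty := ⟨.inl x, by simpa⟩
  have hM : (disjSum (∅ : Finset ι) A).Nonempty := ⟨.inr x, by simpa⟩
  have hU : A.disjSum (∅ : Finset ι) ∪ disjSum (∅ : Finset ι) A = A.disjSum A := by
    ext z; cases z <;> simp
  have hd : Disjoint (A.disjSum (∅ : Finset ι)) (disjSum (∅ : Finset ι) A) := by
    rw [disjoint_left]; intro z; cases z <;> simp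
  refine ⟨?_, ?_, ?_⟩
  · have := lamS_pair (a := a) (a' := a') (y := fun B => okF2 π j0 k B * v B) hL hM hd
      (fun B _ h1 h2 h3 => hy B h1 h2 (hU ▸ h3))
    rw [hU] at this
    rw [this]
    simp only [okF2, okF_top hk hπ, toLeft_disjSum, toRight_disjSum, if_neg hne, if_true]
    ring
  · rw [lamS_single hL]
    · simp only [okF2, okF_top hk hπ, toLeft_disjSum, toRight_disjSum, if_neg hne, if_true]
      ring
    · intro B hB h
      refine hy B h ?_ ?_ <;> rintro rfl <;> simpa using hB (inr_mem_disjSum.2 hx)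
  · rw [lamS_single hM]
    · simp only [okF2, okF_top hk hπ, toLeft_disjSum, toRight_disjSum, if_neg hne, if_true]
      ring
    · intro B hB h
      refine hy B ?_ h ?_ <;> rintro rfl <;> simpa using hB (inl_mem_disjSum.2 hx)

omit [Fintype ι] in
theorem sing2_empty {S : Type} (F F' : ι → List S → ℝ) (l : List S) : sing2 F F' l ∅ = 0 := by
  have h1 : (∅ : Finset (ι ⊕ ι)).toRight = ∅ := by ext; simp
  have h2 : (∅ : Finset (ι ⊕ ι)).toLeft = ∅ := by ext; simp
  simp [sing2, sing, h1, h2]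

theorem Yf_left {S : Type} [Fintype S] (e : ℕ → ℝ) (K : Ker S) (π : ℕ → Finset (Finset ι))
    (j0 : ℕ) (F F' : ι → List S → ℝ) (j : ℕ) (h : List S) (A : Finset ι) :
    Yf e K (okF2 π j0) j h (sing2 F F') (A.disjSum ∅) = Yf e K (okF π j0) j h (sing F) A := by
  rw [disjSum_empty, Yf_map]
  congr 1
  · funext j B
    rw [← disjSum_empty, okF2, toLeft_disjSum, toRight_disjSum]; simp [okF]
  · funext l B
    rw [← disjSum_empty, sing2, toLeft_disjSum, toRight_disjSum]; simp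

theorem Yf_right {S : Type} [Fintype S] (e : ℕ → ℝ) (K : Ker S) (π : ℕ → Finset (Finset ι))
    (j0 : ℕ) (F F' : ι → List S → ℝ) (j : ℕ) (h : List S) (A : Finset ι) :
    Yf e K (okF2 π j0) j h (sing2 F F') (disjSum ∅ A) = Yf e K (okF π j0) j h (sing F') A := by
  rw [empty_disjSum, Yf_map]
  congr 1
  · funext j B
    rw [← empty_disjSum, okF2, toLeft_disjSum, toRight_disjSum]; simp [okF]
  · funext l B
    rw [← empty_disjSum, sing2, toLeft_disjSum, toRight_disjSum]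
    by_cases hB : B = ∅
    · subst hB; simp [sing]
    · simp [hB]

end top

theorem term_le_Cerr {D R : ℕ} {S I : Type} [Fintype S] [Fintype I] {K : Ker S}
    (P : List S → S → S → ℝ) (σ : I → List S → Bool) (hK : IsKer K) (j : Fin R)
    (x : Fin D → Bool) (π : Fin R → Finset (Finset (Fin D))) {j0 : ℕ} (hj0 : j0 < j.val + 2)
    (A : Finset (Fin D)) :
    nodeE K (R - 1 - j.val) (fun h s0 => 𝔼 i : I × I,
      |cdef (eU R) K P (extP π) j0 (ind σ x i.1) (ind σ x i.2) A j h s0|) ≤ Cerr D R K P σ := by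
  set f : Fin R → (Fin D → Bool) → (Fin R → Finset (Finset (Fin D))) → ℕ → Finset (Fin D) → ℝ :=
    fun j x π j0 A => nodeE K (R - 1 - j.val) (fun h s0 => 𝔼 i : I × I,
      |cdef (eU R) K P (extP π) j0 (ind σ x i.1) (ind σ x i.2) A j h s0|) with hf
  have h0 : ∀ j x π j0 A, 0 ≤ f j x π j0 A := fun j x π j0 A =>
    nodeE_nonneg hK _ fun l s => expect_nonneg fun i _ => abs_nonneg _
  change f j x π j0 A ≤ ∑ j : Fin R, ∑ x, ∑ π, ∑ j0 ∈ range (j.val + 2), ∑ A, f j x π j0 A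
  refine le_trans ?_ (single_le_sum (f := fun j : Fin R =>
    ∑ x, ∑ π, ∑ j0 ∈ range (j.val + 2), ∑ A, f j x π j0 A) (fun j _ => by
      refine sum_nonneg fun _ _ => sum_nonneg fun _ _ => sum_nonneg fun _ _ =>
        sum_nonneg fun _ _ => h0 _ _ _ _ _) (mem_univ j))
  refine le_trans ?_ (single_le_sum (f := fun x =>
    ∑ π, ∑ j0 ∈ range (j.val + 2), ∑ A, f j x π j0 A) (fun j _ => by
      refine sum_nonneg fun _ _ => sum_nonneg fun _ _ =>
        sum_nonneg fun _ _ => h0 _ _ _ _ _) (mem_univ x))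
  refine le_trans ?_ (single_le_sum (f := fun π =>
    ∑ j0 ∈ range (j.val + 2), ∑ A, f j x π j0 A) (fun j _ => by
      refine sum_nonneg fun _ _ => sum_nonneg fun _ _ => h0 _ _ _ _ _) (mem_univ π))
  refine le_trans ?_ (single_le_sum (f := fun j0 => ∑ A, f j x π j0 A) (fun j _ => by
      refine sum_nonneg fun _ _ => h0 _ _ _ _ _) (mem_range.2 hj0))
  exact single_le_sum (f := fun A => f j x π j0 A) (fun _ _ => h0 _ _ _ _ _) (mem_univ A)

theorem cdef_leaf {ι S : Type} [Fintype ι] [DecidableEq ι] [Fintype S] {e : ℕ → ℝ} (he : e 0 = 1)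
    (K : Ker S) (P : List S → S → S → ℝ) (π : ℕ → Finset (Finset ι)) (F F' : ι → List S → ℝ)
    (q : ι) (h : List S) (s0 : S) :
    cdef e K P π 0 F F' {q} 0 h s0 =
      -cov (P h s0) (fun s => F q (s :: h)) (fun s => F' q (s :: h)) := by
  have hU : ({q} : Finset ι).disjSum {q} = ({.inl q} : Finset (ι ⊕ ι)) ∪ {.inr q} := by
    ext z; cases z <;> simp
  have hok : ∀ B, okF2 π 0 0 B = 1 := fun B => by simp [okF2, okF]
  unfold cdef
  rw [hU, lamS_pair (by simp) (by simp) (by simp)]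
  · simp only [hok, one_mul, Yf, he, cov]
    have h1 : ∀ l, sing2 F F' l (({.inl q} : Finset (ι ⊕ ι)) ∪ {.inr q}) = -(F q l * F' q l) := by
      intro l; rw [← hU]; simp [sing2, sing]
    have h2 : ∀ l, sing2 F F' l ({.inl q} : Finset (ι ⊕ ι)) = F q l := by
      intro l
      have : ({.inl q} : Finset (ι ⊕ ι)) = ({q} : Finset ι).disjSum ∅ := by
        ext z; cases z <;> simp
      rw [this]; simp only [sing2, toLeft_disjSum, toRight_disjSum]; simp [sing]
    have h3 : ∀ l, sing2 F F' l ({.inr q} : Finset (ι ⊕ ι)) = F' q l := by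
      intro l
      have : ({.inr q} : Finset (ι ⊕ ι)) = disjSum ∅ ({q} : Finset ι) := by
        ext z; cases z <;> simp
      rw [this]; simp only [sing2, toLeft_disjSum, toRight_disjSum]; simp [sing]
    simp only [h1, h2, h3, mul_neg, sum_neg_distrib]
    ring
  · intro B hB h1 h2 h3
    have : B = ∅ := by
      rw [← hU, subset_disjSum, subset_singleton_iff, subset_singleton_iff] at hB
      rw [← hU] at h3
      rw [← toLeft_disjSum_toRight (u := B)] at h1 h2 h3 ⊢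
      rcases hB with ⟨hl | hl, hr | hr⟩ <;> rw [hl, hr] at h1 h2 h3 ⊢
      · simp
      · exact absurd (by ext z; cases z <;> simp) h2
      · exact absurd (by ext z; cases z <;> simp) h1
      · exact absurd rfl h3
    subst this
    simp [Yf, sing2_empty]

theorem leaf_cov {D R : ℕ} (hR : 0 < R) {S I : Type} [Fintype S] [Fintype I] [Nonempty I]
    {K : Ker S} {P : List S → S → S → ℝ} (σ : I → List S → Bool) (hK : IsKer K)
    (hP : IsCond K P) (x : Fin D → Bool) (q : Fin D) (g : List S → ℝ) (hg : ∀ l, |g l| ≤ 1) :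
    nodeE K (R - 1) (fun h s0 => 𝔼 i : I,
      |(∑ s, P h s0 s * (g (s :: h) * ind σ x i q (s :: h))) -
        (∑ s, P h s0 s * g (s :: h)) * ∑ s, P h s0 s * ind σ x i q (s :: h)|) ≤
      √(Cerr D R K P σ) := by
  refine Real.le_sqrt_of_sq_le ((nodeE_sq_le hK _ _).trans ?_)
  refine le_trans (nodeE_mono hK _ fun h s0 _ => ?_)
    (term_le_Cerr P σ hK ⟨0, hR⟩ x (fun _ => ∅) (j0 := 0) (by simp) {q})
  obtain ⟨s, hs, hle⟩ := avg_abs_cov_sq_le (hP.1 h s0) (hP.2.1 h s0) (g := fun s => g (s :: h))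
    (fun s => hg _) (fun (i : I) s => ind σ x i q (s :: h))
  refine hle.trans (expect_le_expect fun i _ => ?_)
  rw [cdef_leaf (exps_eU hR).zero, abs_neg]
  refine (le_abs_self _).trans ?_
  rw [abs_mul, abs_mul]
  exact mul_le_of_le_one_left (abs_nonneg _) (mul_le_one₀ (hs _) (abs_nonneg _) (hs _))

theorem cdef_step {ι S : Type} [Fintype ι] [DecidableEq ι] [Fintype S] (e : ℕ → ℝ)
    {K : Ker S} {P : List S → S → S → ℝ} (hP : IsCond K P) {π : ℕ → Finset (Finset ι)}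
    (F F' : ι → List S → ℝ) {j : ℕ} {t : Sh ι j} (hw : WF j t) (hf : Fit π j t)
    (h1 : π j = {lv j t}) (h2 : π (j + 1) = {lv j t}) (h : List S) (s0 : S) :
    cdef e K P π (j + 2) F F' (lv j t) (j + 1) h s0 -
      ((2 ^ Fintype.card ι : ℝ)⁻¹) ^ 2 * step K P (cdef e K P π (j + 1) F F' (lv j t) j) h s0 =
    -(((2 ^ Fintype.card ι : ℝ)⁻¹) ^ 4 * cst e (2 ^ Fintype.card ι : ℝ)⁻¹ j t ^ 2 *
      (e (j + 1) * cov (stepW K P h s0) (fun z => phi K P F j t (z.1 :: h) z.2)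
          (fun z => phi K P F' j t (z.1 :: h) z.2) +
        (e j - e (j + 1)) * ∑ s, P h s0 s *
          cov (K (s :: h)) (phi K P F j t (s :: h)) (phi K P F' j t (s :: h)))) := by
  set ω : ℝ := (2 ^ Fintype.card ι : ℝ)⁻¹ with hω
  set A := lv j t
  set c := cst e ω j t
  have hA : A.Nonempty := hw.nonempty
  set Y := fun l => Yf e K (okF2 π (j + 2)) j l (sing2 F F') with hY
  have hY0 : ∀ l, Y l ∅ = 0 := fun l => Yf_empty e K _ (sing2_empty F F') j l
  have hYL : ∀ l, Y l (A.disjSum ∅) = c * ev K F j t l := fun l => by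
    rw [hY]; simp only; rw [Yf_left, Yf_filter e K π _ F j t (by omega) hw hf]
  have hYR : ∀ l, Y l (disjSum ∅ A) = c * ev K F' j t l := fun l => by
    rw [hY]; simp only; rw [Yf_right, Yf_filter e K π _ F' j t (by omega) hw hf]
  set u : List S → S → ℝ := fun l s0' => ∑ s, P l s0' s * Y (s :: l) (A.disjSum A) with hu
  have hphi : ∀ (G : ι → List S → ℝ) l s0', ∑ s, P l s0' s * (c * ev K G j t (s :: l)) =
      c * phi K P G j t l s0' := fun G l s0' => by
    rw [phi, mul_sum]; exact sum_congr rfl fun s _ => by ring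
  have hKphi : ∀ (G : ι → List S → ℝ) l, ∑ s, K l s * (c * ev K G j t (s :: l)) =
      c * ∑ s0', K l s0' * phi K P G j t l s0' := fun G l => by
    simp only [phi]
    rw [hP.sum_eq, mul_sum]; exact sum_congr rfl fun s _ => by ring
  have hlow : ∀ l s0', cdef e K P π (j + 1) F F' A j l s0' =
      ω ^ 2 * (u l s0' + e j * (c ^ 2 * (phi K P F j t l s0' * phi K P F' j t l s0'))) := by
    intro l s0'
    have hok : ∀ i < j + 1, okF2 π (j + 1) i = okF2 π (j + 2) i := by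
      intro i hi; funext B
      simp only [okF2, okF, if_pos hi, if_pos (show i < j + 2 by omega)]
    unfold cdef
    rw [hok j (Nat.lt_succ_self j)]
    simp only [Yf_congr_ok e K (sing2 F F') j (fun i hi => hok i (by omega))]
    rw [(top_eval (show j < j + 2 by omega) h1 hA 0 (e j)
      (v := fun B => ∑ s, P l s0' s * Y (s :: l) B) (by simp [hY0])).1]
    simp only [hYL, hYR, hphi]; ring
  have hmid : ∀ l, Yf e K (okF2 π (j + 2)) (j + 1) l (sing2 F F') (A.disjSum A) =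
      ω ^ 2 * (∑ s0', K l s0' * u l s0' + (e j - e (j + 1)) *
        (c ^ 2 * ((∑ s0', K l s0' * phi K P F j t l s0') *
          ∑ s0', K l s0' * phi K P F' j t l s0'))) ∧
      Yf e K (okF2 π (j + 2)) (j + 1) l (sing2 F F') (A.disjSum ∅) =
        ω * (c * ∑ s0', K l s0' * phi K P F j t l s0') ∧
      Yf e K (okF2 π (j + 2)) (j + 1) l (sing2 F F') (disjSum ∅ A) =
        ω * (c * ∑ s0', K l s0' * phi K P F' j t l s0') := by
    intro l
    obtain ⟨a1, a2, a3⟩ := top_eval (show j < j + 2 by omega) h1 hA (e (j + 1)) (e j)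
      (v := fun B => ∑ s, K l s * Y (s :: l) B) (by simp [hY0])
    simp only [Yf]
    refine ⟨a1.trans ?_, a2.trans ?_, a3.trans ?_⟩
    · simp only [hYL, hYR, hKphi, hu, hP.sum_eq]; ring
    · simp only [hYL, hKphi]; rfl
    · simp only [hYR, hKphi]; rfl
  unfold cdef at *
  rw [(top_eval (show j + 1 < j + 2 by omega) h2 hA 0 (e (j + 1))
    (v := fun B => ∑ s, P h s0 s * Yf e K (okF2 π (j + 2)) (j + 1) (s :: h) (sing2 F F') B)
    (by simp [Yf_empty e K _ (sing2_empty F F')])).1]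
  simp only [(hmid _).1, (hmid _).2.1, (hmid _).2.2, step, hlow, cov, stepW, Fintype.sum_prod_type]
  set QF : S → ℝ := fun s => ∑ s0', K (s :: h) s0' * phi K P F j t (s :: h) s0'
  set QF' : S → ℝ := fun s => ∑ s0', K (s :: h) s0' * phi K P F' j t (s :: h) s0'
  set QFF : S → ℝ := fun s => ∑ s0', K (s :: h) s0' *
    (phi K P F j t (s :: h) s0' * phi K P F' j t (s :: h) s0')
  set QU : S → ℝ := fun s => ∑ s0', K (s :: h) s0' * u (s :: h) s0'
  have e1 : ∀ s, ∑ s0', K (s :: h) s0' * (ω ^ 2 * (u (s :: h) s0' +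
      e j * (c ^ 2 * (phi K P F j t (s :: h) s0' * phi K P F' j t (s :: h) s0')))) =
      ω ^ 2 * (QU s + e j * c ^ 2 * QFF s) := by
    intro s
    simp only [QU, QFF, mul_add, mul_sum, ← sum_add_distrib]
    exact sum_congr rfl fun _ _ => by ring
  have e2 : ∀ (G : S → S → ℝ) s, ∑ s0', P h s0 s * K (s :: h) s0' * G s s0' =
      P h s0 s * ∑ s0', K (s :: h) s0' * G s s0' := by
    intro G s; rw [mul_sum]; exact sum_congr rfl fun _ _ => by ring
  simp only [e1]
  rw [sum_congr rfl fun s _ => e2 (fun s s0' => phi K P F j t (s :: h) s0') s,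
    sum_congr rfl fun s _ => e2 (fun s s0' => phi K P F' j t (s :: h) s0') s,
    sum_congr rfl fun s _ => e2 (fun s s0' =>
      phi K P F j t (s :: h) s0' * phi K P F' j t (s :: h) s0') s]
  have e3 : ∑ s, P h s0 s * (ω ^ 2 * (QU s + (e j - e (j + 1)) * (c ^ 2 * (QF s * QF' s)))) =
      ω ^ 2 * (∑ s, P h s0 s * QU s + (e j - e (j + 1)) * c ^ 2 *
        ∑ s, P h s0 s * (QF s * QF' s)) := by
    simp only [mul_add, mul_sum, ← sum_add_distrib]
    exact sum_congr rfl fun _ _ => by ring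
  have e4 : ∑ s, P h s0 s * (ω ^ 2 * (QU s + e j * c ^ 2 * QFF s)) =
      ω ^ 2 * (∑ s, P h s0 s * QU s + e j * c ^ 2 * ∑ s, P h s0 s * QFF s) := by
    simp only [mul_add, mul_sum, ← sum_add_distrib]
    exact sum_congr rfl fun _ _ => by ring
  have e5 : ∀ G : S → ℝ, ∑ s, P h s0 s * (ω * (c * G s)) = ω * c * ∑ s, P h s0 s * G s := by
    intro G; rw [mul_sum]; exact sum_congr rfl fun _ _ => by ring
  have e6 : ∑ s, P h s0 s * (QFF s - QF s * QF' s) =
      ∑ s, P h s0 s * QFF s - ∑ s, P h s0 s * (QF s * QF' s) := by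
    rw [← sum_sub_distrib]; exact sum_congr rfl fun _ _ => by ring
  rw [e3, e4, e5 QF, e5 QF', e6]
  ring

theorem unary_point {ι S I : Type} [Fintype ι] [DecidableEq ι] [Fintype S] [Fintype I]
    (e : ℕ → ℝ) {K : Ker S} {P : List S → S → S → ℝ} (hK : IsKer K) (hP : IsCond K P)
    {π : ℕ → Finset (Finset ι)} (F : I → ι → List S → ℝ) {j : ℕ} {t : Sh ι j} (ht : WF j t)
    (hf : Fit π j t) (h1 : π j = {lv j t}) (h2 : π (j + 1) = {lv j t}) (h : List S) (s0 : S)
    {g : List S → S → ℝ} (hg : ∀ l s, |g l s| ≤ 1) {a c0 : ℝ} (ha0 : 0 ≤ a) (ha : a ≤ e (j + 1))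
    (ha' : e (j + 1) ≤ e j) (hc0 : 0 ≤ c0) (hcc : c0 ≤ cst e (2 ^ Fintype.card ι : ℝ)⁻¹ j t) :
    ((2 ^ Fintype.card ι : ℝ)⁻¹) ^ 4 * c0 ^ 2 * (a * (𝔼 i : I,
      |step K P (fun l s => g l s * phi K P (F i) j t l s) h s0 -
        step K P g h s0 * step K P (phi K P (F i) j t) h s0|) ^ 2) ≤
      (𝔼 i : I × I, |cdef e K P π (j + 2) (F i.1) (F i.2) (lv j t) (j + 1) h s0|) +
      step K P (fun h s0 => 𝔼 i : I × I, |cdef e K P π (j + 1) (F i.1) (F i.2) (lv j t) j h s0|)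
        h s0 := by
  have hid := fun i : I × I => cdef_step e hP (F i.1) (F i.2) ht hf h1 h2 h s0
  have hω0 : (0 : ℝ) < (2 ^ Fintype.card ι : ℝ)⁻¹ := by positivity
  have hω1 : (2 ^ Fintype.card ι : ℝ)⁻¹ ≤ 1 := inv_le_one_of_one_le₀ (one_le_pow₀ one_le_two)
  generalize (2 ^ Fintype.card ι : ℝ)⁻¹ = ω at *
  generalize cst e ω j t = c at *
  obtain ⟨s, hs, hle⟩ := avg_abs_cov_sq_le (stepW_nonneg hK hP h s0) (sum_stepW hK hP h s0)
    (g := fun z => g (z.1 :: h) z.2) (fun z => hg _ _)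
    (fun (i : I) z => phi K P (F i) j t (z.1 :: h) z.2)
  simp only [step_eq] at hid ⊢
  have hV0 := avg_cov_nonneg (stepW_nonneg hK hP h s0) (sum_stepW hK hP h s0) s
    (fun (i : I) z => phi K P (F i) j t (z.1 :: h) z.2)
  have hV0' : 0 ≤ 𝔼 i : I × I, s i.1 * s i.2 * ∑ s', P h s0 s' *
      cov (K (s' :: h)) (phi K P (F i.1) j t (s' :: h)) (phi K P (F i.2) j t (s' :: h)) := by
    have : 𝔼 i : I × I, s i.1 * s i.2 * ∑ s', P h s0 s' *
      cov (K (s' :: h)) (phi K P (F i.1) j t (s' :: h)) (phi K P (F i.2) j t (s' :: h)) =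
        ∑ s', P h s0 s' * 𝔼 i : I × I, s i.1 * s i.2 *
        cov (K (s' :: h)) (phi K P (F i.1) j t (s' :: h)) (phi K P (F i.2) j t (s' :: h)) := by
      simp only [mul_sum, mul_expect, expect_sum_comm]
      exact sum_congr rfl fun _ _ => expect_congr rfl fun _ _ => by ring
    rw [this]
    exact sum_nonneg fun s' _ => mul_nonneg (hP.1 _ _ _)
      (avg_cov_nonneg (hK.1 _) (hK.2 _) s fun i => phi K P (F i) j t (s' :: h))
  generalize hc1 : (fun i : I × I =>
    cdef e K P π (j + 2) (F i.1) (F i.2) (lv j t) (j + 1) h s0) = c1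
  generalize hc2 : (fun (i : I × I) (z : S × S) =>
    cdef e K P π (j + 1) (F i.1) (F i.2) (lv j t) j (z.1 :: h) z.2) = c2
  generalize hv1 : (fun i : I × I => cov (stepW K P h s0)
    (fun z => phi K P (F i.1) j t (z.1 :: h) z.2) (fun z => phi K P (F i.2) j t (z.1 :: h) z.2)) = v1
  generalize hv2 : (fun i : I × I => ∑ s', P h s0 s' *
    cov (K (s' :: h)) (phi K P (F i.1) j t (s' :: h)) (phi K P (F i.2) j t (s' :: h))) = v2
  simp only [funext_iff] at hc1 hc2 hv1 hv2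
  simp only [hc1, hc2, hv1, hv2] at hid hle hV0 hV0' ⊢
  have key : ω ^ 4 * c ^ 2 * (e (j + 1) * (𝔼 i : I × I, s i.1 * s i.2 * v1 i) +
      (e j - e (j + 1)) * 𝔼 i : I × I, s i.1 * s i.2 * v2 i) ≤
      (𝔼 i : I × I, |c1 i|) + ∑ z : S × S, stepW K P h s0 z * 𝔼 i : I × I, |c2 i z| := by
    simp only [mul_expect, ← expect_add_distrib, ← expect_sum_comm]
    refine expect_le_expect fun i _ => ?_
    have hc2 : |∑ z : S × S, stepW K P h s0 z * c2 i z| ≤
        ∑ z : S × S, stepW K P h s0 z * |c2 i z| := by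
      refine (abs_sum_le_sum_abs _ _).trans (sum_le_sum fun z _ => ?_)
      rw [abs_mul, abs_of_nonneg (stepW_nonneg hK hP h s0 z)]
    have hss : |s i.1 * s i.2| ≤ 1 := by
      rw [abs_mul]; exact mul_le_one₀ (hs _) (abs_nonneg _) (hs _)
    calc _ = -(s i.1 * s i.2) * (c1 i - ω ^ 2 * ∑ z : S × S, stepW K P h s0 z * c2 i z) := by
          rw [hid]; ring
      _ ≤ |c1 i - ω ^ 2 * ∑ z : S × S, stepW K P h s0 z * c2 i z| := by
          refine (le_abs_self _).trans ?_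
          rw [abs_mul, abs_neg]
          exact mul_le_of_le_one_left (abs_nonneg _) hss
      _ ≤ |c1 i| + |∑ z : S × S, stepW K P h s0 z * c2 i z| := by
          refine (abs_sub _ _).trans (add_le_add le_rfl ?_)
          rw [abs_mul, abs_of_nonneg (by positivity : 0 ≤ ω ^ 2)]
          exact mul_le_of_le_one_left (abs_nonneg _) (pow_le_one₀ hω0.le hω1)
      _ ≤ _ := add_le_add le_rfl hc2
  refine le_trans ?_ key
  have h4 : ω ^ 4 * c0 ^ 2 ≤ ω ^ 4 * c ^ 2 := by gcongr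
  refine mul_le_mul h4 ?_ (by positivity) (by positivity)
  exact le_add_of_le_of_nonneg (mul_le_mul ha hle (sq_nonneg _) (ha0.trans ha))
    (mul_nonneg (by linarith) hV0')

theorem unary_cov (D R : ℕ) : ∃ C : ℝ, 0 ≤ C ∧ ∀ (S I : Type) [Fintype S] [Fintype I] [Nonempty I]
    (K : Ker S) (P : List S → S → S → ℝ) (σ : I → List S → Bool), IsKer K → IsCond K P →
    ∀ (x : Fin D → Bool) (j : ℕ), j + 1 < R → ∀ t : Sh (Fin D) j, WF j t →
    ∀ g : List S → S → ℝ, (∀ l s, |g l s| ≤ 1) →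
    nodeE K (R - 1 - (j + 1)) (fun h s0 => 𝔼 i : I,
      |step K P (fun l s => g l s * phi K P (ind σ x i) j t l s) h s0 -
        step K P g h s0 * step K P (phi K P (ind σ x i) j t) h s0|) ≤
      C * √(Cerr D R K P σ) := by
  obtain ⟨ω, hω⟩ : ∃ ω : ℝ, ω = (2 ^ Fintype.card (Fin D) : ℝ)⁻¹ := ⟨_, rfl⟩
  have hω0 : 0 < ω := by rw [hω]; positivity
  obtain ⟨c0, hc0, hc⟩ : ∃ c0 > 0, ∀ j < R, ∀ t : Sh (Fin D) j, WF j t → c0 ≤ cst (eU R) ω j t := by
    have : ∀ n ≤ R, ∃ c0 > 0, ∀ j < n, ∀ t : Sh (Fin D) j, WF j t → c0 ≤ cst (eU R) ω j t := by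
      intro n
      induction n with
      | zero => exact fun _ => ⟨1, one_pos, fun j hj => absurd hj (Nat.not_lt_zero j)⟩
      | succ n ih =>
        intro hn
        obtain ⟨c1, h1, h1'⟩ := ih (by omega)
        obtain ⟨c2, h2, h2'⟩ := exists_cst_lower (ι := Fin D) (R := R) hω0 n (by omega)
        refine ⟨min c1 c2, lt_min h1 h2, fun j hj t ht => ?_⟩
        rcases Nat.lt_succ_iff_lt_or_eq.1 hj with hj | rfl
        · exact (min_le_left _ _).trans (h1' j hj t ht)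
        · exact (min_le_right _ _).trans (h2' t ht)
    exact this R le_rfl
  refine ⟨√(2 * R / (ω ^ 4 * c0 ^ 2)), Real.sqrt_nonneg _, ?_⟩
  intro S I _ _ _ K P σ hK hP x j hj t ht g hg
  have hR : 0 < R := by omega
  have hR' : (0 : ℝ) < R := by exact_mod_cast hR
  rw [← Real.sqrt_mul (by positivity)]
  refine Real.le_sqrt_of_sq_le ((nodeE_sq_le hK _ _).trans ?_)
  obtain ⟨π, hπ⟩ : ∃ π : Fin R → Finset (Finset (Fin D)),
    π = fun k : Fin R => if k.val < j then blk j t k else {lv j t} := ⟨_, rfl⟩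
  have hf : Fit (extP π) j t := by
    intro j' hj' B _ _
    simp only [extP, dif_pos (show j' < R by omega), hπ, if_pos hj']
  have h1 : extP π j = {lv j t} := by simp [extP, dif_pos (show j < R by omega), hπ]
  have h2 : extP π (j + 1) = {lv j t} := by simp [extP, dif_pos hj, hπ]
  have a1 := term_le_Cerr P σ hK ⟨j + 1, hj⟩ x π (j0 := j + 2) (by simp) (lv j t)
  have a2 := term_le_Cerr P σ hK ⟨j, by omega⟩ x π (j0 := j + 1) (by simp) (lv j t)
  simp only at a1 a2
  rw [show R - 1 - j = R - 1 - (j + 1) + 1 by omega, ← nodeE_step hP] at a2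
  have hκ : 0 < R / (ω ^ 4 * c0 ^ 2) := by positivity
  have ha : 1 / R ≤ eU R (j + 1) := by
    unfold eU
    have : ((j + 1 : ℕ) : ℝ) + 1 ≤ R := by exact_mod_cast hj
    exact div_le_div_of_nonneg_right (by linarith) hR'.le
  have hpt := fun h s0 => unary_point (eU R) hK hP (fun i => ind σ x i) ht hf h1 h2 h s0 hg
    (by positivity) ha ((exps_eU hR).anti j hj) hc0.le (hω ▸ hc j (by omega) t ht)
  rw [← hω] at hpt
  have hsum := nodeE_mono hK (R - 1 - (j + 1)) fun h s0 _ => hpt h s0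
  rw [nodeE_add, nodeE_const_mul, nodeE_const_mul] at hsum
  have h5 := hsum.trans (add_le_add a1 a2)
  generalize nodeE K (R - 1 - (j + 1)) _ = X at h5 ⊢
  calc X = R / (ω ^ 4 * c0 ^ 2) * (ω ^ 4 * c0 ^ 2 * (1 / R * X)) := by field_simp
    _ ≤ R / (ω ^ 4 * c0 ^ 2) * (Cerr D R K P σ + Cerr D R K P σ) :=
      mul_le_mul_of_nonneg_left h5 hκ.le
    _ = _ := by ring

end Crest.Agent.H9.MP
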