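import Crest.Agent.H9.MP.T1b

/-! MP-T2ax: combinatorics of the filtered multilinear coefficients. -/

set_option autoImplicit false

namespace Crest.Agent.H9.MP

open Finset

section cp
variable {ι : Type} [DecidableEq ι]

theorem cpow_congr {y y' : Finset ι → ℝ} : ∀ (κ : ℕ) (A : Finset ι), (∀ B ⊆ A, y B = y' B) →
    cpow y κ A = cpow y' κ A
  | 0, A, _ => rfl
  | κ + 1, A, h => by
    simp only [cpow]
    refine sum_congr rfl fun B hB => ?_
    rw [h B (mem_powerset.1 hB), cpow_congr κ (A \ B) fun C hC => h C (hC.trans sdiff_subset)]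

theorem lamS_congr {a a' : ℝ} {y y' : Finset ι → ℝ} {A : Finset ι} (h : ∀ B ⊆ A, y B = y' B) :
    lamS a a' y A = lamS a a' y' A := by
  unfold lamS
  exact sum_congr rfl fun κ _ => by rw [cpow_congr κ A h]

theorem lamS_empty (a a' : ℝ) (y : Finset ι → ℝ) : lamS a a' y ∅ = 0 := by simp [lamS]

theorem cpow_blocks {y : Finset ι → ℝ} : ∀ (κ : ℕ) (A : Finset ι) (𝔅 : Finset (Finset ι)),
    (∀ B ∈ 𝔅, B.Nonempty) → (∀ B ∈ 𝔅, ∀ B' ∈ 𝔅, B ≠ B' → Disjoint B B') → 𝔅.biUnion id = A →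
    (∀ B ⊆ A, B ∉ 𝔅 → y B = 0) →
    cpow y κ A = if κ = 𝔅.card then (κ.factorial : ℝ) * ∏ B ∈ 𝔅, y B else 0
  | 0, A, 𝔅, hne, _, hU, _ => by
    simp only [cpow]
    by_cases h : 𝔅 = ∅
    · subst h; simp at hU; simp [← hU]
    · obtain ⟨B, hB⟩ := nonempty_iff_ne_empty.2 h
      have hA : A ≠ ∅ := by
        obtain ⟨x, hx⟩ := hne B hB
        exact ne_empty_of_mem (hU ▸ mem_biUnion.2 ⟨B, hB, hx⟩)
      have : (0 : ℕ) ≠ 𝔅.card := (card_pos.2 ⟨B, hB⟩).ne
      simp [hA, this]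
  | κ + 1, A, 𝔅, hne, hd, hU, hy => by
    simp only [cpow]
    have hsub : 𝔅 ⊆ A.powerset := fun B hB =>
      mem_powerset.2 (hU ▸ subset_biUnion_of_mem id hB)
    rw [← sum_subset hsub (fun B hB hB' => by rw [hy B (mem_powerset.1 hB) hB', zero_mul])]
    have key : ∀ B ∈ 𝔅, y B * cpow y κ (A \ B) =
        if κ + 1 = 𝔅.card then (κ.factorial : ℝ) * ∏ B ∈ 𝔅, y B else 0 := by
      intro B hB
      rw [cpow_blocks κ (A \ B) (𝔅.erase B) (fun C hC => hne C (mem_of_mem_erase hC))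
        (fun C hC C' hC' => hd C (mem_of_mem_erase hC) C' (mem_of_mem_erase hC'))]
      · have hc : (𝔅.erase B).card + 1 = 𝔅.card := card_erase_add_one hB
        by_cases h : κ + 1 = 𝔅.card
        · rw [if_pos (by omega), if_pos h, ← mul_prod_erase 𝔅 y hB]; ring
        · rw [if_neg (by omega), if_neg h, mul_zero]
      · ext x
        simp only [mem_biUnion, mem_erase, id, mem_sdiff, ← hU]
        constructor
        · rintro ⟨C, ⟨hC, hC'⟩, hx⟩
          exact ⟨⟨C, hC', hx⟩, fun hxB => disjoint_left.1 (hd C hC' B hB hC) hx hxB⟩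
        · rintro ⟨⟨C, hC, hx⟩, hxB⟩
          exact ⟨C, ⟨fun h => hxB (h ▸ hx), hC⟩, hx⟩
      · intro C hC hC'
        refine hy C (hC.trans sdiff_subset) fun h => hC' (mem_erase.2 ⟨?_, h⟩)
        rintro rfl
        obtain ⟨x, hx⟩ := hne C h
        exact (mem_sdiff.1 (hC hx)).2 hx
    rw [sum_congr rfl key, sum_const, nsmul_eq_mul]
    by_cases h : κ + 1 = 𝔅.card
    · rw [if_pos h, if_pos h, ← h, Nat.factorial_succ]; push_cast; ring
    · rw [if_neg h, if_neg h, mul_zero]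

theorem lamS_blocks {a a' : ℝ} {y : Finset ι → ℝ} {A : Finset ι} {𝔅 : Finset (Finset ι)}
    (h0 : 𝔅.Nonempty) (hne : ∀ B ∈ 𝔅, B.Nonempty)
    (hd : ∀ B ∈ 𝔅, ∀ B' ∈ 𝔅, B ≠ B' → Disjoint B B') (hU : 𝔅.biUnion id = A)
    (hy : ∀ B ⊆ A, B ∉ 𝔅 → y B = 0) :
    lamS a a' y A = gam a a' 𝔅.card * (𝔅.card.factorial : ℝ) * ∏ B ∈ 𝔅, y B := by
  unfold lamS
  have hc : 𝔅.card ≤ A.card := by
    rw [← hU, card_biUnion (t := id) (fun B hB B' hB' h => hd B hB B' hB' h), card_eq_sum_ones]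
    exact sum_le_sum fun B hB => card_pos.2 (hne B hB)
  rw [sum_congr rfl fun κ _ => by rw [cpow_blocks κ A 𝔅 hne hd hU hy], sum_eq_single 𝔅.card]
  · simp [mul_assoc]
  · intro κ _ h; simp [h]
  · intro h; exact absurd (mem_Icc.2 ⟨card_pos.2 h0, hc⟩) h

theorem lamS_single {a a' : ℝ} {y : Finset ι → ℝ} {A : Finset ι} (hA : A.Nonempty)
    (hy : ∀ B ⊆ A, B ≠ A → y B = 0) : lamS a a' y A = y A := by
  rw [lamS_blocks (𝔅 := {A}) (by simp) (by simpa) (by simp) (by simp) (by simpa)]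
  simp [gam_one]

theorem cpow_single {y : Finset ι → ℝ} {A : Finset ι} (hA : A.Nonempty)
    (hy : ∀ B ⊆ A, B ≠ A → y B = 0) (κ : ℕ) : cpow y κ A = if κ = 1 then y A else 0 := by
  rw [cpow_blocks κ A {A} (by simpa) (by simp) (by simp) (by simpa)]
  by_cases h : κ = 1 <;> simp [h]

theorem cpow_empty {y : Finset ι → ℝ} (hy : y ∅ = 0) (κ : ℕ) :
    cpow y κ ∅ = if κ = 0 then 1 else 0 := by
  rw [cpow_blocks κ ∅ ∅ (by simp) (by simp) (by simp) (by simpa)]
  by_cases h : κ = 0 <;> simp [h]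

theorem lamS_pair {a a' : ℝ} {y : Finset ι → ℝ} {L M : Finset ι} (hL : L.Nonempty)
    (hM : M.Nonempty) (hd : Disjoint L M)
    (hy : ∀ B ⊆ L ∪ M, B ≠ L → B ≠ M → B ≠ L ∪ M → y B = 0) :
    lamS a a' y (L ∪ M) = y (L ∪ M) + (a' - a) * (y L * y M) := by
  obtain ⟨x, hx⟩ := hL
  obtain ⟨z, hz⟩ := hM
  have hxM : x ∉ M := disjoint_left.1 hd hx
  have hzL : z ∉ L := disjoint_right.1 hd hz
  have hLM : L ≠ M := fun h => hxM (h ▸ hx)
  have hLU : L ≠ L ∪ M := fun h => hzL (h ▸ mem_union_right L hz)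
  have hMU : M ≠ L ∪ M := fun h => hxM (h ▸ mem_union_left M hx)
  have h0 : y ∅ = 0 := hy ∅ (empty_subset _) (ne_empty_of_mem hx).symm (ne_empty_of_mem hz).symm
    (ne_empty_of_mem (mem_union_left M hx)).symm
  have hyL : ∀ B ⊆ L, B ≠ L → y B = 0 := fun B hB h => hy B (hB.trans subset_union_left) h
    (fun h' => hzL (hB (h' ▸ hz))) (fun h' => hzL (hB (h' ▸ mem_union_right L hz)))
  have hyM : ∀ B ⊆ M, B ≠ M → y B = 0 := fun B hB h => hy B (hB.trans subset_union_right)
    (fun h' => hxM (hB (h' ▸ hx))) h (fun h' => hxM (hB (h' ▸ mem_union_left M hx)))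
  have hc : ∀ κ, cpow y (κ + 1) (L ∪ M) =
      (if κ = 0 then y (L ∪ M) else 0) + if κ = 1 then 2 * (y L * y M) else 0 := by
    intro κ
    simp only [cpow]
    have hsub : ({L, M, L ∪ M} : Finset (Finset ι)) ⊆ (L ∪ M).powerset := by
      intro B hB
      simp only [mem_insert, mem_singleton] at hB
      rw [mem_powerset]
      rcases hB with rfl | rfl | rfl
      exacts [subset_union_left, subset_union_right, Subset.refl _]
    rw [← sum_subset hsub (fun B hB hB' => by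
      simp only [mem_insert, mem_singleton, not_or] at hB'
      rw [hy B (mem_powerset.1 hB) hB'.1 hB'.2.1 hB'.2.2, zero_mul])]
    rw [sum_insert (by simp [hLM, hLU]), sum_insert (by simp [hMU]), sum_singleton,
      union_sdiff_cancel_left hd, union_sdiff_cancel_right hd, sdiff_self, bot_eq_empty,
      cpow_single ⟨x, hx⟩ hyL, cpow_single ⟨z, hz⟩ hyM, cpow_empty h0]
    by_cases h1 : κ = 1
    · subst h1; simp; ring
    · by_cases h2 : κ = 0 <;> simp [h1, h2]
  have h2 : 2 ≤ (L ∪ M).card := by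
    rw [card_union_of_disjoint hd]
    have := card_pos.2 ⟨x, hx⟩
    have := card_pos.2 ⟨z, hz⟩
    omega
  unfold lamS
  have hsub : ({1, 2} : Finset ℕ) ⊆ Icc 1 (L ∪ M).card := by
    intro κ hκ
    simp only [mem_insert, mem_singleton] at hκ
    rw [mem_Icc]
    omega
  rw [← sum_subset hsub]
  · rw [sum_pair (by norm_num), hc 0, hc 1, gam_one, gam_two]; simp; ring
  · intro κ hκ hκ'
    simp only [mem_insert, mem_singleton, not_or] at hκ'
    obtain ⟨k, rfl⟩ : ∃ k, κ = k + 1 := ⟨κ - 1, by have := (mem_Icc.1 hκ).1; omega⟩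
    rw [hc k, if_neg (by omega), if_neg (by omega)]; simp

variable {κ' : Type} [DecidableEq κ']

theorem cpow_map (f : ι ↪ κ') (y : Finset κ' → ℝ) : ∀ (κ : ℕ) (A : Finset ι),
    cpow y κ (A.map f) = cpow (fun B => y (B.map f)) κ A
  | 0, A => by simp [cpow]
  | κ + 1, A => by
    simp only [cpow]
    symm
    refine sum_bij (fun B _ => B.map f) (fun B hB => ?_) (fun B _ B' _ h => map_injective f h)
      (fun C hC => ?_) (fun B _ => ?_)
    · exact mem_powerset.2 (map_subset_map.2 (mem_powerset.1 hB))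
    · obtain ⟨B, hB, rfl⟩ := subset_map_iff.1 (mem_powerset.1 hC)
      exact ⟨B, mem_powerset.2 hB, rfl⟩
    · rw [← Finset.map_sdiff, cpow_map f y κ (A \ B)]

theorem lamS_map (f : ι ↪ κ') (a a' : ℝ) (y : Finset κ' → ℝ) (A : Finset ι) :
    lamS a a' y (A.map f) = lamS a a' (fun B => y (B.map f)) A := by
  unfold lamS
  rw [card_map]
  exact sum_congr rfl fun κ _ => by rw [cpow_map]

theorem Yf_map {S : Type} [Fintype S] (e : ℕ → ℝ) (K : Ker S) (f : ι ↪ κ')
    (ok : ℕ → Finset κ' → ℝ) (u : List S → Finset κ' → ℝ) : ∀ (j : ℕ) (h : List S) (A : Finset ι),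
    Yf e K ok j h u (A.map f) =
      Yf e K (fun j B => ok j (B.map f)) j h (fun l B => u l (B.map f)) A
  | 0, _, _ => rfl
  | j + 1, h, A => by
    simp only [Yf]
    rw [lamS_map]
    congr 1
    funext B
    rw [sum_congr rfl fun s _ => by rw [Yf_map e K f ok u j (s :: h) B]]

theorem Yf_empty {S : Type} [Fintype S] (e : ℕ → ℝ) (K : Ker S) (ok : ℕ → Finset ι → ℝ)
    {u : List S → Finset ι → ℝ} (hu : ∀ l, u l ∅ = 0) : ∀ (j : ℕ) (h : List S),
    Yf e K ok j h u ∅ = 0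
  | 0, h => hu h
  | _ + 1, _ => lamS_empty _ _ _

theorem Yf_congr_ok {S : Type} [Fintype S] (e : ℕ → ℝ) (K : Ker S) {ok ok' : ℕ → Finset ι → ℝ}
    (u : List S → Finset ι → ℝ) : ∀ (j : ℕ), (∀ i < j, ok i = ok' i) → ∀ (h : List S),
    Yf e K ok j h u = Yf e K ok' j h u
  | 0, _, _ => rfl
  | j + 1, hj, h => by
    simp only [Yf]
    rw [hj j (Nat.lt_succ_self j)]
    simp only [Yf_congr_ok e K u j (fun i hi => hj i (Nat.lt_succ_of_lt hi))]

end cp

section shapes
variable {ι : Type} [DecidableEq ι]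

theorem mem_foldr_lv {j : ℕ} (l : List (Sh ι j)) (x : ι) :
    x ∈ l.foldr (fun t acc => lv j t ∪ acc) ∅ ↔ ∃ t ∈ l, x ∈ lv j t := by
  induction l with
  | nil => simp
  | cons t l ih => simp [ih]

theorem mem_lv_succ {j : ℕ} (t : Sh ι (j + 1)) (x : ι) :
    x ∈ lv (j + 1) t ↔ ∃ t' ∈ kids t, x ∈ lv j t' := mem_foldr_lv _ x

theorem lv_kid_subset {j : ℕ} {t : Sh ι (j + 1)} {t' : Sh ι j} (h : t' ∈ kids t) :
    lv j t' ⊆ lv (j + 1) t := fun x hx => (mem_lv_succ t x).2 ⟨t', h, hx⟩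

theorem WF.nonempty : ∀ {j : ℕ} {t : Sh ι j}, WF j t → (lv j t).Nonempty
  | 0, q, _ => ⟨q, mem_singleton_self (α := ι) q⟩
  | j + 1, t, h => by
    obtain ⟨t', ht'⟩ := List.exists_mem_of_ne_nil _ h.1
    obtain ⟨x, hx⟩ := WF.nonempty (h.2.1 t' ht')
    exact ⟨x, lv_kid_subset ht' hx⟩

theorem WF.eq_or_disjoint {j : ℕ} {t : Sh ι (j + 1)} (h : WF (j + 1) t) {t1 t2 : Sh ι j}
    (h1 : t1 ∈ kids t) (h2 : t2 ∈ kids t) : t1 = t2 ∨ Disjoint (lv j t1) (lv j t2) := by
  have hp : (kids t).Pairwise fun a b => a = b ∨ Disjoint (lv j a) (lv j b) :=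
    h.2.2.imp fun h => Or.inr h
  have : Std.Symm (fun a b : Sh ι j => a = b ∨ Disjoint (lv j a) (lv j b)) :=
    ⟨fun a b h => Or.elim h (fun h => Or.inl h.symm) fun h => Or.inr h.symm⟩
  exact List.Pairwise.forall_of_forall (R := fun a b => a = b ∨ Disjoint (lv j a) (lv j b))
    (fun a _ => Or.inl rfl) hp h1 h2

theorem WF.nodup {j : ℕ} {t : Sh ι (j + 1)} (h : WF (j + 1) t) :
    ((kids t).map (lv j)).Nodup := by
  rw [List.Nodup, List.pairwise_map]
  refine List.Pairwise.imp_of_mem (fun {a b} ha _ hab heq => ?_) h.2.2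
  obtain ⟨x, hx⟩ := (h.2.1 a ha).nonempty
  exact disjoint_left.1 hab hx (heq ▸ hx)

/-- The leaf sets of the subshapes of depth `j'`. -/
def blk : (j : ℕ) → Sh ι j → ℕ → Finset (Finset ι)
  | 0, _, _ => ∅
  | j + 1, t, j' => if j' = j then ((kids t).map (lv j)).toFinset
      else (kids t).foldr (fun t' acc => blk j t' j' ∪ acc) ∅

theorem mem_blk_succ {j j' : ℕ} (h : j' ≠ j) (t : Sh ι (j + 1)) (B : Finset ι) :
    B ∈ blk (j + 1) t j' ↔ ∃ t' ∈ kids t, B ∈ blk j t' j' := by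
  simp only [blk, if_neg h]
  induction kids t with
  | nil => simp
  | cons a l ih => simp [ih]

theorem blk_subset : ∀ {j : ℕ} {t : Sh ι j} {j' : ℕ} {B : Finset ι}, B ∈ blk j t j' → B ⊆ lv j t
  | 0, _, _, _, h => by simp [blk] at h
  | j + 1, t, j', B, h => by
    by_cases hj : j' = j
    · simp only [blk, if_pos hj, List.mem_toFinset, List.mem_map] at h
      obtain ⟨t', ht', rfl⟩ := h
      exact lv_kid_subset ht'
    · obtain ⟨t', ht', hB⟩ := (mem_blk_succ hj t B).1 h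
      exact (blk_subset hB).trans (lv_kid_subset ht')

/-- `π` selects the blocks of `t`. -/
def Fit (π : ℕ → Finset (Finset ι)) (j : ℕ) (t : Sh ι j) : Prop :=
  ∀ j' < j, ∀ B ⊆ lv j t, B.Nonempty → (B ∈ π j' ↔ B ∈ blk j t j')

theorem Fit.kid {π : ℕ → Finset (Finset ι)} {j : ℕ} {t : Sh ι (j + 1)} (h : Fit π (j + 1) t)
    (hw : WF (j + 1) t) {t' : Sh ι j} (ht' : t' ∈ kids t) : Fit π j t' := by
  intro j' hj' B hB hne
  rw [h j' (by omega) B (hB.trans (lv_kid_subset ht')) hne, mem_blk_succ (by omega)]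
  refine ⟨fun ⟨t'', ht'', hB'⟩ => ?_, fun hB' => ⟨t', ht', hB'⟩⟩
  rcases hw.eq_or_disjoint ht' ht'' with rfl | hd
  · exact hB'
  · obtain ⟨x, hx⟩ := hne
    exact absurd (blk_subset hB' hx) (disjoint_left.1 hd (hB hx))

/-- The constant of the filter lemma. -/
noncomputable def cst (e : ℕ → ℝ) (ω : ℝ) : (j : ℕ) → Sh ι j → ℝ
  | 0, _ => 1
  | j + 1, t => gam (e (j + 1)) (e j) (kids t).length * ((kids t).length.factorial : ℝ) *
      ((kids t).map fun t' => ω * cst e ω j t').prod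

theorem Yf_filter [Fintype ι] {S : Type} [Fintype S] (e : ℕ → ℝ) (K : Ker S)
    (π : ℕ → Finset (Finset ι)) (j0 : ℕ) (F : ι → List S → ℝ) :
    ∀ (j : ℕ) (t : Sh ι j), j ≤ j0 → WF j t → Fit π j t → ∀ h : List S,
      Yf e K (okF π j0) j h (sing F) (lv j t) =
        cst e (2 ^ Fintype.card ι : ℝ)⁻¹ j t * ev K F j t h
  | 0, q, _, _, _, h => by
    have : ∀ q : ι, sing F h ({q} : Finset ι) = 1 * F q h := fun q => by simp [sing]
    exact this q
  | j + 1, t, hj, hw, hf, h => by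
    simp only [Yf]
    have hmem : ∀ B, B ∈ ((kids t).map (lv j)).toFinset ↔ ∃ t' ∈ kids t, lv j t' = B := by
      intro B; simp
    rw [lamS_blocks (𝔅 := ((kids t).map (lv j)).toFinset)]
    · rw [List.toFinset_card_of_nodup hw.nodup, List.length_map, List.prod_toFinset _ hw.nodup,
        List.map_map]
      simp only [cst, ev]
      rw [mul_assoc (_ * _), ← List.prod_map_mul]
      congr 2
      refine List.map_congr_left fun t' ht' => ?_
      have hne := (hw.2.1 t' ht').nonempty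
      have hπ : lv j t' ∈ π j := by
        rw [hf j (Nat.lt_succ_self j) _ (lv_kid_subset ht') hne]
        simp only [blk, if_true]
        exact (hmem _).2 ⟨t', ht', rfl⟩
      simp only [Function.comp, okF, if_neg hne.ne_empty, if_pos (show j < j0 by omega), if_pos hπ]
      rw [sum_congr rfl fun s _ => by
        rw [Yf_filter e K π j0 F j t' (by omega) (hw.2.1 t' ht') (hf.kid hw ht') (s :: h)]]
      rw [mul_assoc]
      congr 1
      rw [mul_sum]
      exact sum_congr rfl fun s _ => by ring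
    · obtain ⟨t', ht'⟩ := List.exists_mem_of_ne_nil _ hw.1
      exact ⟨_, (hmem _).2 ⟨t', ht', rfl⟩⟩
    · intro B hB
      obtain ⟨t', ht', rfl⟩ := (hmem B).1 hB
      exact (hw.2.1 t' ht').nonempty
    · intro B hB B' hB' hne
      obtain ⟨t', ht', rfl⟩ := (hmem B).1 hB
      obtain ⟨t'', ht'', rfl⟩ := (hmem B').1 hB'
      rcases hw.eq_or_disjoint ht' ht'' with rfl | hd
      · exact absurd rfl hne
      · exact hd
    · ext x
      simp only [mem_biUnion, hmem, id, mem_lv_succ]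
      constructor
      · rintro ⟨_, ⟨t', ht', rfl⟩, hx⟩; exact ⟨t', ht', hx⟩
      · rintro ⟨t', ht', hx⟩; exact ⟨_, ⟨t', ht', rfl⟩, hx⟩
    · intro B hB hB'
      by_cases hne : B = ∅
      · subst hne
        rw [sum_congr rfl fun s _ => by rw [Yf_empty e K _ (fun l => by simp [sing])]]
        simp
      · have hπ : B ∉ π j := by
          rw [hf j (Nat.lt_succ_self j) _ hB (nonempty_iff_ne_empty.2 hne)]
          simpa only [blk, if_true] using hB'
        simp only [okF, if_neg hne, if_pos (show j < j0 by omega), if_neg hπ, zero_mul]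

theorem exists_cst_lower [Fintype ι] {R : ℕ} {ω : ℝ} (hω : 0 < ω) :
    ∀ j < R, ∃ c > 0, ∀ t : Sh ι j, WF j t → c ≤ cst (eU R) ω j t := by
  intro j
  induction j with
  | zero => exact fun _ => ⟨1, one_pos, fun _ _ => le_rfl⟩
  | succ j ih =>
    intro hj
    obtain ⟨c, hc, h⟩ := ih (by omega)
    have hR : (0 : ℝ) < R := by exact_mod_cast (show 0 < R by omega)
    have ha : 0 ≤ eU R (j + 1) := by
      unfold eU
      have : ((j + 1 : ℕ) : ℝ) ≤ R := by exact_mod_cast hj.le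
      exact div_nonneg (by linarith) hR.le
    have hlt : eU R (j + 1) < eU R j := by
      unfold eU; push_cast
      exact div_lt_div_of_pos_right (by linarith) hR
    set n := Fintype.card (Finset ι)
    obtain ⟨g, hg, hg'⟩ : ∃ g > 0, ∀ κ ∈ Icc 1 n, g ≤ gam (eU R (j + 1)) (eU R j) κ := by
      by_cases hn : (Icc 1 n).Nonempty
      · obtain ⟨κ, hκ, hm⟩ := exists_min_image (Icc 1 n) (gam (eU R (j + 1)) (eU R j)) hn
        exact ⟨_, gam_pos ha hlt (mem_Icc.1 hκ).1, hm⟩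
      · exact ⟨1, one_pos, fun κ hκ => absurd ⟨κ, hκ⟩ hn⟩
    set b := min 1 (ω * c) with hb
    have hb0 : 0 < b := lt_min one_pos (mul_pos hω hc)
    refine ⟨g * b ^ n, by positivity, fun t ht => ?_⟩
    have hlen : (kids t).length ≤ n := by
      have := ht.nodup.length_le_card
      rwa [List.length_map] at this
    have hpos : 1 ≤ (kids t).length := List.length_pos_iff.2 ht.1
    have h1 : b ^ n ≤ ((kids t).map fun t' => ω * cst (eU R) ω j t').prod := by
      refine (pow_le_pow_of_le_one hb0.le (min_le_left _ _) hlen).trans ?_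
      have : ∀ l : List (Sh ι j), (∀ t' ∈ l, WF j t') →
          b ^ l.length ≤ (l.map fun t' => ω * cst (eU R) ω j t').prod := by
        intro l
        induction l with
        | nil => simp
        | cons a l ih' =>
          intro hl
          rw [List.length_cons, List.map_cons, List.prod_cons, pow_succ']
          refine mul_le_mul ((min_le_right _ _).trans ?_) (ih' fun t' ht' => hl t' (by simp [ht']))
            (by positivity) ?_
          · exact mul_le_mul_of_nonneg_left (h a (hl a (by simp))) hω.le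
          · exact mul_nonneg hω.le (hc.le.trans (h a (hl a (by simp))))
      exact this _ ht.2.1
    have h2 := hg' _ (mem_Icc.2 ⟨hpos, hlen⟩)
    have h3 : (1 : ℝ) ≤ ((kids t).length.factorial : ℝ) := by
      exact_mod_cast Nat.one_le_iff_ne_zero.2 (Nat.factorial_ne_zero _)
    simp only [cst]
    refine mul_le_mul ?_ h1 (by positivity) (mul_nonneg (hg.le.trans h2) (by positivity))
    nlinarith

end shapes

end Crest.Agent.H9.MP
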