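import Crest.Agent.H9.MP.T2a

/-! MP-T2b: decoupling of one label, summed over shapes. -/

/-
Sketch. Fix x, G. δ t ν = avg_i |phi(G f_i) - phi G * phi f_i|, Δ_j = Σ_A SS j A (t ↦ nodeE (R-1-j) (δ t)). For t = [t_1..t_κ] of depth j+1,
phi F t ν = Σ_s P h s0 s Π_k Q(phi F t_k (s::h)) with Q = K (s::h) over s0' (IsCond). κ = 1: δ [t1] ≤ step (δ t1) + unary_cov term.
κ ≥ 2: δ t ≤ Σ_k step (δ t_k) + 2 Σ_k avg_i √(V t_k i), V t i ν = step (phi_i t ^2) ν - (step (phi_i t) ν)^2 (three steps: replace phi(G f) by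
phi G phi f; Cov_Q ≤ √Var_Q; Cov_P of products ≤ √Var_P(Π) ≤ Σ √Var_P). Budget: gam κ ≤ 1/R for κ ≥ 2 (gam_le), all weights SS j B 1 = wt ≤ M(D)
(wt_le with ρ = 1/2), a_j = Σ_B SS j B (nodeE avg_i phi_i²) ≤ M', a_{j+1} ≤ ... : J_j := Σ_B SS j B (nodeE avg V) = a_j - (κ=1 part of a_{j+1}) ≤ a_j - a_{j+1} + C/R,
so Σ_j J_j ≤ C'. Then Δ_{j+1} ≤ (1 + C/R) Δ_j + C_R √η + (C/R) √(J_j), Δ_0 ≤ D √η (leaf_cov); Gronwall: Δ_{R-1} ≤ e^C (R C_R √η + C''/√R).
-/

set_option autoImplicit false

namespace Crest.Agent.H9.MP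

open Finset
open scoped BigOperators

section ns
variable {ι : Type} [Fintype ι] [DecidableEq ι] {e : ℕ → ℝ}

/-- The shape with the given subtrees. -/
def node {ι : Type} {j : ℕ} (ts : List (Sh ι j)) : Sh ι (j + 1) := ts

@[simp] theorem kids_node {ι : Type} {j : ℕ} (ts : List (Sh ι j)) : kids (node ts) = ts := rfl

omit [Fintype ι] in
theorem SS_succ (j : ℕ) (A : Finset ι) (Φ : List (Sh ι j) → ℝ) :
    SS e (j + 1) A (fun t => Φ (kids t)) =
      ∑ κ ∈ Icc 1 A.card, gam (e (j + 1)) (e j) κ * PP (SS e j) κ A Φ := rfl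

/-- Sum of `SS` over all leaf sets. -/
noncomputable def NS (e : ℕ → ℝ) (j : ℕ) (f : Sh ι j → ℝ) : ℝ := ∑ B : Finset ι, SS e j B f

omit [Fintype ι] in
theorem SS_zero (j : ℕ) (A : Finset ι) : SS e j A (fun _ => 0) = 0 := by
  simpa using SS_const_mul (e := e) j A 0 (fun _ => 0)

omit [Fintype ι] in
theorem SS_nonneg {R : ℕ} (he : Exps e R) {j : ℕ} (hj : j ≤ R) (A : Finset ι) {f : Sh ι j → ℝ}
    (hf : ∀ t, WF j t → 0 ≤ f t) : 0 ≤ SS e j A f :=
  (SS_zero j A).symm.le.trans (SS_mono he hj A fun t ht _ => hf t ht)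

theorem NS_mono {R : ℕ} (he : Exps e R) {j : ℕ} (hj : j ≤ R) {f g : Sh ι j → ℝ}
    (h : ∀ t, WF j t → f t ≤ g t) : NS e j f ≤ NS e j g :=
  sum_le_sum fun B _ => SS_mono he hj B fun t ht _ => h t ht

theorem NS_nonneg {R : ℕ} (he : Exps e R) {j : ℕ} (hj : j ≤ R) {f : Sh ι j → ℝ}
    (hf : ∀ t, WF j t → 0 ≤ f t) : 0 ≤ NS e j f := sum_nonneg fun B _ => SS_nonneg he hj B hf

theorem SS_le_NS {R : ℕ} (he : Exps e R) {j : ℕ} (hj : j ≤ R) (A : Finset ι) {f : Sh ι j → ℝ}
    (hf : ∀ t, WF j t → 0 ≤ f t) : SS e j A f ≤ NS e j f :=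
  single_le_sum (f := fun B => SS e j B f) (fun B _ => SS_nonneg he hj B hf) (mem_univ A)

theorem NS_add (j : ℕ) (f g : Sh ι j → ℝ) :
    NS e j (fun t => f t + g t) = NS e j f + NS e j g := by
  simp only [NS, SS_add, sum_add_distrib]

theorem NS_const_mul (j : ℕ) (c : ℝ) (f : Sh ι j → ℝ) :
    NS e j (fun t => c * f t) = c * NS e j f := by
  simp only [NS, SS_const_mul, mul_sum]

theorem exists_NS_one_le : ∃ M : ℝ, 1 ≤ M ∧ ∀ (e : ℕ → ℝ) (R : ℕ), Exps e R → ∀ j ≤ R,
    NS (ι := ι) e j (fun _ => 1) ≤ M := by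
  refine ⟨1 + ∑ B : Finset ι, (B.card.factorial : ℝ) * 2 ^ B.card, ?_, fun e R he j hj => ?_⟩
  · exact le_add_of_nonneg_right (sum_nonneg fun _ _ => by positivity)
  · refine le_add_of_nonneg_of_le zero_le_one (sum_le_sum fun B _ => ?_)
    rw [SS_one]
    have h := wt_le he hj B.card (ρ := 1 / 2) (by norm_num) (by norm_num)
    have h2 : -Real.log (1 - 1 / 2) ≤ 1 := by
      rw [← Real.log_inv]; norm_num
      have := Real.log_two_lt_d9; linarith
    have h3 := h.trans h2
    rw [div_mul_eq_mul_div, div_le_one (by positivity), one_div, inv_pow,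
      mul_inv_le_iff₀ (by positivity)] at h3
    exact h3

theorem NS_const_le {M : ℝ} {j : ℕ} (hM : NS (ι := ι) e j (fun _ => 1) ≤ M) {c : ℝ}
    (hc : 0 ≤ c) : NS (ι := ι) e j (fun _ => c) ≤ c * M := by
  have := NS_const_mul (ι := ι) (e := e) j c (fun _ => 1)
  simp only [mul_one] at this
  rw [this]; exact mul_le_mul_of_nonneg_left hM hc

omit [Fintype ι] in
theorem PP_congr_len {α : Type} (rec : Finset ι → (α → ℝ) → ℝ) : ∀ (κ : ℕ) (A : Finset ι)
    {Φ Ψ : List α → ℝ}, (∀ ts, ts.length = κ → Φ ts = Ψ ts) → PP rec κ A Φ = PP rec κ A Ψ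
  | 0, A, Φ, Ψ, h => by simp only [PP, h [] rfl]
  | κ + 1, A, Φ, Ψ, h => by
    simp only [PP]
    refine sum_congr rfl fun B _ => ?_
    congr 1; funext t
    exact PP_congr_len rec κ _ fun ts hts => h _ (by simp [hts])

omit [Fintype ι] in
theorem PP_one (j : ℕ) (A : Finset ι) (Φ : List (Sh ι j) → ℝ) :
    PP (SS e j) 1 A Φ = SS e j A fun t => Φ [t] := by
  simp only [PP]
  rw [sum_eq_single A]
  · simp
  · intro B hB hne
    have : A \ B ≠ ∅ := fun h => hne (Subset.antisymm (mem_powerset.1 hB) (sdiff_eq_empty_iff_subset.1 h))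
    simp only [if_neg this]; exact SS_zero j B
  · intro h; exact absurd (mem_powerset_self A) h

theorem PP_sum_le {R : ℕ} (he : Exps e R) {j : ℕ} (hj : j ≤ R) {M : ℝ} (h1 : 1 ≤ M)
    (hM : NS (ι := ι) e j (fun _ => 1) ≤ M) {f : Sh ι j → ℝ} (hf : ∀ t, 0 ≤ f t) :
    ∀ (κ : ℕ) (A : Finset ι) (c : ℝ), 0 ≤ c →
      PP (SS e j) κ A (fun ts => c + (ts.map f).sum) ≤ M ^ κ * (c + κ * NS e j f)
  | 0, A, c, hc => by simp only [PP]; split_ifs <;> simp [hc]
  | κ + 1, A, c, hc => by
    have hN : 0 ≤ NS e j f := NS_nonneg he hj fun t _ => hf t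
    have hMκ : 0 ≤ M ^ κ := by positivity
    simp only [PP]
    calc _ ≤ ∑ B ∈ A.powerset, SS e j B (fun t => M ^ κ * ((c + κ * NS e j f) + f t)) := by
          refine sum_le_sum fun B _ => SS_mono he hj B fun t _ _ => ?_
          have := PP_sum_le he hj h1 hM hf κ (A \ B) (c + f t) (add_nonneg hc (hf t))
          simp only [List.map_cons, List.sum_cons, ← add_assoc]
          refine this.trans (le_of_eq (by ring))
      _ ≤ NS e j (fun t => M ^ κ * ((c + κ * NS e j f) + f t)) :=
          sum_le_sum_of_subset_of_nonneg (subset_univ _) fun B _ _ => SS_nonneg he hj B fun t _ =>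
            mul_nonneg hMκ (add_nonneg (by positivity) (hf t))
      _ ≤ M ^ κ * ((c + κ * NS e j f) * M + NS e j f) := by
          rw [NS_const_mul, NS_add]
          exact mul_le_mul_of_nonneg_left (add_le_add (NS_const_le hM (by positivity))
            le_rfl) hMκ
      _ ≤ _ := by
          rw [pow_succ, mul_assoc]
          refine mul_le_mul_of_nonneg_left ?_ hMκ
          push_cast; nlinarith

theorem NS_split {R : ℕ} (he : Exps e R) {j : ℕ} (hj : j + 1 ≤ R) {M : ℝ} (h1 : 1 ≤ M)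
    (hM : NS (ι := ι) e j (fun _ => 1) ≤ M) {γ : ℝ} (hγ : e j - e (j + 1) ≤ γ)
    {Ψ : Sh ι (j + 1) → ℝ} {u f : Sh ι j → ℝ} {c : ℝ} (hc : 0 ≤ c) (hf : ∀ t, 0 ≤ f t)
    (hu0 : ∀ t, WF j t → 0 ≤ u t) (hu : ∀ t, WF j t → Ψ (node [t]) ≤ u t)
    (hΨ : ∀ t, WF (j + 1) t → Ψ t ≤ c + ((kids t).map f).sum) :
    NS e (j + 1) Ψ ≤ NS e j u + γ * ((2 ^ Fintype.card ι * (Fintype.card ι + 1) ^ 2 *
      M ^ Fintype.card ι) * (c + NS e j f)) := by
  have hN : 0 ≤ NS e j f := NS_nonneg he (by omega) fun t _ => hf t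
  have ha0 : 0 ≤ e (j + 1) := by
    rcases Nat.lt_or_ge (j + 1) R with h | h
    · exact (he.pos' _ h).le
    · rw [show j + 1 = R by omega, he.top]
  have ha : e (j + 1) ≤ e j := by
    rcases Nat.lt_or_ge (j + 1) R with h | h
    · exact he.anti j h
    · rw [show j + 1 = R by omega, he.top]; exact (he.pos' _ (by omega)).le
  have hγ0 : 0 ≤ γ := by linarith
  set n := Fintype.card ι
  have key : ∀ A : Finset ι, SS e (j + 1) A Ψ ≤
      SS e j A u + γ * ((n + 1) ^ 2 * M ^ n * (c + NS e j f)) := by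
    intro A
    classical
    refine (SS_mono he hj A (Ψ := fun t => if (kids t).length = 1 then ((kids t).map u).sum
      else c + ((kids t).map f).sum) fun t ht _ => ?_).trans ?_
    · split_ifs with h
      · obtain ⟨t1, h1⟩ := List.length_eq_one_iff.1 h
        have h2 : t = node [t1] := h1
        rw [h1, h2]
        simpa using hu t1 (ht.2.1 t1 (by rw [h1]; simp))
      · exact hΨ t ht
    rw [SS_succ j A (fun ts => if ts.length = 1 then (ts.map u).sum else c + (ts.map f).sum)]
    calc _ ≤ ∑ κ ∈ Icc 1 A.card, ((if κ = 1 then SS e j A u else 0) +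
          γ * ((n + 1) * M ^ n * (c + NS e j f))) := by
          refine sum_le_sum fun κ hκ => ?_
          obtain ⟨hκ1, hκ2⟩ := mem_Icc.1 hκ
          split_ifs with h
          · subst h
            rw [gam_one, one_mul, PP_one]
            simp only [List.length_singleton, if_true, List.map_singleton,
              List.sum_singleton]
            exact le_add_of_nonneg_right (by positivity)
          · rw [zero_add, PP_congr_len (SS e j) κ A (Ψ := fun ts => c + (ts.map f).sum)
              (fun ts hts => by simp only [hts, if_neg h])]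
            have hκn : κ ≤ n := hκ2.trans (card_le_univ A)
            have b1 := PP_sum_le he (by omega) h1 hM hf κ A c hc
            have b2 : M ^ κ ≤ M ^ n := pow_le_pow_right₀ h1 hκn
            have b3 : (κ : ℝ) ≤ n := by exact_mod_cast hκn
            have b4 := gam_le ha0 ha (he.le_one j (by omega)) (show 2 ≤ κ by omega)
            have b5 := gam_nonneg ha0 ha κ
            calc _ ≤ gam (e (j + 1)) (e j) κ * (M ^ κ * (c + κ * NS e j f)) :=
                  mul_le_mul_of_nonneg_left b1 b5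
              _ ≤ _ := by
                  refine mul_le_mul (b4.trans hγ) ?_ (by positivity) hγ0
                  rw [mul_comm ((n : ℝ) + 1), mul_assoc]
                  refine mul_le_mul b2 ?_ (by positivity) (by positivity)
                  nlinarith
      _ ≤ _ := by
          rw [sum_add_distrib, sum_const, nsmul_eq_mul, Nat.card_Icc]
          refine add_le_add ?_ ?_
          · rw [sum_ite_eq']
            split_ifs
            · exact le_rfl
            · exact SS_nonneg he (by omega) A hu0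
          · have : ((A.card + 1 - 1 : ℕ) : ℝ) ≤ n + 1 := by
              have := card_le_univ A
              exact_mod_cast (by omega : A.card + 1 - 1 ≤ n + 1)
            calc _ ≤ (n + 1) * (γ * ((n + 1) * M ^ n * (c + NS e j f))) :=
                  mul_le_mul_of_nonneg_right this (by positivity)
              _ = _ := by ring
  refine (sum_le_sum fun A _ => key A).trans (le_of_eq ?_)
  rw [sum_add_distrib, sum_const, card_univ, Fintype.card_finset, nsmul_eq_mul]
  push_cast
  unfold NS; ring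

end ns

section rec
variable {ι S : Type} [Fintype S] {K : Ker S} {P : List S → S → S → ℝ}

theorem abs_list_prod_le_one : ∀ (l : List ℝ), (∀ x ∈ l, |x| ≤ 1) → |l.prod| ≤ 1
  | [], _ => by simp
  | a :: l, h => by
    rw [List.prod_cons, abs_mul]
    exact mul_le_one₀ (h a (by simp)) (abs_nonneg _)
      (abs_list_prod_le_one l fun x hx => h x (by simp [hx]))

theorem abs_list_prod_sub_le {α : Type} (a b : α → ℝ) (ha : ∀ x, |a x| ≤ 1) (hb : ∀ x, |b x| ≤ 1) :
    ∀ l : List α, |(l.map a).prod - (l.map b).prod| ≤ (l.map fun x => |a x - b x|).sum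
  | [] => by simp
  | x :: l => by
    simp only [List.map_cons, List.prod_cons, List.sum_cons]
    have h1 : |(l.map a).prod| ≤ 1 := abs_list_prod_le_one _ fun y hy => by
      obtain ⟨z, _, rfl⟩ := List.mem_map.1 hy; exact ha z
    calc _ = |(a x - b x) * (l.map a).prod + b x * ((l.map a).prod - (l.map b).prod)| := by
          congr 1; ring
      _ ≤ |a x - b x| + |(l.map a).prod - (l.map b).prod| := by
          refine (abs_add_le _ _).trans (add_le_add ?_ ?_) <;> rw [abs_mul]
          · exact mul_le_of_le_one_right (abs_nonneg _) h1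
          · exact mul_le_of_le_one_left (abs_nonneg _) (hb x)
      _ ≤ _ := add_le_add le_rfl (abs_list_prod_sub_le a b ha hb l)

theorem abs_wsum_le {X : Type} [Fintype X] {w : X → ℝ} (h0 : ∀ x, 0 ≤ w x) (u : X → ℝ) :
    |∑ x, w x * u x| ≤ ∑ x, w x * |u x| :=
  (abs_sum_le_sum_abs _ _).trans (sum_le_sum fun x _ => by rw [abs_mul, abs_of_nonneg (h0 x)])

theorem abs_wsum_le_of {X : Type} [Fintype X] {w : X → ℝ} (h0 : ∀ x, 0 ≤ w x) (h1 : ∑ x, w x = 1)
    {u : X → ℝ} {c : ℝ} (hu : ∀ x, |u x| ≤ c) : |∑ x, w x * u x| ≤ c := by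
  refine (abs_wsum_le h0 u).trans ((sum_le_sum fun x _ =>
    mul_le_mul_of_nonneg_left (hu x) (h0 x)).trans (le_of_eq ?_))
  rw [← sum_mul, h1, one_mul]

theorem abs_ev_le_one (hK : IsKer K) {F : ι → List S → ℝ} (hF : ∀ q l, |F q l| ≤ 1) :
    ∀ (j : ℕ) (t : Sh ι j) (h : List S), |ev K F j t h| ≤ 1
  | 0, q, h => hF q h
  | j + 1, t, h => abs_list_prod_le_one _ fun y hy => by
    obtain ⟨z, _, rfl⟩ := List.mem_map.1 hy
    exact abs_wsum_le_of (hK.1 h) (hK.2 h) fun s => abs_ev_le_one hK hF j z _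

theorem abs_phi_le_one (hK : IsKer K) (hP : IsCond K P) {F : ι → List S → ℝ}
    (hF : ∀ q l, |F q l| ≤ 1) (j : ℕ) (t : Sh ι j) (h : List S) (s0 : S) :
    |phi K P F j t h s0| ≤ 1 :=
  abs_wsum_le_of (hP.1 h s0) (hP.2.1 h s0) fun _ => abs_ev_le_one hK hF j t _

theorem phi_succ (hP : IsCond K P) (F : ι → List S → ℝ) (j : ℕ) (t : Sh ι (j + 1)) (h : List S)
    (s0 : S) : phi K P F (j + 1) t h s0 = ∑ s, P h s0 s *
      ((kids t).map fun t' => ∑ s0', K (s :: h) s0' * phi K P F j t' (s :: h) s0').prod := by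
  simp only [phi, hP.sum_eq, ev]

theorem phi_single (hP : IsCond K P) (F : ι → List S → ℝ) (j : ℕ) (t : Sh ι j) (h : List S)
    (s0 : S) : phi K P F (j + 1) (node [t]) h s0 = step K P (phi K P F j t) h s0 := by
  rw [phi_succ hP]; simp [step]

theorem abs_cov_le {X : Type} [Fintype X] {w : X → ℝ} (h0 : ∀ x, 0 ≤ w x) (h1 : ∑ x, w x = 1)
    {g : X → ℝ} (hg : ∀ x, |g x| ≤ 1) (u : X → ℝ) (m : ℝ) :
    |∑ x, w x * (g x * u x) - (∑ x, w x * g x) * ∑ x, w x * u x| ≤ 2 * ∑ x, w x * |u x - m| := by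
  have hm := abs_wsum_le_of h0 h1 hg
  have : ∑ x, w x * (g x * u x) - (∑ x, w x * g x) * ∑ x, w x * u x =
      ∑ x, w x * ((g x - ∑ x, w x * g x) * (u x - m)) := by
    generalize hG : ∑ x, w x * g x = G
    have : ∑ x, w x * ((g x - G) * (u x - m)) = ∑ x, w x * (g x * u x) - G * ∑ x, w x * u x -
        m * ∑ x, w x * g x + G * m * ∑ x, w x := by
      simp only [mul_sum, ← sum_sub_distrib, ← sum_add_distrib]
      exact sum_congr rfl fun _ _ => by ring
    rw [this, hG, h1]; ring
  rw [this, mul_sum]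
  refine (abs_wsum_le h0 _).trans (sum_le_sum fun x _ => ?_)
  rw [abs_mul, mul_left_comm 2]
  refine mul_le_mul_of_nonneg_left (mul_le_mul_of_nonneg_right ?_ (abs_nonneg _)) (h0 x)
  have := hg x
  exact (abs_sub _ _).trans (by linarith)

theorem list_sum_comm {α X : Type} [Fintype X] (w : X → ℝ) (f : α → X → ℝ) : ∀ l : List α,
    ∑ x, w x * (l.map fun a => f a x).sum = (l.map fun a => ∑ x, w x * f a x).sum
  | [] => by simp
  | a :: l => by simp only [List.map_cons, List.sum_cons, mul_add, sum_add_distrib, list_sum_comm w f l]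

theorem step_mono (hK : IsKer K) (hP : IsCond K P) {F G : List S → S → ℝ}
    (hFG : ∀ l s, F l s ≤ G l s) (h : List S) (s0 : S) : step K P F h s0 ≤ step K P G h s0 := by
  simp only [step_eq]
  exact sum_le_sum fun x _ => mul_le_mul_of_nonneg_left (hFG _ _) (stepW_nonneg hK hP h s0 x)

/-- The branching step for one site. -/
theorem branch_point (hK : IsKer K) (hP : IsCond K P) {F G : ι → List S → ℝ}
    (hF : ∀ q l, |F q l| ≤ 1) (hG : ∀ q l, |G q l| ≤ 1) (j : ℕ) (t : Sh ι (j + 1)) (h : List S)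
    (s0 : S) {lam : ℝ} (hl : 0 < lam) :
    |phi K P (fun q l => G q l * F q l) (j + 1) t h s0 -
        phi K P G (j + 1) t h s0 * phi K P F (j + 1) t h s0| ≤
      ((kids t).map fun t' => step K P (fun l s => |phi K P (fun q l => G q l * F q l) j t' l s -
          phi K P G j t' l s * phi K P F j t' l s|) h s0 +
        (2 * lam * (step K P (fun l s => phi K P F j t' l s ^ 2) h s0 -
          step K P (phi K P F j t') h s0 ^ 2) + 2 / lam)).sum := by
  have hGF : ∀ q l, |G q l * F q l| ≤ 1 := fun q l => by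
    rw [abs_mul]; exact mul_le_one₀ (hG q l) (abs_nonneg _) (hF q l)
  simp only [phi_succ hP]
  set a : Sh ι j → S → ℝ := fun t' s =>
    ∑ s0', K (s :: h) s0' * phi K P (fun q l => G q l * F q l) j t' (s :: h) s0'
  set b : Sh ι j → S → ℝ := fun t' s => ∑ s0', K (s :: h) s0' * phi K P G j t' (s :: h) s0'
  set c : Sh ι j → S → ℝ := fun t' s => ∑ s0', K (s :: h) s0' * phi K P F j t' (s :: h) s0'
  set m : Sh ι j → ℝ := fun t' => step K P (phi K P F j t') h s0
  set dev : Sh ι j → S → ℝ := fun t' s =>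
    ∑ s0', K (s :: h) s0' * |phi K P F j t' (s :: h) s0' - m t'|
  set dl : Sh ι j → S → ℝ := fun t' s => ∑ s0', K (s :: h) s0' *
    |phi K P (fun q l => G q l * F q l) j t' (s :: h) s0' -
      phi K P G j t' (s :: h) s0' * phi K P F j t' (s :: h) s0'|
  have ha : ∀ t' s, |a t' s| ≤ 1 := fun t' s =>
    abs_wsum_le_of (hK.1 _) (hK.2 _) fun _ => abs_phi_le_one hK hP hGF _ _ _ _
  have hb : ∀ t' s, |b t' s| ≤ 1 := fun t' s =>
    abs_wsum_le_of (hK.1 _) (hK.2 _) fun _ => abs_phi_le_one hK hP hG _ _ _ _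
  have hc : ∀ t' s, |c t' s| ≤ 1 := fun t' s =>
    abs_wsum_le_of (hK.1 _) (hK.2 _) fun _ => abs_phi_le_one hK hP hF _ _ _ _
  have hm : ∀ t', |m t'| ≤ 1 := fun t' =>
    abs_wsum_le_of (hP.1 _ _) (hP.2.1 _ _) fun s => hc t' s
  have h1 : ∀ t' s, |a t' s - b t' s * c t' s| ≤ dl t' s + 2 * dev t' s := by
    intro t' s
    have e1 := abs_cov_le (hK.1 (s :: h)) (hK.2 _)
      (fun s0' => abs_phi_le_one hK hP hG j t' (s :: h) s0') (phi K P F j t' (s :: h)) (m t')
    have e2 : |a t' s - ∑ s0', K (s :: h) s0' *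
        (phi K P G j t' (s :: h) s0' * phi K P F j t' (s :: h) s0')| ≤ dl t' s := by
      simp only [a, ← sum_sub_distrib, ← mul_sub]
      exact abs_wsum_le (hK.1 _) _
    exact (abs_sub_le _ _ _).trans (add_le_add e2 e1)
  have h2 : ∀ t' s, |c t' s - m t'| ≤ dev t' s := by
    intro t' s
    have : c t' s - m t' = ∑ s0', K (s :: h) s0' * (phi K P F j t' (s :: h) s0' - m t') := by
      simp only [mul_sub, sum_sub_distrib, ← sum_mul, hK.2, one_mul, c]
    rw [this]; exact abs_wsum_le (hK.1 _) _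
  have h3 : ∀ t', 4 * ∑ s, P h s0 s * dev t' s ≤
      2 * lam * (step K P (fun l s => phi K P F j t' l s ^ 2) h s0 - m t' ^ 2) + 2 / lam := by
    intro t'
    have e1 : ∑ s, P h s0 s * dev t' s =
        ∑ z : S × S, stepW K P h s0 z * |phi K P F j t' (z.1 :: h) z.2 - m t'| :=
      step_eq (fun l s => |phi K P F j t' l s - m t'|) h s0
    have e2 := cov_self_eq (sum_stepW hK hP h s0) (fun z => phi K P F j t' (z.1 :: h) z.2)
    rw [cov, ← step_eq (phi K P F j t'),
      ← step_eq (fun l s => phi K P F j t' l s * phi K P F j t' l s)] at e2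
    simp only [← sq] at e2
    rw [e1, e2, ← mul_one (2 / lam), ← sum_stepW hK hP h s0]
    simp only [mul_sum, ← sum_add_distrib]
    refine sum_le_sum fun z _ => ?_
    have hw := stepW_nonneg hK hP h s0 z
    change _ ≤ 2 * lam * (_ * (_ - m t') ^ 2) + _
    rw [← sq_abs]
    generalize |phi K P F j t' (z.1 :: h) z.2 - m t'| = y
    have : 4 * y ≤ 2 * lam * y ^ 2 + 2 / lam := by
      rw [← sub_nonneg]
      have : 2 * lam * y ^ 2 + 2 / lam - 4 * y = 2 * (lam * y - 1) ^ 2 / lam := by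
        field_simp; ring
      rw [this]; positivity
    nlinarith
  have e1 : |∑ s, P h s0 s * ((kids t).map fun t' => a t' s).prod -
      ∑ s, P h s0 s * (((kids t).map fun t' => b t' s).prod * ((kids t).map fun t' => c t' s).prod)|
      ≤ ∑ s, P h s0 s * ((kids t).map fun t' => dl t' s + 2 * dev t' s).sum := by
    simp only [← sum_sub_distrib, ← mul_sub]
    refine (abs_wsum_le (hP.1 _ _) _).trans (sum_le_sum fun s _ =>
      mul_le_mul_of_nonneg_left ?_ (hP.1 _ _ _))
    rw [← List.prod_map_mul]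
    refine (abs_list_prod_sub_le (fun t' => a t' s) (fun t' => b t' s * c t' s) (fun t' => ha t' s)
      (fun t' => ?_) _).trans (List.sum_le_sum fun t' _ => h1 t' s)
    rw [abs_mul]; exact mul_le_one₀ (hb _ _) (abs_nonneg _) (hc _ _)
  have e2 := abs_cov_le (hP.1 h s0) (hP.2.1 h s0) (g := fun s => ((kids t).map fun t' => b t' s).prod)
    (fun s => abs_list_prod_le_one _ fun y hy => by
      obtain ⟨z, _, rfl⟩ := List.mem_map.1 hy; exact hb z s)
    (fun s => ((kids t).map fun t' => c t' s).prod) ((kids t).map m).prod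
  have e3 : ∑ s, P h s0 s * |((kids t).map fun t' => c t' s).prod - ((kids t).map m).prod| ≤
      ∑ s, P h s0 s * ((kids t).map fun t' => dev t' s).sum :=
    sum_le_sum fun s _ => mul_le_mul_of_nonneg_left
      ((abs_list_prod_sub_le (fun t' => c t' s) m (fun t' => hc t' s) hm _).trans
        (List.sum_le_sum fun t' _ => h2 t' s)) (hP.1 _ _ _)
  refine (abs_sub_le _ _ _).trans ((add_le_add e1 (e2.trans
    (mul_le_mul_of_nonneg_left e3 zero_le_two))).trans ?_)
  rw [list_sum_comm, list_sum_comm, ← List.sum_map_mul_left, ← List.sum_map_add]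
  refine List.sum_le_sum fun t' _ => ?_
  have := h3 t'
  simp only [mul_add, sum_add_distrib, mul_left_comm _ (2 : ℝ), ← mul_sum]
  change ∑ s, P h s0 s * dl t' s + _ + _ ≤ ∑ s, P h s0 s * dl t' s + _
  linarith

/-- The unary step for one site. -/
theorem unary_step (hK : IsKer K) (hP : IsCond K P) (F G : ι → List S → ℝ) (j : ℕ) (t : Sh ι j)
    (h : List S) (s0 : S) :
    |phi K P (fun q l => G q l * F q l) (j + 1) (node [t]) h s0 -
        phi K P G (j + 1) (node [t]) h s0 * phi K P F (j + 1) (node [t]) h s0| ≤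
      step K P (fun l s => |phi K P (fun q l => G q l * F q l) j t l s -
          phi K P G j t l s * phi K P F j t l s|) h s0 +
        |step K P (fun l s => phi K P G j t l s * phi K P F j t l s) h s0 -
          step K P (phi K P G j t) h s0 * step K P (phi K P F j t) h s0| := by
  simp only [phi_single hP]
  refine (abs_sub_le _ _ _).trans (add_le_add ?_ le_rfl)
  simp only [step_eq, ← sum_sub_distrib, ← mul_sub]
  exact abs_wsum_le (stepW_nonneg hK hP h s0) _

theorem step_expect {I : Type} [Fintype I] (F : I → List S → S → ℝ) (h : List S) (s0 : S) :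
    𝔼 i, step K P (F i) h s0 = step K P (fun l s => 𝔼 i, F i l s) h s0 := by
  simp only [step_eq, mul_expect, expect_sum_comm]

theorem expect_list_sum {α I : Type} [Fintype I] (f : α → I → ℝ) : ∀ l : List α,
    𝔼 i, (l.map fun a => f a i).sum = (l.map fun a => 𝔼 i, f a i).sum
  | [] => by simp
  | a :: l => by simp only [List.map_cons, List.sum_cons, expect_add_distrib, expect_list_sum f l]

theorem nodeE_list_sum {α : Type} (hK : IsKer K) (n : ℕ) (f : α → List S → S → ℝ) : ∀ l : List α,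
    nodeE K n (fun h s => (l.map fun a => f a h s).sum) = (l.map fun a => nodeE K n (f a)).sum
  | [] => by simpa using nodeE_const hK n 0
  | a :: l => by simp only [List.map_cons, List.sum_cons, nodeE_add, nodeE_list_sum hK n f l]

end rec

theorem gronwall_sum {d b : ℕ → ℝ} {c : ℝ} (hc : 0 ≤ c) (hb : ∀ j, 0 ≤ b j) (h0 : 0 ≤ d 0) :
    ∀ n, (∀ j < n, d (j + 1) ≤ (1 + c) * d j + b j) →
      d n ≤ (1 + c) ^ n * (d 0 + ∑ j ∈ range n, b j)
  | 0, _ => by simp
  | n + 1, h => by
    have ih := gronwall_sum hc hb h0 n fun j hj => h j (by omega)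
    have h1 : 1 ≤ (1 + c) ^ (n + 1) := one_le_pow₀ (by linarith)
    calc d (n + 1) ≤ (1 + c) * ((1 + c) ^ n * (d 0 + ∑ j ∈ range n, b j)) + b n :=
          (h n (by omega)).trans (add_le_add (mul_le_mul_of_nonneg_left ih (by linarith)) le_rfl)
      _ ≤ _ := by
          rw [sum_range_succ, ← add_assoc, mul_add ((1 + c) ^ (n + 1)), pow_succ' (1 + c) n,
            ← mul_assoc]
          refine add_le_add le_rfl ?_
          rw [← pow_succ']; exact le_mul_of_one_le_left (hb n) h1

theorem abs_ind_le {ι S I : Type} (σ : I → List S → Bool) (x : ι → Bool) (i : I) (q : ι)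
    (l : List S) : |ind σ x i q l| ≤ 1 := by unfold ind; split_ifs <;> simp

theorem shape_bound {D R : ℕ} (hR : 0 < R) {M C Cu lam : ℝ} (h1 : 1 ≤ M) (hl : 0 < lam)
    (hM : ∀ j ≤ R, NS (ι := Fin D) (eU R) j (fun _ => 1) ≤ M)
    (hC : C = 2 ^ Fintype.card (Fin D) * (Fintype.card (Fin D) + 1) ^ 2 *
      M ^ Fintype.card (Fin D)) (hCu : 0 ≤ Cu)
    {S I : Type} [Fintype S] [Fintype I] [Nonempty I] {K : Ker S} {P : List S → S → S → ℝ}
    (σ : I → List S → Bool) (hK : IsKer K) (hP : IsCond K P) (x : Fin D → Bool)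
    {G : Fin D → List S → ℝ} (hG : ∀ q l, |G q l| ≤ 1) {η : ℝ} (hη : 0 ≤ η)
    (hleaf : √(Cerr D R K P σ) ≤ η)
    (hun : ∀ j : ℕ, j + 1 < R → ∀ t : Sh (Fin D) j, WF j t → ∀ g : List S → S → ℝ,
      (∀ l s, |g l s| ≤ 1) → nodeE K (R - 1 - (j + 1)) (fun h s0 => 𝔼 i : I,
      |step K P (fun l s => g l s * phi K P (ind σ x i) j t l s) h s0 -
        step K P g h s0 * step K P (phi K P (ind σ x i) j t) h s0|) ≤ Cu * η) :
    NS (eU R) (R - 1) (fun t => nodeE K 0 fun h s0 => 𝔼 i : I,
      |phi K P (fun q l => G q l * ind σ x i q l) (R - 1) t h s0 -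
        phi K P G (R - 1) t h s0 * phi K P (ind σ x i) (R - 1) t h s0|) ≤
      Real.exp C * (η * M + (R * (Cu * η * M) + C / R * (2 * lam * (M + C)) +
        C * (2 / lam * M))) := by
  have he := exps_eU hR
  have hR' : (0 : ℝ) < R := by exact_mod_cast hR
  have hC0 : 0 ≤ C := by rw [hC]; positivity
  have hγ : ∀ j, eU R j - eU R (j + 1) ≤ 1 / R := fun j => by
    unfold eU; push_cast; rw [← sub_div]; exact le_of_eq (by congr 1; ring)
  set δ : (j : ℕ) → Sh (Fin D) j → ℝ := fun j t => nodeE K (R - 1 - j) fun h s0 => 𝔼 i : I,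
    |phi K P (fun q l => G q l * ind σ x i q l) j t h s0 -
      phi K P G j t h s0 * phi K P (ind σ x i) j t h s0| with hδ
  set q2 : (j : ℕ) → Sh (Fin D) j → ℝ := fun j t => nodeE K (R - 1 - j) fun h s0 => 𝔼 i : I,
    phi K P (ind σ x i) j t h s0 ^ 2 with hq2
  set V : (j : ℕ) → Sh (Fin D) j → ℝ := fun j t => nodeE K (R - 1 - (j + 1)) fun h s0 => 𝔼 i : I,
    (step K P (fun l s => phi K P (ind σ x i) j t l s ^ 2) h s0 -
      step K P (phi K P (ind σ x i) j t) h s0 ^ 2) with hV
  have hδ0 : ∀ j t, 0 ≤ δ j t := fun j t =>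
    nodeE_nonneg hK _ fun _ _ => expect_nonneg fun _ _ => abs_nonneg _
  have hq0 : ∀ j t, 0 ≤ q2 j t := fun j t =>
    nodeE_nonneg hK _ fun _ _ => expect_nonneg fun _ _ => sq_nonneg _
  have hq1 : ∀ j t, q2 j t ≤ 1 := fun j t => by
    refine (nodeE_mono hK _ fun h s0 _ => ?_).trans (nodeE_const hK _ 1).le
    refine expect_le univ_nonempty fun i _ => ?_
    rw [← sq_abs]
    exact pow_le_one₀ (abs_nonneg _) (abs_phi_le_one hK hP (abs_ind_le σ x i) _ _ _ _)
  have hV0 : ∀ j t, 0 ≤ V j t := fun j t => by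
    refine nodeE_nonneg hK _ fun h s0 => expect_nonneg fun i _ => ?_
    have := cov_self_nonneg (stepW_nonneg hK hP h s0) (sum_stepW hK hP h s0)
      (fun z => phi K P (ind σ x i) j t (z.1 :: h) z.2)
    simpa only [cov, step_eq, ← sq] using this
  have hstep : ∀ j, j + 1 < R → ∀ F : List S → S → ℝ,
      nodeE K (R - 1 - (j + 1)) (step K P F) = nodeE K (R - 1 - j) F := fun j hj F => by
    rw [nodeE_step hP]; congr 1; omega
  have hVq : ∀ j, j + 1 < R → ∀ t, V j t + q2 (j + 1) (node [t]) = q2 j t := by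
    intro j hj t
    simp only [hV, hq2, phi_single hP]
    rw [← nodeE_add, ← hstep j hj]
    congr 1; funext h s0
    rw [← expect_add_distrib, ← step_expect]
    exact expect_congr rfl fun _ _ => by ring
  have hJ : ∀ j, j + 1 < R → NS (eU R) j (V j) ≤
      NS (eU R) j (q2 j) - NS (eU R) (j + 1) (q2 (j + 1)) + C / R := by
    intro j hj
    have a1 := NS_split he hj.le h1 (hM j (by omega)) (hγ j) (Ψ := q2 (j + 1))
      (u := fun t => q2 (j + 1) (node [t])) (f := fun _ => 0) zero_le_one (fun _ => le_rfl)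
      (fun _ _ => hq0 _ _) (fun _ _ => le_rfl) (fun t _ => by simpa using hq1 _ t)
    have a2 : NS (ι := Fin D) (eU R) j (fun _ => 0) = 0 := by simp [NS, SS_zero]
    rw [a2, ← hC, add_zero, mul_one] at a1
    have a3 := NS_add (e := eU R) j (V j) (fun t => q2 (j + 1) (node [t]))
    simp only [hVq j hj] at a3
    have : 1 / (R : ℝ) * C = C / R := by ring
    change NS (eU R) j (q2 j) = _ at a3
    linarith
  have hJsum : ∀ n, n < R → ∑ j ∈ range n, NS (eU R) j (V j) ≤
      NS (eU R) 0 (q2 0) - NS (eU R) n (q2 n) + n * (C / R) := by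
    intro n
    induction n with
    | zero => simp
    | succ n ih =>
      intro hn
      rw [sum_range_succ]
      have := ih (by omega)
      have := hJ n hn
      push_cast; linarith
  have hrec : ∀ j, j + 1 < R → NS (eU R) (j + 1) (δ (j + 1)) ≤ (1 + C / R) * NS (eU R) j (δ j) +
      (Cu * η * M + C / R * (2 * lam * NS (eU R) j (V j) + 2 / lam * M)) := by
    intro j hj
    have a1 := NS_split he hj.le h1 (hM j (by omega)) (hγ j) (Ψ := δ (j + 1))
      (u := fun t => δ j t + Cu * η) (f := fun t => δ j t + (2 * lam * V j t + 2 / lam)) le_rfl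
      (fun t => by have := hδ0 j t; have := hV0 j t; positivity)
      (fun t _ => by have := hδ0 j t; positivity) (fun t ht => ?_) (fun t _ => ?_)
    · rw [← hC, NS_add, NS_add, NS_add, NS_const_mul j (2 * lam), zero_add] at a1
      have b1 := NS_const_le (hM j (by omega)) (c := Cu * η) (by positivity)
      have b2 := NS_const_le (hM j (by omega)) (c := 2 / lam) (by positivity)
      have b3 : 1 / (R : ℝ) * (C * (NS (eU R) j (δ j) + (2 * lam * NS (eU R) j (V j) +
          NS (ι := Fin D) (eU R) j fun _ => 2 / lam))) ≤ C / R * (NS (eU R) j (δ j) +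
          (2 * lam * NS (eU R) j (V j) + 2 / lam * M)) := by
        rw [← mul_assoc, one_div_mul_eq_div]
        exact mul_le_mul_of_nonneg_left (by linarith) (by positivity)
      change NS (eU R) (j + 1) (δ (j + 1)) ≤ NS (eU R) j (δ j) + _ + _ at a1
      linarith
    · have b1 := hun j hj t ht (phi K P G j t) (abs_phi_le_one hK hP hG j t)
      refine le_trans ?_ (add_le_add le_rfl b1)
      simp only [hδ]
      rw [← hstep j hj, ← nodeE_add]
      refine nodeE_mono hK _ fun h s0 _ => ?_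
      rw [← step_expect, ← expect_add_distrib]
      exact expect_le_expect fun i _ => unary_step hK hP _ _ j t h s0
    · rw [zero_add]
      refine (nodeE_mono hK _ fun h s0 _ => expect_le_expect fun i _ =>
        branch_point hK hP (abs_ind_le σ x i) hG j t h s0 hl).trans (le_of_eq ?_)
      simp only [expect_list_sum]
      rw [nodeE_list_sum hK]
      congr 1
      refine List.map_congr_left fun t' _ => ?_
      simp only [expect_add_distrib, ← mul_expect, nodeE_add, nodeE_const_mul,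
        expect_const univ_nonempty, nodeE_const hK, step_expect, hδ, hV]
      rw [← hstep j hj]
  have hfin := gronwall_sum (d := fun j => NS (eU R) j (δ j)) (c := C / R)
    (b := fun j => if j ≤ R then
      Cu * η * M + C / R * (2 * lam * NS (eU R) j (V j) + 2 / lam * M) else 0) (by positivity)
    (fun j => by
      split_ifs with hj
      · have := NS_nonneg he hj fun t _ => hV0 j t
        positivity
      · exact le_rfl) (NS_nonneg he (Nat.zero_le _) fun t _ => hδ0 0 t) (R - 1)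
    (fun j hj => by rw [if_pos (by omega)]; exact hrec j (by omega))
  rw [sum_congr rfl fun j hj => if_pos (by have := mem_range.1 hj; omega)] at hfin
  have e0 : δ (R - 1) = fun t => nodeE K 0 fun h s0 => 𝔼 i : I,
      |phi K P (fun q l => G q l * ind σ x i q l) (R - 1) t h s0 -
        phi K P G (R - 1) t h s0 * phi K P (ind σ x i) (R - 1) t h s0| := by
    simp only [hδ, Nat.sub_self]
  rw [← e0]
  refine hfin.trans (mul_le_mul ?_ (add_le_add ?_ ?_) ?_ (Real.exp_pos _).le)
  · calc (1 + C / R) ^ (R - 1) ≤ Real.exp (C / R) ^ R := by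
          refine (pow_le_pow_right₀ (le_add_of_nonneg_right (by positivity)) (Nat.sub_le R 1)).trans ?_
          exact pow_le_pow_left₀ (by positivity) (by rw [add_comm]; exact Real.add_one_le_exp _) _
      _ = _ := by rw [← Real.exp_nat_mul]; congr 1; field_simp
  · refine (NS_mono he (Nat.zero_le _) (g := fun _ => η) fun q _ => ?_).trans
      (NS_const_le (hM 0 (Nat.zero_le _)) hη)
    exact (leaf_cov hR σ hK hP x q (G q) (hG q)).trans hleaf
  · have b1 := hJsum (R - 1) (by omega)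
    have b2 : NS (eU R) 0 (q2 0) ≤ M :=
      (NS_mono he (Nat.zero_le _) fun t _ => hq1 0 t).trans (hM 0 (Nat.zero_le _))
    have b3 := NS_nonneg he (Nat.sub_le R 1) fun t _ => hq0 (R - 1) t
    have b4 : ((R - 1 : ℕ) : ℝ) ≤ R := by exact_mod_cast Nat.sub_le R 1
    have b5 : ((R - 1 : ℕ) : ℝ) * (C / R) ≤ C := by
      calc _ ≤ R * (C / R) := mul_le_mul_of_nonneg_right b4 (by positivity)
        _ = C := by field_simp
    simp only [sum_add_distrib, mul_add (C / R), sum_const, card_range, nsmul_eq_mul, ← mul_sum]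
    rw [add_assoc]
    refine add_le_add (mul_le_mul_of_nonneg_right b4 (by positivity)) (add_le_add ?_ ?_)
    · exact mul_le_mul_of_nonneg_left (mul_le_mul_of_nonneg_left (by linarith) (by positivity))
        (by positivity)
    · rw [← mul_assoc]; exact mul_le_mul_of_nonneg_right b5 (by positivity)
  · refine add_nonneg (NS_nonneg he (Nat.zero_le _) fun t _ => hδ0 0 t) (sum_nonneg fun j hj => ?_)
    have := NS_nonneg he (show j ≤ R by have := mem_range.1 hj; omega) fun t _ => hV0 j t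
    positivity

theorem shape_decouple (D : ℕ) (ε : ℝ) (hε : 0 < ε) :
    ∃ R0 : ℕ, ∀ R, R0 ≤ R → 0 < R → ∃ η > 0, ∀ (S I : Type) [Fintype S] [Fintype I] [Nonempty I]
      (K : Ker S) (P : List S → S → S → ℝ) (σ : I → List S → Bool), IsKer K → IsCond K P →
      Cerr D R K P σ ≤ η → ∀ (x : Fin D → Bool) (G : Fin D → List S → ℝ), (∀ q l, |G q l| ≤ 1) →
      ∀ A : Finset (Fin D),
        SS (eU R) (R - 1) A (fun t => ∑ s0, K [] s0 * 𝔼 i : I,
          |phi K P (fun q l => G q l * ind σ x i q l) (R - 1) t [] s0 -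
            phi K P G (R - 1) t [] s0 * phi K P (ind σ x i) (R - 1) t [] s0|) ≤ ε := by
  obtain ⟨M, h1, hM⟩ := exists_NS_one_le (ι := Fin D)
  obtain ⟨C, hC⟩ : ∃ C : ℝ, C = 2 ^ Fintype.card (Fin D) * (Fintype.card (Fin D) + 1) ^ 2 *
      M ^ Fintype.card (Fin D) := ⟨_, rfl⟩
  have hC0 : 0 < C := by rw [hC]; positivity
  set ε' := ε / (3 * Real.exp C) with hε'
  have hε0 : 0 < ε' := by positivity
  set lam := 2 * C * M / ε' with hlam
  have hl : 0 < lam := by positivity
  obtain ⟨R0, hR0⟩ := exists_nat_ge (C * (2 * lam * (M + C)) / ε')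
  refine ⟨R0, fun R hR0' hR => ?_⟩
  have hR' : (0 : ℝ) < R := by exact_mod_cast hR
  obtain ⟨Cu, hCu, hun⟩ := unary_cov D R
  set η := ε' / (M + R * Cu * M) with hη
  have hη0 : 0 < η := by positivity
  refine ⟨η ^ 2, by positivity, fun S I _ _ _ K P σ hK hP hc x G hG A => ?_⟩
  have hs : √(Cerr D R K P σ) ≤ η := Real.sqrt_le_iff.2 ⟨hη0.le, hc⟩
  have key := shape_bound hR h1 hl (hM _ R (exps_eU hR)) hC hCu σ hK hP x hG hη0.le hs
    fun j hj t ht g hg => (hun S I K P σ hK hP x j hj t ht g hg).trans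
      (mul_le_mul_of_nonneg_left hs hCu)
  refine (SS_le_NS (exps_eU hR) (Nat.sub_le R 1) A fun t _ => sum_nonneg fun s0 _ =>
    mul_nonneg (hK.1 _ _) (expect_nonneg fun _ _ => abs_nonneg _)).trans (le_trans key ?_)
  have b1 : η * M + R * (Cu * η * M) = ε' := by
    rw [hη]; field_simp
  have b2 : C * (2 / lam * M) = ε' := by rw [hlam]; field_simp
  have b3 : C / R * (2 * lam * (M + C)) ≤ ε' := by
    have : (R0 : ℝ) ≤ R := by exact_mod_cast hR0'
    rw [div_mul_eq_mul_div, div_le_iff₀ hR', ← div_le_iff₀' hε0]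
    linarith
  calc _ ≤ Real.exp C * (3 * ε') := mul_le_mul_of_nonneg_left (by linarith) (Real.exp_pos _).le
    _ = ε := by rw [hε']; field_simp

end Crest.Agent.H9.MP
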