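import Crest.Agent.H9.MP.T3x

/-! MP-T3: finite differences of the additivity defect control the mixed coefficients. -/

/-
Sketch. κ = Fin D ⊕ Fin D. Möbius coefficients μ_B(F) = Σ_{B' ⊆ B} (-1)^{|B \ B'|} F(B') of F : Finset κ → ℝ. Jet ε C F y := ∀ B, |μ_B F - ε^|B| y B| ≤ C ε^(|B|+1) ∧ |y B| ≤ C.
Closed under averages, multiplication by filters, products (μ_B(FG) = Σ_{B1 ∪ B2 = B} μ_B1 F μ_B2 G; non disjoint pairs cost an extra ε; or prove by induction
on the number of directions), and Lam a a' when y ∅ = 0 = F ∅ (Taylor from hasSum_Lam truncated at N = card κ, |F| ≤ Cε, gam ≤ 1): Jet (Lam ∘ F) (lamS y), constants depend on (D, depth) only.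
Leaf: U(B) = 1 - gad s gad' s' (s = B.toLeft, s' = B.toRight) has μ_B = ε^|B| ξ^B sing2 B exactly, ξ^B = Π of the signs. On the tree mulK K unif,
Yf(trivial filter) H B = (Π_{levels j' ≥ depth, j' < j0} xs^B(z j')) * Yf (okF2) h B by induction (ξ^{B1 ⊔ B2} = ξ^B1 ξ^B2; avg_z Π_{q∈B} xs π z q = okF; j0 ≤ j+1).
-logT2 = Lam 0 (e j) (avg Y) (Y_eq). For A ≠ ∅, μ_{A ⊔ A}(-logT2) = μ_{A ⊔ A}(-Ddef) (functions of s only or s' only are killed), so
ε^(2|A|) |cdef| ≤ Σ_{s,s'} |Ddef s s'| + C ε^(2|A|+1); for A = ∅ cdef = 0. Sum up (ε ≤ 1).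
-/

set_option autoImplicit false

namespace Crest.Agent.H9.MP

open Finset Crest.ProbabilityR.Diluted
open scoped BigOperators

section signs
variable {ι : Type} [Fintype ι] [DecidableEq ι]

theorem sum_sign_prod (C1 C2 : Finset ι) :
    ∑ z : ι → Bool, (∏ q ∈ C1, spinVal (z q)) * ∏ q ∈ C2, spinVal (z q) =
      if C1 = C2 then 2 ^ Fintype.card ι else 0 := by
  have h1 : ∀ (C : Finset ι) (z : ι → Bool), ∏ q ∈ C, spinVal (z q) =
      ∏ q, if q ∈ C then spinVal (z q) else 1 := fun C z => by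
    rw [prod_ite_mem, univ_inter]
  simp only [h1, ← prod_mul_distrib]
  rw [← Fintype.piFinset_univ, ← prod_univ_sum (fun _ => univ)
    (fun q b => (if q ∈ C1 then spinVal b else 1) * if q ∈ C2 then spinVal b else 1)]
  split_ifs with h
  · subst h
    rw [← card_univ, ← prod_const]
    refine prod_congr rfl fun q _ => ?_
    by_cases hq : q ∈ C1 <;> simp [hq, spinVal] <;> norm_num
  · obtain ⟨q, hq⟩ : ∃ q, ¬(q ∈ C1 ↔ q ∈ C2) := by
      by_contra hc
      push Not at hc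
      exact h (Finset.ext hc)
    refine prod_eq_zero (mem_univ q) ?_
    by_cases h1 : q ∈ C1 <;> by_cases h2 : q ∈ C2 <;> simp_all [spinVal]

theorem abs_spinVal (b : Bool) : |spinVal b| = 1 := by cases b <;> simp [spinVal]

omit [Fintype ι] in
theorem abs_xs (π : Finset (Finset ι)) (z : Ax ι) (q : ι) : |xs π z q| = 1 := by
  unfold xs
  split_ifs <;> simp [abs_prod, abs_spinVal]

theorem sum_xs_aux (π : Finset (Finset ι)) (B z1 : Finset ι) :
    ∑ z2 : ι → Bool, ∏ q ∈ B, xs π (z1, z2) q =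
      if B = ∅ ∨ (z1 = B ∧ B ∈ π) then 2 ^ Fintype.card ι else 0 := by
  have h0 := sum_sign_prod B ∅
  simp only [prod_empty, mul_one] at h0
  by_cases h : z1 ∈ π ∧ z1.Nonempty
  · obtain ⟨q0, hq, hx⟩ : ∃ q0 ∈ z1, ∀ (z2 : ι → Bool) q, xs π (z1, z2) q =
        if q = q0 then ∏ q' ∈ z1.erase q, spinVal (z2 q') else spinVal (z2 q) :=
      ⟨h.2.choose, h.2.choose_spec, fun z2 q => by rw [xs, dif_pos h]⟩
    simp only [hx]
    by_cases hB : q0 ∈ B
    · have : ∀ z2 : ι → Bool, (∏ q ∈ B, if q = q0 then ∏ q' ∈ z1.erase q, spinVal (z2 q')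
          else spinVal (z2 q)) = (∏ q ∈ z1.erase q0, spinVal (z2 q)) *
          ∏ q ∈ B.erase q0, spinVal (z2 q) := by
        intro z2
        rw [← mul_prod_erase _ _ hB, if_pos rfl]
        congr 1
        exact prod_congr rfl fun q hq => if_neg (ne_of_mem_erase hq)
      simp only [this, sum_sign_prod]
      refine if_congr ⟨fun he => Or.inr ?_, ?_⟩ rfl rfl
      · have : z1 = B := by rw [← insert_erase hq, he, insert_erase hB]
        exact ⟨this, this ▸ h.1⟩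
      · rintro (rfl | ⟨rfl, _⟩)
        · simp at hB
        · rfl
    · rw [sum_congr rfl fun z2 _ => prod_congr rfl fun q hq' =>
        if_neg (ne_of_mem_of_not_mem hq' hB), h0]
      refine if_congr ⟨Or.inl, ?_⟩ rfl rfl
      rintro (h' | ⟨rfl, _⟩)
      exacts [h', absurd hq hB]
  · simp only [xs, dif_neg h]
    rw [h0]
    refine if_congr ⟨Or.inl, ?_⟩ rfl rfl
    rintro (h' | ⟨rfl, h'⟩)
    · exact h'
    · by_contra hc; exact h ⟨h', nonempty_iff_ne_empty.2 hc⟩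

theorem avg_xs (π : Finset (Finset ι)) (B : Finset ι) :
    ∑ z : Ax ι, (Fintype.card (Ax ι) : ℝ)⁻¹ * ∏ q ∈ B, xs π z q =
      if B = ∅ then 1 else if B ∈ π then (2 ^ Fintype.card ι : ℝ)⁻¹ else 0 := by
  rw [← mul_sum, Fintype.sum_prod_type]
  simp only [sum_xs_aux, Fintype.card_prod, Fintype.card_finset, Fintype.card_fun,
    Fintype.card_bool]
  push_cast
  split_ifs with h1 h2
  · simp [h1]; field_simp
  · simp only [h1, h2, false_or, and_true, sum_ite_eq', mem_univ, if_true]; field_simp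
  · simp [h1, h2]

/-- Signs of two gadgets. -/
noncomputable def xs2 (π : Finset (Finset ι)) (w : Ax ι × Ax ι) : ι ⊕ ι → ℝ :=
  Sum.elim (xs π w.1) (xs π w.2)

theorem avg_xs2 (π : ℕ → Finset (Finset ι)) {j0 j : ℕ} (B : Finset (ι ⊕ ι)) :
    ∑ w : Ax ι × Ax ι, (Fintype.card (Ax ι × Ax ι) : ℝ)⁻¹ *
      ∏ q ∈ B, (if j < j0 then xs2 (π j) w q else 1) = okF2 π j0 j B := by
  by_cases hj : j < j0
  · simp only [okF2, okF, if_pos hj, ← avg_xs, prod_sum_eq_prod_toLeft_mul_prod_toRight, xs2,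
      Sum.elim_inl, Sum.elim_inr]
    rw [sum_mul_sum, Fintype.sum_prod_type, Fintype.card_prod (Ax ι) (Ax ι)]
    push_cast
    exact sum_congr rfl fun _ _ => sum_congr rfl fun _ _ => by ring
  · simp only [okF2, okF, if_neg hj, prod_const_one, mul_one, ite_self, sum_const, card_univ,
      nsmul_eq_mul]
    exact mul_inv_cancel₀ (by exact_mod_cast Fintype.card_ne_zero)

/-- The signs read above depth `j`. -/
noncomputable def gS {S : Type} (π : ℕ → Finset (Finset ι)) (j0 j : ℕ)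
    (H : List (S × Ax ι × Ax ι)) (q : ι ⊕ ι) : ℝ :=
  ∏ j' ∈ Ico j j0, xs2 (π j') (((H.map fun t => t.2.1).getD (j' - j) (∅, fun _ => true)),
    ((H.map fun t => t.2.2).getD (j' - j) (∅, fun _ => true))) q

omit [Fintype ι] in
theorem gS_cons {S : Type} (π : ℕ → Finset (Finset ι)) (j0 j : ℕ) (w : S × Ax ι × Ax ι)
    (H : List (S × Ax ι × Ax ι)) (q : ι ⊕ ι) :
    gS π j0 j (w :: H) q = (if j < j0 then xs2 (π j) w.2 q else 1) * gS π j0 (j + 1) H q := by
  unfold gS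
  split_ifs with hj
  · rw [prod_eq_prod_Ico_succ_bot hj]
    congr 1
    · simp
    · refine prod_congr rfl fun j' hj' => ?_
      have := (mem_Ico.1 hj').1
      rw [show j' - j = j' - (j + 1) + 1 by omega]; simp
  · rw [Ico_eq_empty (by omega), Ico_eq_empty (by omega)]; simp

omit [Fintype ι] in
theorem abs_gS {S : Type} (π : ℕ → Finset (Finset ι)) (j0 j : ℕ) (H : List (S × Ax ι × Ax ι))
    (q : ι ⊕ ι) : |gS π j0 j H q| = 1 := by
  unfold gS
  rw [abs_prod]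
  exact prod_eq_one fun _ _ => by cases q <;> simp [xs2, abs_xs]

theorem avg_step {S : Type} [Fintype S] (p : S → ℝ) (π : ℕ → Finset (Finset ι)) (j0 j : ℕ)
    (H : List (S × Ax ι × Ax ι)) (B : Finset (ι ⊕ ι)) (v : S → ℝ) :
    ∑ w : S × Ax ι × Ax ι, p w.1 * (Fintype.card (Ax ι × Ax ι) : ℝ)⁻¹ *
      ((∏ q ∈ B, gS π j0 j (w :: H) q) * v w.1) =
      (∏ q ∈ B, gS π j0 (j + 1) H q) * (okF2 π j0 j B * ∑ s, p s * v s) := by
  rw [Fintype.sum_prod_type, ← avg_xs2, sum_mul_sum, sum_comm, mul_sum]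
  refine sum_congr rfl fun _ _ => ?_
  rw [mul_sum]
  refine sum_congr rfl fun _ _ => ?_
  simp only [gS_cons, prod_mul_distrib]; ring

theorem Yf_aux {S : Type} [Fintype S] (e : ℕ → ℝ) (K : Ker S) (π : ℕ → Finset (Finset ι)) (j0 : ℕ)
    (u : List S → Finset (ι ⊕ ι) → ℝ) : ∀ (j : ℕ) (H : List (S × Ax ι × Ax ι)),
    Yf e (mulK K (unifK (Ax ι × Ax ι))) (fun _ _ => 1) j H
      (fun H B => (∏ q ∈ B, gS π j0 0 H q) * u (H.map Prod.fst) B) =
      fun B => (∏ q ∈ B, gS π j0 j H q) * Yf e K (okF2 π j0) j (H.map Prod.fst) u B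
  | 0, _ => rfl
  | j + 1, H => by
    funext A
    simp only [Yf, Yf_aux e K π j0 u j, one_mul, ← lamS_mult]
    congr 1; funext B
    exact avg_step (K (H.map Prod.fst)) π j0 j H B
      fun s => Yf e K (okF2 π j0) j (s :: H.map Prod.fst) u B

omit [Fintype ι] [DecidableEq ι] in
theorem sum_powerset_sum (s : Finset (ι ⊕ ι)) (f : Finset (ι ⊕ ι) → ℝ) :
    ∑ B ∈ s.powerset, f B =
      ∑ B1 ∈ s.toLeft.powerset, ∑ B2 ∈ s.toRight.powerset, f (B1.disjSum B2) := by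
  rw [← sum_product']
  refine sum_nbij' (fun B => (B.toLeft, B.toRight)) (fun x => x.1.disjSum x.2) ?_ ?_ ?_ ?_ ?_
  · intro B hB
    have := mem_powerset.1 hB
    exact mem_product.2 ⟨mem_powerset.2 (toLeft_subset_toLeft this),
      mem_powerset.2 (toRight_subset_toRight this)⟩
  · intro x hx
    obtain ⟨h1, h2⟩ := mem_product.1 hx
    exact mem_powerset.2 (disjSum_subset.2 ⟨mem_powerset.1 h1, mem_powerset.1 h2⟩)
  · intro B _; exact toLeft_disjSum_toRight
  · intro x _; simp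
  · intro B _; rw [toLeft_disjSum_toRight]

omit [Fintype ι] [DecidableEq ι] in
theorem sum_sing {S : Type} (ε : ℝ) (g : ι → ℝ) (F : ι → List S → ℝ) (l : List S) (s : Finset ι) :
    ∑ B ∈ s.powerset, ε ^ B.card * ((∏ q ∈ B, g q) * sing F l B) = ε * ∑ q ∈ s, g q * F q l := by
  simp only [sing, mul_ite, mul_zero]
  rw [← sum_filter, ← powersetCard_eq_filter, powersetCard_one, sum_map, mul_sum]
  simp

omit [Fintype ι] [DecidableEq ι] in
theorem abs_sing_le {S : Type} {F : ι → List S → ℝ} (hF : ∀ q l, |F q l| ≤ 1) (l : List S)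
    (B : Finset ι) : |sing F l B| ≤ 1 := by
  unfold sing
  split_ifs
  · rw [abs_prod]; exact prod_le_one (fun _ _ => abs_nonneg _) fun _ _ => hF _ _
  · simp

omit [Fintype ι] in
theorem jet_leaf {S : Type} {ε : ℝ} (h0 : 0 ≤ ε) (g : ι ⊕ ι → ℝ) (hg : ∀ q, |g q| = 1)
    {F F' : ι → List S → ℝ} (hF : ∀ q l, |F q l| ≤ 1) (hF' : ∀ q l, |F' q l| ≤ 1) (l : List S) :
    Jet ε 1 (fun s => 1 - (1 - ε * ∑ q ∈ s.toLeft, g (.inl q) * F q l) *
        (1 - ε * ∑ q ∈ s.toRight, g (.inr q) * F' q l))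
      (fun B => (∏ q ∈ B, g q) * sing2 F F' l B) := by
  intro B
  rw [mob_eq_of_rep (c := fun B => ε ^ B.card * ((∏ q ∈ B, g q) * sing2 F F' l B))]
  · refine ⟨by simp; positivity, ?_⟩
    rw [abs_mul, abs_prod, prod_eq_one fun q _ => hg q, one_mul]
    unfold sing2
    split_ifs
    · exact abs_sing_le hF _ _
    · exact abs_sing_le hF' _ _
    · rw [abs_neg, abs_mul]
      exact mul_le_one₀ (abs_sing_le hF _ _) (abs_nonneg _) (abs_sing_le hF' _ _)
  · intro s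
    rw [sum_powerset_sum, ← sum_sing, ← sum_sing]
    set p : Finset ι → ℝ := fun B => ε ^ B.card * ((∏ q ∈ B, g (.inl q)) * sing F l B)
    set p' : Finset ι → ℝ := fun B => ε ^ B.card * ((∏ q ∈ B, g (.inr q)) * sing F' l B)
    have : ∀ B1 B2 : Finset ι, ε ^ (B1.disjSum B2).card * ((∏ q ∈ B1.disjSum B2, g q) *
        sing2 F F' l (B1.disjSum B2)) =
        (if B2 = ∅ then p B1 else 0) + (if B1 = ∅ then p' B2 else 0) - p B1 * p' B2 := by
      intro B1 B2
      simp only [card_disjSum, prod_disjSum, sing2, toLeft_disjSum, toRight_disjSum, p, p']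
      by_cases h1 : B1 = ∅ <;> by_cases h2 : B2 = ∅ <;> simp [h1, h2, sing] <;> split_ifs <;> ring
    simp only [this, sum_sub_distrib, sum_add_distrib, sum_ite_eq', mem_powerset, empty_subset,
      if_true, ← sum_mul_sum]
    rw [sum_comm]
    simp only [sum_ite_eq', mem_powerset, empty_subset, if_true]
    ring

theorem gad_pos {ε : ℝ} (h0 : 0 ≤ ε) (hε : ε * Fintype.card ι ≤ 1 / 2) (π : ℕ → Finset (Finset ι))
    (j0 : ℕ) (s : Finset ι) {F : ι → ℝ} (hF : ∀ q, |F q| ≤ 1) (z : List (Ax ι)) :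
    0 < gad ε π j0 s F z := by
  unfold gad
  have : ∑ q ∈ s, (∏ j ∈ range j0, xs (π j) (z.getD j (∅, fun _ => true)) q) * F q ≤
      Fintype.card ι := by
    refine (sum_le_card_nsmul _ _ 1 fun q _ => (le_abs_self _).trans ?_).trans ?_
    · rw [abs_mul, abs_prod, prod_eq_one fun _ _ => abs_xs _ _ _, one_mul]; exact hF q
    · simpa using card_le_univ s
  nlinarith

theorem jet_logT2 (j : ℕ) : ∃ C ε0 : ℝ, 0 < ε0 ∧ ∀ ε : ℝ, 0 ≤ ε → ε ≤ ε0 →
    ∀ (S : Type) [Fintype S] (K : Ker S) (P : List S → S → S → ℝ) (e : ℕ → ℝ) (R : ℕ), IsKer K →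
    IsCond K P → Exps e R → j < R → ∀ (π : ℕ → Finset (Finset ι)) (j0 : ℕ), j0 ≤ j + 1 →
    ∀ (F F' : ι → List S → ℝ), (∀ q l, |F q l| ≤ 1) → (∀ q l, |F' q l| ≤ 1) → ∀ h s0,
    Jet ε C (fun s => -logT2 e K P ε π π j0 j0 s.toLeft s.toRight F F' j h s0)
      (lamS 0 (e j) fun B =>
        okF2 π j0 j B * ∑ s, P h s0 s * Yf e K (okF2 π j0) j (s :: h) (sing2 F F') B) := by
  obtain ⟨C1, ε1, h1, H1⟩ := Jet.tree (κ := ι ⊕ ι) 1 j
  obtain ⟨C2, ε2, h2, H2⟩ := Jet.lam (κ := ι ⊕ ι) C1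
  refine ⟨C2, min (min ε1 ε2) (1 / (2 * (Fintype.card ι + 1))), by positivity,
    fun ε h0 hε S _ K P e R hK hP he hj π j0 hj0 F F' hF hF' h s0 => ?_⟩
  have hεD : ε * Fintype.card ι ≤ 1 / 2 := by
    have := hε.trans (min_le_right _ _)
    rw [le_div_iff₀ (by positivity)] at this; nlinarith
  have hε' := hε.trans (min_le_left _ _)
  set K' := mulK K (unifK (Ax ι × Ax ι))
  have hK' : IsKer K' := hK.mulK isKer_unifK
  set H0 : List (S × Ax ι × Ax ι) := h.map fun t => (t, (∅, fun _ => true), (∅, fun _ => true))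
  have hH0 : H0.map Prod.fst = h := by simp [H0, Function.comp_def]
  set W : Finset (ι ⊕ ι) → List (S × Ax ι × Ax ι) → ℝ := fun s H =>
    gad ε π j0 s.toLeft (fun q => F q (H.map Prod.fst)) (H.map fun t => t.2.1) *
      gad ε π j0 s.toRight (fun q => F' q (H.map Prod.fst)) (H.map fun t => t.2.2) with hW
  have hW0 : ∀ s H, 0 < W s H := fun s H =>
    mul_pos (gad_pos h0 hεD _ _ _ (fun q => hF q _) _) (gad_pos h0 hεD _ _ _ (fun q => hF' q _) _)
  have a1 := H1 ε h0 (hε'.trans (min_le_left _ _)) _ K' e R hK' he hj (fun H s => 1 - W s H)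
    (fun H B => (∏ q ∈ B, gS π j0 0 H q) * sing2 F F' (H.map Prod.fst) B)
    (fun H => by
      have := jet_leaf h0 (gS π j0 0 H) (abs_gS π j0 0 H) hF hF' (H.map Prod.fst)
      simpa only [hW, gad, gS, xs2, Sum.elim_inl, Sum.elim_inr, Nat.sub_zero, ← range_eq_Ico] using this)
    (fun H => by simp [sing2_empty])
  set w : S × Ax ι × Ax ι → ℝ := fun w => P h s0 w.1 * (Fintype.card (Ax ι × Ax ι) : ℝ)⁻¹
  have hw0 : ∀ x, 0 ≤ w x := fun x => mul_nonneg (hP.1 _ _ _) (by positivity)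
  have hw1 : ∑ x, w x = 1 := by
    rw [Fintype.sum_prod_type]
    simp only [w, sum_const, card_univ, nsmul_eq_mul, ← mul_sum, ← sum_mul, hP.2.1, one_mul]
    exact mul_inv_cancel₀ (by exact_mod_cast Fintype.card_ne_zero)
  have a2 := H2 ε _ _ 0 (e j) h0 (hε'.trans (min_le_right _ _))
    (Jet.wsum hw0 hw1 fun x => a1 (x :: H0)) (by
      simp [Yf_empty e K' _ (u := fun H B => (∏ q ∈ B, gS π j0 0 H q) *
        sing2 F F' (H.map Prod.fst) B) (fun H => by simp [sing2_empty])])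
    le_rfl (he.pos' j hj).le (he.pos' j hj) (he.le_one j hj.le)
  convert a2 using 2
  · rename_i s
    have hej := (he.pos' j hj).ne'
    simp only [Lam, if_true, Y_eq hK' he hj _ (fun l => by have := hW0 s l; linarith :
      ∀ l, 1 - W s l < 1), sub_sub_cancel, logT2, neg_div]
    congr 3
    rw [mul_sum]
    simp only [mul_left_comm (e j), mul_div_cancel₀ _ hej, mul_sub, mul_one, sum_sub_distrib, hw1,
      sub_sub_cancel]
    rfl
  · funext B
    simp only [K', Yf_aux, List.map_cons, hH0]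
    rw [avg_step (P h s0) π j0 j H0 B fun s => Yf e K (okF2 π j0) j (s :: h) (sing2 F F') B]
    simp only [gS, Ico_eq_empty_of_le hj0, prod_empty, prod_const_one, one_mul]

theorem cdef_le (j : ℕ) : ∃ C ε0 : ℝ, 0 < ε0 ∧ ε0 ≤ 1 ∧ ∀ ε : ℝ, 0 < ε → ε ≤ ε0 →
    ∀ (S : Type) [Fintype S] (K : Ker S) (P : List S → S → S → ℝ) (e : ℕ → ℝ) (R : ℕ), IsKer K →
    IsCond K P → Exps e R → j < R → ∀ (π : ℕ → Finset (Finset ι)) (j0 : ℕ), j0 ≤ j + 1 →
    ∀ (F F' : ι → List S → ℝ), (∀ q l, |F q l| ≤ 1) → (∀ q l, |F' q l| ≤ 1) → ∀ A h s0,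
    |cdef e K P π j0 F F' A j h s0| ≤ (ε ^ (2 * Fintype.card ι))⁻¹ *
      (∑ s, ∑ s', |Ddef e K P ε π π j0 j0 s s' F F' j h s0|) + C * ε := by
  obtain ⟨C, ε0, h0, H⟩ := jet_logT2 (ι := ι) j
  refine ⟨C, min ε0 1, by positivity, min_le_right _ _,
    fun ε hε hε' S _ K P e R hK hP he hj π j0 hj0 F F' hF hF' A h s0 => ?_⟩
  have hJ := H ε hε.le (hε'.trans (min_le_left _ _)) S K P e R hK hP he hj π j0 hj0 F F' hF hF' h s0
  have hC := hJ.nonneg
  have hD : 0 ≤ ∑ s, ∑ s', |Ddef e K P ε π π j0 j0 s s' F F' j h s0| :=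
    sum_nonneg fun _ _ => sum_nonneg fun _ _ => abs_nonneg _
  by_cases hA : A = ∅
  · subst hA
    rw [cdef, disjSum_empty, map_empty, lamS_empty, abs_zero]; positivity
  obtain ⟨q, hq⟩ := nonempty_iff_ne_empty.2 hA
  have a1 := (hJ (A.disjSum A)).1
  have a2 : mob (fun s : Finset (ι ⊕ ι) => -logT2 e K P ε π π j0 j0 s.toLeft s.toRight F F' j h s0)
      (A.disjSum A) = mob (fun s : Finset (ι ⊕ ι) =>
        -Ddef e K P ε π π j0 j0 s.toLeft s.toRight F F' j h s0) (A.disjSum A) := by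
    have b1 := mob_eq_zero (F := fun s : Finset (ι ⊕ ι) =>
      -logT2 e K P ε π π j0 j0 s.toLeft ∅ F F' j h s0) (inr_mem_disjSum.2 hq : _ ∈ A.disjSum A)
      (fun s => by simp)
    have b2 := mob_eq_zero (F := fun s : Finset (ι ⊕ ι) =>
      -logT2 e K P ε π π j0 j0 ∅ s.toRight F F' j h s0) (inl_mem_disjSum.2 hq : _ ∈ A.disjSum A)
      (fun s => by simp)
    rw [← add_zero (mob (fun s : Finset (ι ⊕ ι) => -Ddef _ _ _ _ _ _ _ _ _ _ _ _ _ _ _) _), ← b1,
      ← mob_add, ← add_zero (mob (fun s : Finset (ι ⊕ ι) => -Ddef _ _ _ _ _ _ _ _ _ _ _ _ _ _ _ + _) _),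
      ← b2, ← mob_add]
    congr 1; funext s; unfold Ddef; ring
  have a3 := abs_mob_le_sum (fun s : Finset (ι ⊕ ι) =>
    -Ddef e K P ε π π j0 j0 s.toLeft s.toRight F F' j h s0) (A.disjSum A)
  rw [← a2, sum_powerset_sum] at a3
  simp only [toLeft_disjSum, toRight_disjSum, abs_neg] at a3
  have a4 := a3.trans ((sum_le_sum fun B _ => sum_le_sum_of_subset_of_nonneg (subset_univ _)
    fun _ _ _ => abs_nonneg _).trans (sum_le_sum_of_subset_of_nonneg (subset_univ _)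
      fun _ _ _ => sum_nonneg fun _ _ => abs_nonneg _))
  change |_ - _ * cdef e K P π j0 F F' A j h s0| ≤ _ at a1
  generalize cdef e K P π j0 F F' A j h s0 = c at a1 ⊢
  generalize mob _ (A.disjSum A) = m at a1 a4
  generalize ∑ s, ∑ s', |Ddef e K P ε π π j0 j0 s s' F F' j h s0| = Dd at a4 hD ⊢
  have hn : (A.disjSum A).card ≤ 2 * Fintype.card ι := by
    have := card_le_univ A; rw [card_disjSum]; omega
  generalize (A.disjSum A).card = n at a1 hn
  have b1 : ε ^ n * |c| ≤ Dd + C * ε ^ (n + 1) := by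
    have := abs_sub_abs_le_abs_sub (ε ^ n * c) m
    rw [abs_sub_comm, abs_mul, abs_of_pos (by positivity : 0 < ε ^ n)] at this
    linarith
  have b2 : (ε ^ n)⁻¹ ≤ (ε ^ (2 * Fintype.card ι))⁻¹ :=
    inv_anti₀ (by positivity) (pow_le_pow_of_le_one hε.le (hε'.trans (min_le_right _ _)) hn)
  calc |c| = (ε ^ n)⁻¹ * (ε ^ n * |c|) := by field_simp
    _ ≤ (ε ^ n)⁻¹ * (Dd + C * ε ^ (n + 1)) := mul_le_mul_of_nonneg_left b1 (by positivity)
    _ = (ε ^ n)⁻¹ * Dd + C * ε := by rw [pow_succ]; field_simp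
    _ ≤ _ := add_le_add (mul_le_mul_of_nonneg_right b2 hD) le_rfl

end signs

theorem nodeE_expect_sum {S I α β : Type} [Fintype S] [Fintype I] [Fintype α] [Fintype β]
    (K : Ker S) (n : ℕ) (f : α → β → I → List S → S → ℝ) :
    nodeE K n (fun h s0 => 𝔼 i, ∑ a, ∑ b, f a b i h s0) =
      ∑ a, ∑ b, nodeE K n fun h s0 => 𝔼 i, f a b i h s0 := by
  simp only [expect_sum_comm, nodeE_sum]

theorem Cerr_le (D R : ℕ) (hR : 0 < R) :
    ∃ C ε0 : ℝ, 0 < C ∧ 0 < ε0 ∧ ∀ ε, 0 < ε → ε ≤ ε0 → ∀ (S I : Type) [Fintype S] [Fintype I]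
      [Nonempty I] (K : Ker S) (P : List S → S → S → ℝ) (σ : I → List S → Bool), IsKer K →
      IsCond K P → Cerr D R K P σ ≤ C * (Derr D R ε K P σ / ε ^ (2 * D) + ε) := by
  choose C ε0 h0 h1 H using cdef_le (ι := Fin D)
  obtain ⟨ε1, hε1, hle⟩ : ∃ ε1 > 0, ∀ j : Fin R, ε1 ≤ ε0 j := by
    have : Nonempty (Fin R) := ⟨⟨0, hR⟩⟩
    obtain ⟨j, hj⟩ := Finite.exists_min fun j : Fin R => ε0 j
    exact ⟨_, h0 j, hj⟩
  set N : ℝ := ∑ j : Fin R, ∑ _x : Fin D → Bool, ∑ _π : Fin R → Finset (Finset (Fin D)),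
    ∑ _j0 ∈ range (j.val + 2), ∑ _A : Finset (Fin D), |C j|
  have hN : 0 ≤ N := by positivity
  refine ⟨2 ^ D + N, ε1, by positivity, hε1, fun ε hε hε' S I _ _ _ K P σ hK hP => ?_⟩
  have hD : 0 ≤ Derr D R ε K P σ := by
    unfold Derr
    refine sum_nonneg fun _ _ => sum_nonneg fun _ _ => sum_nonneg fun _ _ => sum_nonneg fun _ _ =>
      sum_nonneg fun _ _ => sum_nonneg fun _ _ => nodeE_nonneg hK _ fun _ _ =>
        expect_nonneg fun _ _ => abs_nonneg _
  have hterm : ∀ (j : Fin R) (x : Fin D → Bool) (π : Fin R → Finset (Finset (Fin D))),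
      ∀ j0 ∈ range (j.val + 2), ∀ A : Finset (Fin D),
      (nodeE K (R - 1 - j.val) fun h s0 => 𝔼 i : I × I,
        |cdef (eU R) K P (extP π) j0 (ind σ x i.1) (ind σ x i.2) A j h s0|) ≤
      (ε ^ (2 * D))⁻¹ * (∑ s : Finset (Fin D), ∑ s' : Finset (Fin D), nodeE K (R - 1 - j.val) fun h s0 => 𝔼 i : I × I,
        |Ddef (eU R) K P ε (extP π) (extP π) j0 j0 s s' (ind σ x i.1) (ind σ x i.2) j h s0|) +
        |C j| * ε := by
    intro j x π j0 hj0 A
    rw [← nodeE_expect_sum, ← nodeE_const_mul, ← nodeE_const hK (R - 1 - j.val) (|C j| * ε),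
      ← nodeE_add]
    refine nodeE_mono hK _ fun h s0 _ => ?_
    rw [mul_expect, ← expect_const (univ_nonempty (α := I × I)) (|C j| * ε), ← expect_add_distrib]
    refine expect_le_expect fun i _ => ?_
    have := H j ε hε (hε'.trans (hle j)) S K P _ R hK hP (exps_eU hR) j.2 (extP π) j0
      (by have := mem_range.1 hj0; omega) _ _ (abs_ind_le σ x i.1) (abs_ind_le σ x i.2) A h s0
    rw [Fintype.card_fin] at this
    exact this.trans (add_le_add le_rfl (mul_le_mul_of_nonneg_right (le_abs_self (C j)) hε.le))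
  have key : Cerr D R K P σ ≤ 2 ^ D * (Derr D R ε K P σ / ε ^ (2 * D)) + N * ε := by
    refine (sum_le_sum fun j _ => sum_le_sum fun x _ => sum_le_sum fun π _ =>
      sum_le_sum fun j0 hj0 => sum_le_sum fun A _ => hterm j x π j0 hj0 A).trans (le_of_eq ?_)
    have : ∀ y : ℝ, ∑ _A : Finset (Fin D), y = 2 ^ D * y := fun y => by simp
    simp only [sum_add_distrib, ← sum_mul]
    congr 1
    simp only [this, ← mul_sum]
    rw [div_eq_inv_mul, mul_assoc]
    rfl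
  refine key.trans ?_
  have : 0 ≤ Derr D R ε K P σ / ε ^ (2 * D) := div_nonneg hD (by positivity)
  clear_value N
  generalize Derr D R ε K P σ / ε ^ (2 * D) = y at this ⊢
  have h2 : (0 : ℝ) ≤ 2 ^ D := by positivity
  nlinarith

end Crest.Agent.H9.MP
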