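import Crest.Agent.H9.MP.T2b

/-! MP-T3x: Möbius coefficients and jets. -/

set_option autoImplicit false

namespace Crest.Agent.H9.MP

open Finset
open scoped BigOperators

section mob
variable {κ : Type} [DecidableEq κ]

/-- Möbius coefficients on the Boolean lattice. -/
def mob (F : Finset κ → ℝ) (B : Finset κ) : ℝ := ∑ s ∈ B.powerset, (-1) ^ (B \ s).card * F s

theorem mob_insert (F : Finset κ → ℝ) {a : κ} {B : Finset κ} (ha : a ∉ B) :
    mob F (insert a B) = mob (fun s => F (insert a s)) B - mob F B := by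
  unfold mob
  rw [sum_powerset_insert ha, sub_eq_neg_add, ← sum_neg_distrib]
  congr 1
  · refine sum_congr rfl fun s hs => ?_
    have : a ∉ s := fun h => ha (mem_powerset.1 hs h)
    rw [insert_sdiff_of_notMem _ this, card_insert_of_notMem (fun h => ha (mem_sdiff.1 h).1)]
    ring
  · refine sum_congr rfl fun s _ => ?_
    rw [insert_sdiff_insert, sdiff_insert_of_notMem ha]

theorem sum_mob (s : Finset κ) : ∀ F : Finset κ → ℝ, ∑ B ∈ s.powerset, mob F B = F s := by
  induction s using Finset.induction_on with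
  | empty => intro F; simp [mob]
  | insert a s ha ih =>
    intro F
    rw [sum_powerset_insert ha, sum_congr rfl fun B hB =>
      mob_insert F (fun h => ha (mem_powerset.1 hB h)), sum_sub_distrib, ih, ih]
    ring

theorem mob_eq_of_rep {F c : Finset κ → ℝ} (h : ∀ s, F s = ∑ B ∈ s.powerset, c B) (B : Finset κ) :
    mob F B = c B := by
  induction B using Finset.strongInduction with
  | H B ih =>
    have h1 := (sum_mob B F).trans (h B)
    rw [← add_sum_erase _ _ (mem_powerset_self B), ← add_sum_erase _ _ (mem_powerset_self B),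
      sum_congr rfl fun C hC => ih C (Finset.ssubset_iff_subset_ne.2
        ⟨mem_powerset.1 (mem_of_mem_erase hC), ne_of_mem_erase hC⟩)] at h1
    exact add_right_cancel h1

theorem mob_eq_zero {F : Finset κ → ℝ} {a : κ} {B : Finset κ} (ha : a ∈ B)
    (h : ∀ s, F (insert a s) = F s) : mob F B = 0 := by
  rw [← insert_erase ha, mob_insert F (notMem_erase a B)]; simp [h]

theorem abs_mob_le_sum (F : Finset κ → ℝ) (B : Finset κ) :
    |mob F B| ≤ ∑ s ∈ B.powerset, |F s| :=
  (abs_sum_le_sum_abs _ _).trans (sum_le_sum fun s _ => by simp [abs_mul])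

theorem mob_add (F G : Finset κ → ℝ) (B : Finset κ) :
    mob (fun s => F s + G s) B = mob F B + mob G B := by
  simp only [mob, mul_add, sum_add_distrib]

theorem mob_wsum {X : Type} (A : Finset X) (w : X → ℝ) (F : X → Finset κ → ℝ) (B : Finset κ) :
    mob (fun s => ∑ x ∈ A, w x * F x s) B = ∑ x ∈ A, w x * mob (F x) B := by
  simp only [mob, mul_sum]
  rw [sum_comm]
  exact sum_congr rfl fun _ _ => sum_congr rfl fun _ _ => by ring

theorem mob_mul (F G : Finset κ → ℝ) (B : Finset κ) : mob (fun s => F s * G s) B =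
    ∑ B1 ∈ B.powerset, ∑ B2 ∈ B.powerset, if B1 ∪ B2 = B then mob F B1 * mob G B2 else 0 := by
  refine mob_eq_of_rep (c := fun B => ∑ B1 ∈ B.powerset, ∑ B2 ∈ B.powerset,
    if B1 ∪ B2 = B then mob F B1 * mob G B2 else 0) (fun s => ?_) B
  rw [← sum_mob s F, ← sum_mob s G, sum_mul_sum]
  have : ∀ B ∈ s.powerset, (∑ B1 ∈ B.powerset, ∑ B2 ∈ B.powerset,
      if B1 ∪ B2 = B then mob F B1 * mob G B2 else 0) = ∑ B1 ∈ s.powerset, ∑ B2 ∈ s.powerset,
      if B1 ∪ B2 = B then mob F B1 * mob G B2 else 0 := by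
    intro B hB
    have hs : B.powerset ⊆ s.powerset := powerset_mono.2 (mem_powerset.1 hB)
    rw [← sum_subset hs]
    · refine sum_congr rfl fun B1 _ => sum_subset hs fun B2 _ h => if_neg ?_
      rintro rfl; exact h (mem_powerset.2 subset_union_right)
    · intro B1 _ h
      refine sum_eq_zero fun B2 _ => if_neg ?_
      rintro rfl; exact h (mem_powerset.2 subset_union_left)
  rw [sum_congr rfl this]
  symm
  rw [sum_comm]
  refine sum_congr rfl fun B1 h1 => ?_
  rw [sum_comm]
  refine sum_congr rfl fun B2 h2 => ?_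
  rw [sum_ite_eq, if_pos (mem_powerset.2 (union_subset (mem_powerset.1 h1) (mem_powerset.1 h2)))]

theorem cpow_eq_zero {y : Finset κ → ℝ} (hy : y ∅ = 0) : ∀ (k : ℕ) (A : Finset κ), A.card < k →
    cpow y k A = 0
  | 0, _, h => absurd h (Nat.not_lt_zero _)
  | k + 1, A, h => by
    simp only [cpow]
    refine sum_eq_zero fun B hB => ?_
    by_cases h0 : B = ∅
    · rw [h0, hy, zero_mul]
    · rw [cpow_eq_zero hy k, mul_zero]
      have := card_sdiff_add_card_eq_card (mem_powerset.1 hB)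
      have := card_pos.2 (nonempty_iff_ne_empty.2 h0)
      omega

theorem cpow_mult (g : κ → ℝ) (y : Finset κ → ℝ) : ∀ (k : ℕ) (A : Finset κ),
    cpow (fun B => (∏ q ∈ B, g q) * y B) k A = (∏ q ∈ A, g q) * cpow y k A
  | 0, A => by simp only [cpow]; split_ifs with h <;> simp [h]
  | k + 1, A => by
    simp only [cpow, cpow_mult g y k, mul_sum]
    refine sum_congr rfl fun B hB => ?_
    rw [← prod_sdiff (mem_powerset.1 hB)]; ring

theorem lamS_mult (a a' : ℝ) (g : κ → ℝ) (y : Finset κ → ℝ) (A : Finset κ) :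
    lamS a a' (fun B => (∏ q ∈ B, g q) * y B) A = (∏ q ∈ A, g q) * lamS a a' y A := by
  simp only [lamS, cpow_mult, mul_sum]
  exact sum_congr rfl fun _ _ => by ring

/-- `y` is the leading part of the Möbius coefficients of `F`. -/
def Jet (ε C : ℝ) (F y : Finset κ → ℝ) : Prop :=
  ∀ B, |mob F B - ε ^ B.card * y B| ≤ C * ε ^ (B.card + 1) ∧ |y B| ≤ C

variable {ε C C' : ℝ} {F G y z : Finset κ → ℝ}

theorem Jet.nonneg (h : Jet ε C F y) : 0 ≤ C := (abs_nonneg _).trans (h ∅).2

theorem Jet.mono (h : Jet ε C F y) (h0 : 0 ≤ ε) (hC : C ≤ C') : Jet ε C' F y := fun B =>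
  ⟨(h B).1.trans (mul_le_mul_of_nonneg_right hC (by positivity)), (h B).2.trans hC⟩

theorem Jet.abs_mob_le (h : Jet ε C F y) (h0 : 0 ≤ ε) (h1 : ε ≤ 1) (B : Finset κ) :
    |mob F B| ≤ 2 * C * ε ^ B.card := by
  have hC := h.nonneg
  have a1 : C * ε ^ (B.card + 1) ≤ C * ε ^ B.card :=
    mul_le_mul_of_nonneg_left (pow_le_pow_of_le_one h0 h1 (Nat.le_succ _)) hC
  have a2 : |ε ^ B.card * y B| ≤ ε ^ B.card * C := by
    rw [abs_mul, abs_of_nonneg (by positivity)]
    exact mul_le_mul_of_nonneg_left (h B).2 (by positivity)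
  have a3 := abs_sub_abs_le_abs_sub (mob F B) (ε ^ B.card * y B)
  have := (h B).1
  linarith

theorem Jet.wsum {X : Type} [Fintype X] {w : X → ℝ} (h0 : ∀ x, 0 ≤ w x) (h1 : ∑ x, w x = 1)
    {F y : X → Finset κ → ℝ} (h : ∀ x, Jet ε C (F x) (y x)) :
    Jet ε C (fun s => ∑ x, w x * F x s) (fun B => ∑ x, w x * y x B) := fun B => by
  refine ⟨?_, abs_wsum_le_of h0 h1 fun x => (h x B).2⟩
  rw [mob_wsum, mul_sum, ← sum_sub_distrib]
  simp only [mul_left_comm (ε ^ B.card), ← mul_sub]
  exact abs_wsum_le_of h0 h1 fun x => (h x B).1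

variable [Fintype κ]

omit [DecidableEq κ] in
theorem card_powerset_le (B : Finset κ) : (B.powerset.card : ℝ) ≤ 2 ^ Fintype.card κ := by
  rw [card_powerset]; push_cast
  exact pow_le_pow_right₀ one_le_two (card_le_univ B)

omit [DecidableEq κ] in
theorem sum_powerset_le {B : Finset κ} {f : Finset κ → ℝ} {c : ℝ} (hc : 0 ≤ c)
    (h : ∀ s ⊆ B, f s ≤ c) : ∑ s ∈ B.powerset, f s ≤ 2 ^ Fintype.card κ * c := by
  refine (sum_le_card_nsmul _ _ c fun s hs => h s (mem_powerset.1 hs)).trans ?_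
  rw [nsmul_eq_mul]; exact mul_le_mul_of_nonneg_right (card_powerset_le B) hc

theorem Jet.mul (hF : Jet ε C F y) (hG : Jet ε C' G z) (h0 : 0 ≤ ε) (h1 : ε ≤ 1) :
    Jet ε (4 * 2 ^ Fintype.card κ * 2 ^ Fintype.card κ * C * C') (fun s => F s * G s)
      (fun B => ∑ B1 ∈ B.powerset, y B1 * z (B \ B1)) := fun B => by
  have hC := hF.nonneg
  have hC' := hG.nonneg
  have h2 : (1 : ℝ) ≤ 2 ^ Fintype.card κ := one_le_pow₀ one_le_two
  constructor
  · rw [mob_mul, mul_sum, ← sum_sub_distrib]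
    refine (abs_sum_le_sum_abs _ _).trans ((sum_powerset_le
      (c := 2 ^ Fintype.card κ * (4 * C * C' * ε ^ (B.card + 1))) (by positivity)
      fun B1 hB1 => ?_).trans (le_of_eq (by ring)))
    have : ε ^ B.card * (y B1 * z (B \ B1)) = ∑ B2 ∈ B.powerset,
        if B2 = B \ B1 then ε ^ B.card * (y B1 * z (B \ B1)) else 0 := by
      rw [sum_ite_eq', if_pos (mem_powerset.2 sdiff_subset)]
    rw [this, ← sum_sub_distrib]
    refine (abs_sum_le_sum_abs _ _).trans (sum_powerset_le (by positivity) fun B2 hB2 => ?_)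
    have m1 := hF.abs_mob_le h0 h1 B1
    have m2 := hG.abs_mob_le h0 h1 B2
    by_cases h : B2 = B \ B1
    · subst h
      rw [if_pos (union_sdiff_of_subset hB1), if_pos rfl]
      have hc : B.card = B1.card + (B \ B1).card := by
        have := card_sdiff_add_card_eq_card hB1; omega
      have : mob F B1 * mob G (B \ B1) - ε ^ B.card * (y B1 * z (B \ B1)) =
          (mob F B1 - ε ^ B1.card * y B1) * mob G (B \ B1) +
          ε ^ B1.card * y B1 * (mob G (B \ B1) - ε ^ (B \ B1).card * z (B \ B1)) := by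
        rw [hc]; ring
      rw [this]
      refine (abs_add_le _ _).trans ?_
      rw [abs_mul, abs_mul, abs_mul, abs_of_nonneg (by positivity : 0 ≤ ε ^ B1.card)]
      have b1 := mul_le_mul (hF B1).1 m2 (abs_nonneg _) (by positivity)
      have b2 := mul_le_mul (mul_le_mul_of_nonneg_left (hF B1).2 (by positivity : 0 ≤ ε ^ B1.card))
        (hG (B \ B1)).1 (abs_nonneg _) (by positivity)
      refine (add_le_add b1 b2).trans ?_
      rw [hc]
      have : 0 ≤ C * C' * ε ^ (B1.card + (B \ B1).card + 1) := by positivity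
      calc _ = 3 * (C * C' * ε ^ (B1.card + (B \ B1).card + 1)) := by ring
        _ ≤ _ := by linarith
    · rw [if_neg h, sub_zero]
      split_ifs with hu
      · have hc : B.card + 1 ≤ B1.card + B2.card := by
          have e1 := card_union_add_card_inter B1 B2
          have e2 : (B1 ∩ B2).Nonempty := by
            rw [nonempty_iff_ne_empty]
            intro he
            refine h ?_
            rw [← hu, union_sdiff_cancel_left (disjoint_iff_inter_eq_empty.2 he)]
          have := card_pos.2 e2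
          rw [hu] at e1; omega
        rw [abs_mul]
        refine (mul_le_mul m1 m2 (abs_nonneg _) (by positivity)).trans ?_
        calc _ = 4 * C * C' * ε ^ (B1.card + B2.card) := by ring
          _ ≤ _ := mul_le_mul_of_nonneg_left (pow_le_pow_of_le_one h0 h1 hc) (by positivity)
      · rw [abs_zero]; positivity
  · refine (abs_sum_le_sum_abs _ _).trans ((sum_powerset_le (c := C * C') (by positivity)
      fun B1 _ => ?_).trans ?_)
    · rw [abs_mul]; exact mul_le_mul (hF _).2 (hG _).2 (abs_nonneg _) hC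
    · have : 0 ≤ 2 ^ Fintype.card κ * (C * C') := by positivity
      nlinarith

theorem Jet.pow (hF : Jet ε C F y) (h0 : 0 ≤ ε) (h1 : ε ≤ 1) : ∀ k : ℕ,
    Jet ε ((4 * 2 ^ Fintype.card κ * 2 ^ Fintype.card κ * C) ^ k) (fun s => F s ^ k) (cpow y k)
  | 0 => fun B => by
    have : mob (fun s => F s ^ 0) B = if B = ∅ then 1 else 0 :=
      mob_eq_of_rep (c := fun B => if B = ∅ then 1 else 0) (fun s => by simp) B
    rw [this]
    simp only [cpow]
    split_ifs with h
    · subst h; simpa using h0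
    · simp; positivity
  | k + 1 => by
    have := hF.mul (hF.pow h0 h1 k) h0 h1
    simp only [← pow_succ'] at this
    exact this

theorem gam_le_one {a a' : ℝ} (ha : 0 ≤ a) (h : a ≤ a') (h1 : a' ≤ 1) (k : ℕ) : gam a a' k ≤ 1 := by
  rcases k with _ | _ | k
  · simp [gam]
  · rw [zero_add, gam_one]
  · exact (gam_le ha h h1 (by omega)).trans (by linarith)

theorem Lam_taylor {a a' y : ℝ} (ha : 0 ≤ a) (h : a ≤ a') (h0 : 0 < a') (h1 : a' ≤ 1) {δ : ℝ}
    (hy : |y| ≤ δ) (hδ : δ ≤ 1 / 2) (N : ℕ) :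
    |Lam a a' y - ∑ k ∈ range N, gam a a' k * y ^ k| ≤ 2 * δ ^ N := by
  have hδ0 : 0 ≤ δ := (abs_nonneg _).trans hy
  have hs := hasSum_Lam (y := y) ha h h0 (by
    rw [abs_mul, abs_of_pos h0]
    nlinarith [abs_nonneg y])
  rw [← hs.tsum_eq, ← hs.summable.sum_add_tsum_nat_add N, add_sub_cancel_left, ← Real.norm_eq_abs]
  have hg := (hasSum_geometric_two).mul_left (δ ^ N)
  rw [mul_comm]
  refine tsum_of_norm_bounded hg fun k => ?_
  rw [Real.norm_eq_abs, abs_mul, abs_of_nonneg (gam_nonneg ha h _), abs_pow, pow_add, mul_comm (δ ^ N)]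
  refine (mul_le_of_le_one_left (by positivity) (gam_le_one ha h h1 _)).trans ?_
  exact mul_le_mul (pow_le_pow_left₀ (abs_nonneg _) (hy.trans hδ) _)
    (pow_le_pow_left₀ (abs_nonneg _) hy _) (by positivity) (by positivity)

theorem Jet.lam (C : ℝ) : ∃ C' ε0 : ℝ, 0 < ε0 ∧ ∀ (ε : ℝ) (F y : Finset κ → ℝ) (a a' : ℝ), 0 ≤ ε →
    ε ≤ ε0 → Jet ε C F y → y ∅ = 0 → 0 ≤ a → a ≤ a' → 0 < a' → a' ≤ 1 →
    Jet ε C' (fun s => Lam a a' (F s)) (lamS a a' y) := by
  set n := Fintype.card κ
  set b : ℝ := 2 ^ n * (2 * |C|)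
  have hb : 0 ≤ b := by positivity
  set C1 := ∑ k ∈ range (n + 1), (4 * 2 ^ n * 2 ^ n * C) ^ k
  refine ⟨C1 + 2 ^ n * (2 * b ^ (n + 1)), 1 / (2 * (b + 1)), by positivity,
    fun ε F y a a' h0 hε hF hy ha h ha' h1 => ?_⟩
  have hC := hF.nonneg
  have hε1 : ε ≤ 1 := hε.trans (by rw [div_le_one (by positivity)]; linarith)
  have hδ : b * ε ≤ 1 / 2 := by
    rw [le_div_iff₀ (by positivity)] at hε; nlinarith
  have hFs : ∀ s, |F s| ≤ b * ε := fun s => by
    rw [← sum_mob s F, mul_assoc]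
    refine (abs_sum_le_sum_abs _ _).trans (sum_powerset_le (by positivity) fun B _ => ?_)
    rw [abs_of_nonneg hC]
    by_cases hB : B = ∅
    · subst hB
      have := (hF ∅).1
      simp only [hy, mul_zero, sub_zero, card_empty, zero_add, pow_one] at this
      nlinarith
    · refine (hF.abs_mob_le h0 hε1 B).trans (mul_le_mul_of_nonneg_left ?_ (by positivity))
      exact pow_le_of_le_one h0 hε1 (card_pos.2 (nonempty_iff_ne_empty.2 hB)).ne'
  have hl : ∀ B, lamS a a' y B = ∑ k ∈ range (n + 1), gam a a' k * cpow y k B := fun B => by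
    refine sum_subset (fun k hk => ?_) fun k _ hk => ?_
    · have := card_le_univ B
      have := (mem_Icc.1 hk).2
      exact mem_range.2 (by omega)
    · rw [mem_Icc, not_and_or, not_le, not_le] at hk
      rcases hk with hk | hk
      · obtain rfl : k = 0 := by omega
        simp [gam]
      · rw [cpow_eq_zero hy k B hk, mul_zero]
  have hγ : ∀ k (x c : ℝ), |x| ≤ c → |gam a a' k * x| ≤ c := fun k x c hx => by
    rw [abs_mul, abs_of_nonneg (gam_nonneg ha h k)]
    exact (mul_le_of_le_one_left (abs_nonneg _) (gam_le_one ha h h1 k)).trans hx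
  intro B
  rw [hl]
  constructor
  · have e1 : (fun s => Lam a a' (F s)) = fun s => ∑ k ∈ range (n + 1), gam a a' k * F s ^ k +
        (Lam a a' (F s) - ∑ k ∈ range (n + 1), gam a a' k * F s ^ k) := by
      funext s; ring
    rw [e1, mob_add, mob_wsum, add_sub_right_comm, mul_sum, ← sum_sub_distrib, add_mul]
    refine (abs_add_le _ _).trans (add_le_add ?_ ?_)
    · rw [sum_mul]
      refine (abs_sum_le_sum_abs _ _).trans (sum_le_sum fun k _ => ?_)
      rw [mul_left_comm, ← mul_sub]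
      exact hγ k _ _ (hF.pow h0 hε1 k B).1
    · refine (abs_mob_le_sum _ _).trans ((sum_powerset_le (by positivity) fun s _ =>
        Lam_taylor ha h ha' h1 (hFs s) hδ (n + 1)).trans ?_)
      rw [mul_pow, mul_assoc, mul_assoc]
      refine mul_le_mul_of_nonneg_left (mul_le_mul_of_nonneg_left
        (mul_le_mul_of_nonneg_left ?_ (by positivity)) zero_le_two) (by positivity)
      exact pow_le_pow_of_le_one h0 hε1 (Nat.succ_le_succ (card_le_univ B))
  · refine le_add_of_le_of_nonneg ?_ (by positivity)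
    exact (abs_sum_le_sum_abs _ _).trans (sum_le_sum fun k _ => hγ k _ _ (hF.pow h0 hε1 k B).2)

theorem Jet.tree (C : ℝ) (j : ℕ) : ∃ C' ε0 : ℝ, 0 < ε0 ∧ ∀ (ε : ℝ), 0 ≤ ε → ε ≤ ε0 →
    ∀ (S : Type) [Fintype S] (K : Ker S) (e : ℕ → ℝ) (R : ℕ), IsKer K → Exps e R → j < R →
    ∀ (U u : List S → Finset κ → ℝ), (∀ l, Jet ε C (U l) (u l)) → (∀ l, u l ∅ = 0) →
    ∀ h, Jet ε C' (fun s => Y e K j h fun l => U l s) (Yf e K (fun _ _ => 1) j h u) := by
  induction j with
  | zero => exact ⟨C, 1, one_pos, fun ε _ _ S _ K e R _ _ _ U u hU _ h => hU h⟩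
  | succ j ih =>
    obtain ⟨C1, ε1, h1, H1⟩ := ih
    obtain ⟨C2, ε2, h2, H2⟩ := Jet.lam (κ := κ) C1
    refine ⟨C2, min ε1 ε2, lt_min h1 h2, fun ε h0 hε S _ K e R hK he hj U u hU hu h => ?_⟩
    simp only [Y, Yf, one_mul]
    exact H2 ε _ _ _ _ h0 (hε.trans (min_le_right _ _))
      (Jet.wsum (hK.1 h) (hK.2 h) fun s => H1 ε h0 (hε.trans (min_le_left _ _)) S K e R hK he
        (by omega) U u hU hu (s :: h))
      (by simp [Yf_empty e K _ hu]) (he.pos' _ hj).le (he.anti j hj) (he.pos' _ (by omega))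
      (he.le_one _ (by omega))

end mob

end Crest.Agent.H9.MP
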