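import Crest.Agent.H9.MP.T4b

/-! MP-T4c: the average additivity defect is small. -/

/-
Sketch. Fix j, (x,π,j0,s,s'); g1 = (j, θ j), g2 = (j, last), t1 = (x,π,j0,s), t2 = (x,π,j0,s'). Ksys/Psys on actS θ do not read y, a at g1, g2, so for i = (i1,i2) apply Ddef_le_cov to
y' = y[g1 ↦ t1, g2 ↦ t2], a' = a[g1 ↦ i1, g2 ↦ i2]; K ≤ 16 K' (tiltK_le, gfac_mem), pathE_le_of_ker_le. Put cov(θ,y,a) = pathE K' Σ K' h s0 |covB ..| ≥ 0:
avg_a avg_i f(a') = avg_a f(a), avg_y f(y') ≤ card(Ty)² avg_y f(y). insert g1 (insert g2 (actS θ)) does not depend on θ j: average over θ j first (avg_θ f θ = avg_θ avg_u f(θ[j ↦ u])) and use pinning_avg.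
-/

set_option autoImplicit false

namespace Crest.Agent.H9.MP

open Finset
open scoped BigOperators

theorem isCond_Psys {I : Type} [Fintype I] [DecidableEq I] {D R Θ : ℕ} {ε : ℝ} (hR : 0 < R)
    (h0 : 0 ≤ ε) (hε : ε * D ≤ 1 / 2) (θ : Fin R → Fin (Θ + 1)) (y : Gam R Θ → Ty D R)
    (a : Gam R Θ → I) (H : (I → Bool) → ℝ) :
    IsCond (Ksys ε (fun g => g.1.val) y a H (actS θ)) (Psys ε θ y a H) :=
  ⟨fun h _ _ => condP_nonneg (fun s => (Ksys_pos hR h0 hε _ y a H _ h s).le) _ _ _,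
    fun h _ => sum_condP (Ksys_pos hR h0 hε _ y a H _ h) _ _,
    fun h _ => sum_mul_condP (Ksys_pos hR h0 hε _ y a H _ h) _ _⟩

theorem pathE_expect {S α : Type} [Fintype S] [Fintype α] (K : Ker S) (n : ℕ)
    (F : α → List S → ℝ) : pathE K n (fun l => 𝔼 a, F a l) = 𝔼 a, pathE K n (F a) := by
  simp only [expect_eq_sum_div_card, div_eq_inv_mul]
  rw [pathE_const_mul, pathE_sum]

theorem nodeE_expect {S α : Type} [Fintype S] [Fintype α] (K : Ker S) (n : ℕ)
    (F : α → List S → S → ℝ) : nodeE K n (fun l s => 𝔼 a, F a l s) = 𝔼 a, nodeE K n (F a) := by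
  simp only [expect_eq_sum_div_card, div_eq_inv_mul]
  rw [nodeE_const_mul, nodeE_sum]

theorem nodeE_le_of_ker_le {S : Type} [Fintype S] {K K' : Ker S} (hK : IsKer K) (hK' : IsKer K')
    {C : ℝ} (hC : 0 ≤ C) (h : ∀ l s, K l s ≤ C * K' l s) (n : ℕ) {F : List S → S → ℝ}
    (hF : ∀ l s, 0 ≤ F l s) : nodeE K n F ≤ C ^ (n + 1) * nodeE K' n F :=
  pathE_le_of_ker_le hK hK' hC h (n + 1) (F := fun l => match l with
    | [] => 0
    | s :: l => F l s) fun l => by cases l <;> simp [hF]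

theorem expect_update2 {A B : Type} [Fintype A] [DecidableEq A] [Fintype B] [Nonempty B] (a a' : A)
    (f : (A → B) → ℝ) : 𝔼 x : A → B, 𝔼 b : B × B,
      f (Function.update (Function.update x a b.1) a' b.2) = 𝔼 x, f x := by
  rw [expect_update a' f, expect_update a fun x => 𝔼 b, f (Function.update x a' b)]
  simp only [expect_prod (A := B)]

theorem expect_update2_le {A B : Type} [Fintype A] [DecidableEq A] [Fintype B] (a a' : A) (b b' : B)
    {f : (A → B) → ℝ} (hf : ∀ x, 0 ≤ f x) :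
    𝔼 x : A → B, f (Function.update (Function.update x a b) a' b') ≤
      Fintype.card (B × B) * 𝔼 x, f x := by
  have : Nonempty B := ⟨b⟩
  rw [← expect_update2 a a' f, mul_expect]
  refine expect_le_expect fun x _ => ?_
  rw [expect_eq_sum_div_card, card_univ, mul_div_cancel₀ _ (by exact_mod_cast Fintype.card_ne_zero)]
  exact single_le_sum (f := fun b : B × B => f (Function.update (Function.update x a b.1) a' b.2))
    (fun _ _ => hf _) (mem_univ (b, b'))

section
variable {Γ I : Type} [Fintype Γ] [DecidableEq Γ] [Fintype I] [DecidableEq I] {D R : ℕ} {ε : ℝ}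

theorem Ksys_congr {lev : Γ → ℕ} {y y' : Γ → Ty D R} {a a' : Γ → I} {H : (I → Bool) → ℝ}
    {Act : Finset Γ} (h : ∀ g ∈ Act, y g = y' g ∧ a g = a' g) :
    Ksys ε lev y a H Act = Ksys ε lev y' a' H Act := by
  unfold Ksys
  congr 1
  funext l
  unfold Zsys
  rw [prod_congr rfl fun g hg => by rw [(h g hg).1, (h g hg).2]]

theorem Ksys_le (hR : 0 < R) (h0 : 0 ≤ ε) (hε : ε * D ≤ 1 / 2) (lev : Γ → ℕ) (y : Γ → Ty D R)
    (a : Γ → I) (H : (I → Bool) → ℝ) {Act : Finset Γ} {g1 g2 : Γ} (h12 : g1 ≠ g2) (h1 : g1 ∉ Act)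
    (h2 : g2 ∉ Act) (l : List (Sys Γ I D)) (s : Sys Γ I D) :
    Ksys ε lev y a H Act l s ≤
      Real.exp (2 * 4) * Ksys ε lev y a H (insert g1 (insert g2 Act)) l s := by
  refine tiltK_le isKer_unifK (exps_eU hR) (Zsys_pos h0 hε lev y a H _) (Zsys_pos h0 hε lev y a H _)
    (fun l => ?_) l s
  have hZ := Zsys_pos h0 hε lev y a H Act l
  obtain ⟨a1, a2⟩ := gfac_mem h0 hε (lev g1) (y g1) (conf l (a g1)) (l.map fun s => s.1 g1)
  obtain ⟨b1, b2⟩ := gfac_mem h0 hε (lev g2) (y g2) (conf l (a g2)) (l.map fun s => s.1 g2)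
  have : Zsys ε lev y a H (insert g1 (insert g2 Act)) l = Zsys ε lev y a H Act l *
      (gfac ε (lev g1) (y g1) (conf l (a g1)) (l.map fun s => s.1 g1) *
        gfac ε (lev g2) (y g2) (conf l (a g2)) (l.map fun s => s.1 g2)) := by
    simp only [Zsys]
    rw [prod_insert (by simp [h12, h1]), prod_insert h2]; ring
  generalize gfac ε (lev g1) (y g1) (conf l (a g1)) (l.map fun s => s.1 g1) = u at *
  generalize gfac ε (lev g2) (y g2) (conf l (a g2)) (l.map fun s => s.1 g2) = v at *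
  have huv : 0 < u * v := by nlinarith
  rw [this, Real.log_mul hZ.ne' huv.ne', sub_add_cancel_left, abs_neg, abs_le]
  have c1 := Real.log_le_sub_one_of_pos huv
  have c2 := Real.one_sub_inv_le_log_of_pos huv
  have c3 : (u * v)⁻¹ ≤ 4 := by
    rw [inv_le_comm₀ huv (by norm_num)]; nlinarith
  constructor <;> nlinarith

end

/-- The mean covariance of the two test switches at level `j`. -/
noncomputable def cvE {I : Type} [Fintype I] [DecidableEq I] {D R Θ : ℕ} (ε : ℝ) (j : Fin R)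
    (θ : Fin R → Fin (Θ + 1)) (y : Gam R Θ → Ty D R) (a : Gam R Θ → I) (H : (I → Bool) → ℝ) : ℝ :=
  nodeE (Ksys ε (fun g => g.1.val) y a H
      (insert (j, (θ j).castSucc) (insert (j, Fin.last _) (actS θ)))) (R - 1 - j.val) fun h s0 =>
    |covB (condP (Ksys ε (fun g => g.1.val) y a H
        (insert (j, (θ j).castSucc) (insert (j, Fin.last _) (actS θ))) h) (bits (pinS θ j)) s0)
      (fun s => (s.1 (j, (θ j).castSucc)).1) (fun s => (s.1 (j, Fin.last _)).1)|

theorem cvE_avg {I : Type} [Fintype I] [DecidableEq I] {D R Θ : ℕ} {ε : ℝ} (hR : 0 < R)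
    (h0 : 0 ≤ ε) (hε : ε * D ≤ 1 / 2) (j : Fin R) (y : Gam R Θ → Ty D R) (a : Gam R Θ → I)
    (H : (I → Bool) → ℝ) : 𝔼 θ : Fin R → Fin (Θ + 1), cvE ε j θ y a H ≤ 1 / √(Θ + 1 : ℝ) := by
  rw [expect_update j]
  refine expect_le univ_nonempty fun θ _ => ?_
  set A' : Finset (Gam R Θ) := insert (j, (θ j).castSucc) (insert (j, Fin.last _) (actS θ))
  have hA : ∀ u : Fin (Θ + 1), (insert (j, u.castSucc) (insert (j, Fin.last _)
      (actS (Function.update θ j u))) : Finset (Gam R Θ)) = A' := by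
    intro u
    ext ⟨k, v⟩
    simp only [A', actS, mem_insert, mem_filter, mem_univ, true_and, Prod.mk.injEq]
    by_cases hk : k = j
    · subst hk; simp only [true_and, Function.update_self]; tauto
    · simp [hk]
  simp only [cvE, Function.update_self, hA, nodeE]
  rw [← pathE_expect]
  have hK := isKer_Ksys hR h0 hε (fun g : Gam R Θ => g.1.val) y a H A'
  refine (pathE_mono hK _ fun h _ => ?_).trans (pathE_const hK _ _).le
  refine pinning_avg (Ksys_pos hR h0 hε _ y a H A' h) (hK.2 h) Θ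
    (fun u s => (s.1 (j, u.castSucc)).1) _ (fun u => bits (pinS (Function.update θ j u) j))
    fun u s s' => ?_
  simp only [funext_iff, bits, pinS, mem_filter, mem_univ, true_and]
  constructor
  · intro hh u' hu'
    simpa [show u'.val < u.val from hu'] using hh (j, u'.castSucc)
  · rintro hh ⟨k, v⟩
    split_ifs with hc
    · obtain rfl : k = j := Fin.ext hc.1
      have hv : v.val < u.val := by simpa using hc.2
      exact hh ⟨v.val, by omega⟩ hv
    · rfl

theorem expect3_sum_le {A B C J : Type} [Fintype A] [Fintype B] [Fintype C] (s : Finset J)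
    (f : A → B → C → J → ℝ) (c : J → ℝ) (d : ℝ)
    (h : ∀ j ∈ s, 𝔼 a, 𝔼 b, 𝔼 x, f a b x j ≤ c j / d) :
    𝔼 a, 𝔼 b, 𝔼 x, ∑ j ∈ s, f a b x j ≤ (∑ j ∈ s, c j) / d := by
  simp only [expect_sum_comm, sum_div]
  exact sum_le_sum h

theorem Derr_avg (D R : ℕ) (hR : 0 < R) : ∃ C : ℝ, 0 ≤ C ∧ ∀ (ε : ℝ), 0 ≤ ε → ε * D ≤ 1 / 2 →
    ∀ (Θ : ℕ) (I : Type) [Fintype I] [DecidableEq I] [Nonempty I] (H : (I → Bool) → ℝ),
      (𝔼 θ : Fin R → Fin (Θ + 1), 𝔼 y : Gam R Θ → Ty D R, 𝔼 a : Gam R Θ → I,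
        Derr D R ε (Ksys ε (fun g => g.1.val) y a H (actS θ)) (Psys ε θ y a H)
          (fun i l => conf l i)) ≤ C / √(Θ + 1 : ℝ) := by
  obtain ⟨C, hC, hcov⟩ := Ddef_le_cov R hR
  obtain ⟨c, hc⟩ : ∃ c : ℝ, c = C * Real.exp (2 * 4) ^ R * Fintype.card (Ty D R × Ty D R) :=
    ⟨_, rfl⟩
  have hc0 : 0 ≤ c := by rw [hc]; positivity
  refine ⟨∑ j : Fin R, ∑ _x : Fin D → Bool, ∑ _π : Fin R → Finset (Finset (Fin D)),
    ∑ _j0 ∈ range (j.val + 2), ∑ _s : Finset (Fin D), ∑ _s' : Finset (Fin D), c,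
    by positivity, fun ε h0 hε Θ I _ _ _ H => ?_⟩
  unfold Derr
  refine expect3_sum_le _ _ _ _ fun j _ => expect3_sum_le _ _ _ _ fun x _ =>
    expect3_sum_le _ _ _ _ fun π _ => expect3_sum_le _ _ _ _ fun j0 hj0 =>
    expect3_sum_le _ _ _ _ fun s _ => expect3_sum_le _ _ _ _ fun s' _ => ?_
  have hj0' : j0 ≤ j.val + 1 := by have := mem_range.1 hj0; omega
  set t1 : Ty D R := (x, π, ⟨j0, by omega⟩, s)
  set t2 : Ty D R := (x, π, ⟨j0, by omega⟩, s')
  have hcv0 : ∀ (θ : Fin R → Fin (Θ + 1)) (y : Gam R Θ → Ty D R) a, 0 ≤ cvE ε j θ y a H :=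
    fun θ y a => nodeE_nonneg (isKer_Ksys hR h0 hε _ _ _ _ _) _ fun _ _ => abs_nonneg _
  have key : ∀ (θ : Fin R → Fin (Θ + 1)) (y : Gam R Θ → Ty D R) (a : Gam R Θ → I),
      nodeE (Ksys ε (fun g => g.1.val) y a H (actS θ)) (R - 1 - j.val) (fun h s0 => 𝔼 i : I × I,
        |Ddef (eU R) (Ksys ε (fun g => g.1.val) y a H (actS θ)) (Psys ε θ y a H) ε (extP π) (extP π)
          j0 j0 s s' (ind (fun i l => conf l i) x i.1) (ind (fun i l => conf l i) x i.2) j h s0|) ≤
      C * Real.exp (2 * 4) ^ R * 𝔼 i : I × I, cvE ε j θ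
        (Function.update (Function.update y (j, (θ j).castSucc) t1) (j, Fin.last _) t2)
        (Function.update (Function.update a (j, (θ j).castSucc) i.1) (j, Fin.last _) i.2) H := by
    intro θ y a
    rw [nodeE_expect, mul_expect]
    refine expect_le_expect fun i _ => ?_
    set g1 : Gam R Θ := (j, (θ j).castSucc) with hg1
    set g2 : Gam R Θ := (j, Fin.last _) with hg2
    have h12 : g1 ≠ g2 := by simp [hg1, hg2, Fin.castSucc_ne_last]
    have h1 : g1 ∉ actS θ := by simp [hg1, actS]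
    have h2 : g2 ∉ actS θ := by simp [hg2, actS]
    set y' := Function.update (Function.update y g1 t1) g2 t2 with hy'
    set a' := Function.update (Function.update a g1 i.1) g2 i.2 with ha'
    have hKe : Ksys ε (fun g => g.1.val) y a H (actS θ) = Ksys ε (fun g => g.1.val) y' a' H (actS θ) :=
      Ksys_congr fun g hg => by
        simp [hy', ha', ne_of_mem_of_not_mem hg h1, ne_of_mem_of_not_mem hg h2]
    have y1 : y' g1 = t1 := by simp [hy', h12]
    have y2 : y' g2 = t2 := by simp [hy']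
    have a1 : a' g1 = i.1 := by simp [ha', h12]
    have a2 : a' g2 = i.2 := by simp [ha']
    have hK := isKer_Ksys hR h0 hε (fun g : Gam R Θ => g.1.val) y' a' H (actS θ)
    have hK' := isKer_Ksys hR h0 hε (fun g : Gam R Θ => g.1.val) y' a' H
      (insert g1 (insert g2 (actS θ)))
    have b1 := fun h s0 (hh : h.length = R - 1 - j.val) =>
      hcov _ I D ε h0 hε (fun g : Gam R Θ => g.1.val) y' a' H (actS θ) (pinS θ j) g1 g2 j j.2 h12
        h1 h2 (by simp [hg1, pinS]) (by simp [hg2, pinS]) rfl rfl (by rw [y1]; exact hj0')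
        (by rw [y2]; exact hj0') (Psys ε θ y a H) h s0 (by have := j.2; omega) (by
          funext s
          rw [Psys, hKe, hh, show R - 1 - (R - 1 - j.val) = j.val by have := j.2; omega])
    rw [y1, y2, a1, a2] at b1
    rw [hKe]
    refine (nodeE_mono hK _ b1).trans ?_
    rw [nodeE_const_mul, mul_assoc]
    refine mul_le_mul_of_nonneg_left ?_ hC
    refine (nodeE_le_of_ker_le hK hK' (Real.exp_pos _).le
      (Ksys_le hR h0 hε _ y' a' H h12 h1 h2) _ fun _ _ => abs_nonneg _).trans ?_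
    rw [show R - 1 - j.val + 1 = R - j.val by have := j.2; omega]
    exact mul_le_mul_of_nonneg_right (pow_le_pow_right₀ (Real.one_le_exp (by norm_num))
      (Nat.sub_le _ _)) (hcv0 θ y' a')
  refine (expect_le_expect fun θ _ => expect_le_expect fun y _ => expect_le_expect fun a _ =>
    key θ y a).trans ?_
  simp only [← mul_expect]
  rw [hc, mul_div_assoc]
  refine mul_le_mul_of_nonneg_left ?_ (by positivity)
  have e1 : ∀ (θ : Fin R → Fin (Θ + 1)) (y : Gam R Θ → Ty D R), 𝔼 a : Gam R Θ → I, 𝔼 i : I × I,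
      cvE ε j θ y (Function.update (Function.update a (j, (θ j).castSucc) i.1) (j, Fin.last _) i.2)
        H = 𝔼 a, cvE ε j θ y a H := fun θ y => expect_update2 _ _ fun a => cvE ε j θ y a H
  simp only [e1]
  refine (expect_le_expect fun θ _ => expect_update2_le _ _ t1 t2
    (f := fun y => 𝔼 a, cvE ε j θ y a H) fun y => expect_nonneg fun a _ => hcv0 θ y a).trans ?_
  rw [← mul_expect, div_eq_mul_one_div]
  refine mul_le_mul_of_nonneg_left ?_ (by positivity)
  rw [expect_comm]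
  refine expect_le univ_nonempty fun y _ => ?_
  rw [expect_comm]
  exact expect_le univ_nonempty fun a _ => cvE_avg hR h0 hε j y a H

end Crest.Agent.H9.MP
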