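import Crest.Agent.H9.MP.T2
import Crest.Agent.H9.MP.T3
import Crest.Agent.H9.MP.T4c

/-! MP-T4: the perturbed hierarchical free energy. -/

/-
Sketch. D, R0, η from decouple (ε/2); R = max R0 1; C, ε0 from Cerr_le; δ = ε/(8 (Kb+1)); choose the gadget strength ε1 ≤ ε0, ε1 D ≤ 1/2, C ε1 ≤ ηδ/2, then Θ with
C C' /(√(Θ+1) ε1^(2D)) ≤ ηδ/2 (Derr_avg). Γ = Gam R Θ, Ψ m = avg_θ avg_y log T (eU R) (unifK (Γ → Om D)) R [] (l ↦ Σ_τ m τ Π_{g ∈ actS θ} gfac ε1 g.1 (y g) (τ g) (l.map (· g))).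
Since e 0 = 1, T (unifK Sys) R [] (Zsys H) = 2^(-card I) T(..marg a H..); T_tilt gives Ψ(marg a (H + log W∘i)) - Ψ(marg a H) = avg log T Ksys (W ∘ conf ∘ i), avg_i → Gtrue.
J = θ × y × a × Sys, lam = uniform * Ksys [] s0, K = rootK Ksys Psys s0. Markov: avg Cerr ≤ ηδ, on Cerr > η use |Gtrue|, |Gprod| ≤ Kb.
-/

set_option autoImplicit false

namespace Crest.Agent.H9.MP

open scoped BigOperators

namespace LB

open Finset

theorem T_last {S : Type} [Fintype S] {e : ℕ → ℝ} (he : e 0 = 1) (K : Ker S)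
    {W W' : List S → ℝ} (h : ∀ l, ∑ s, K l s * W (s :: l) = ∑ s, K l s * W' (s :: l)) (j : ℕ) :
    ∀ l, T e K (j + 1) l W = T e K (j + 1) l W' := by
  induction j with
  | zero => intro l; simp only [T, he, Real.rpow_one, h]
  | succ j ih =>
    intro l
    rw [T, T]
    simp only [ih]

section
variable {Γ : Type} [Fintype Γ] [DecidableEq Γ] {D R : ℕ} {ε : ℝ}

/-- The leaf weight as a function of the marginal on the gadget sites. -/
noncomputable def Wm (ε : ℝ) (lev : Γ → ℕ) (y : Γ → Ty D R) (Act : Finset Γ)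
    (m : (Γ → Bool) → ℝ) (l : List (Γ → Om D)) : ℝ :=
  ∑ τ, m τ * ∏ g ∈ Act, gfac ε (lev g) (y g) (τ g) (l.map fun s => s g)

omit [DecidableEq Γ] in
theorem prod_gfac_mem (h0 : 0 ≤ ε) (hε : ε * D ≤ 1 / 2) (lev : Γ → ℕ) (y : Γ → Ty D R)
    (Act : Finset Γ) (τ : Γ → Bool) (z : Γ → List (Om D)) :
    (1 / 2) ^ Fintype.card Γ ≤ ∏ g ∈ Act, gfac ε (lev g) (y g) (τ g) (z g) ∧
      ∏ g ∈ Act, gfac ε (lev g) (y g) (τ g) (z g) ≤ 2 ^ Fintype.card Γ := by
  constructor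
  · refine (pow_le_pow_of_le_one (by norm_num) (by norm_num) (card_le_univ Act)).trans ?_
    rw [← prod_const]
    exact prod_le_prod (fun _ _ => by norm_num) fun g _ => (gfac_mem h0 hε _ _ _ _).1
  · refine le_trans ?_ (pow_le_pow_right₀ one_le_two (card_le_univ Act))
    rw [← prod_const]
    exact prod_le_prod (fun g _ => le_trans (by norm_num) (gfac_mem h0 hε _ _ _ _).1)
      fun g _ => (gfac_mem h0 hε _ _ _ _).2

theorem Wm_mem (h0 : 0 ≤ ε) (hε : ε * D ≤ 1 / 2) (lev : Γ → ℕ) (y : Γ → Ty D R) (Act : Finset Γ)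
    {m : (Γ → Bool) → ℝ} (hm : ∀ τ, 0 ≤ m τ) (l : List (Γ → Om D)) :
    (∑ τ, m τ) * (1 / 2) ^ Fintype.card Γ ≤ Wm ε lev y Act m l ∧
      Wm ε lev y Act m l ≤ (∑ τ, m τ) * 2 ^ Fintype.card Γ := by
  simp only [Wm, sum_mul]
  exact ⟨sum_le_sum fun τ _ => mul_le_mul_of_nonneg_left
      (prod_gfac_mem h0 hε lev y Act τ fun g => l.map fun s => s g).1 (hm τ),
    sum_le_sum fun τ _ => mul_le_mul_of_nonneg_left
      (prod_gfac_mem h0 hε lev y Act τ fun g => l.map fun s => s g).2 (hm τ)⟩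

theorem Wm_pos (h0 : 0 ≤ ε) (hε : ε * D ≤ 1 / 2) (lev : Γ → ℕ) (y : Γ → Ty D R) (Act : Finset Γ)
    {m : (Γ → Bool) → ℝ} (hm : ∀ τ, 0 ≤ m τ) (hs : 0 < ∑ τ, m τ) (l : List (Γ → Om D)) :
    0 < Wm ε lev y Act m l :=
  lt_of_lt_of_le (by positivity) (Wm_mem h0 hε lev y Act hm l).1

/-- The free energy of the gadget tree. -/
noncomputable def LT (ε : ℝ) (lev : Γ → ℕ) (y : Γ → Ty D R) (Act : Finset Γ)
    (m : (Γ → Bool) → ℝ) : ℝ :=
  Real.log (T (eU R) (unifK (Γ → Om D)) R [] (Wm ε lev y Act m))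

theorem LT_mono (hR : 0 < R) (h0 : 0 ≤ ε) (hε : ε * D ≤ 1 / 2) (lev : Γ → ℕ) (y : Γ → Ty D R)
    (Act : Finset Γ) {m m' : (Γ → Bool) → ℝ} {c : ℝ} (hm : ∀ τ, 0 ≤ m τ) (hs : 0 < ∑ τ, m τ)
    (h : ∀ τ, m τ ≤ Real.exp c * m' τ) : LT ε lev y Act m ≤ LT ε lev y Act m' + c := by
  have hm' : ∀ τ, 0 ≤ m' τ := fun τ =>
    nonneg_of_mul_nonneg_right ((hm τ).trans (h τ)) (Real.exp_pos c)
  have hs' : 0 < ∑ τ, m' τ := by
    have := hs.trans_le (sum_le_sum fun τ _ => h τ)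
    rw [← mul_sum] at this
    exact (mul_pos_iff_of_pos_left (Real.exp_pos c)).1 this
  refine log_T_le isKer_unifK R (exps_eU hR).pos' [] (Wm_pos h0 hε lev y Act hm hs)
    (Wm_pos h0 hε lev y Act hm' hs') fun l => ?_
  have : Wm ε lev y Act m l ≤ Real.exp c * Wm ε lev y Act m' l := by
    simp only [Wm, mul_sum, ← mul_assoc]
    exact sum_le_sum fun τ _ => mul_le_mul_of_nonneg_right (h τ) (le_trans (by positivity)
      (prod_gfac_mem h0 hε lev y Act τ fun g => l.map fun s => s g).1)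
  have x := Real.log_le_log (Wm_pos h0 hε lev y Act hm hs l) this
  rwa [Real.log_mul (Real.exp_pos c).ne' (Wm_pos h0 hε lev y Act hm' hs' l).ne', Real.log_exp,
    add_comm] at x

theorem LT_near (hR : 0 < R) (h0 : 0 ≤ ε) (hε : ε * D ≤ 1 / 2) (lev : Γ → ℕ) (y : Γ → Ty D R)
    (Act : Finset Γ) {m : (Γ → Bool) → ℝ} (hm : ∀ τ, 0 ≤ m τ) (hs : 0 < ∑ τ, m τ) :
    |LT ε lev y Act m - Real.log (∑ τ, m τ)| ≤ Fintype.card Γ * Real.log 2 := by
  have x := T_mem isKer_unifK R (exps_eU hR).pos' [] (by positivity) (Wm_mem h0 hε lev y Act hm)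
  have a := Real.log_le_log (by positivity) x.1
  have b := Real.log_le_log (lt_of_lt_of_le (by positivity) x.1) x.2
  rw [Real.log_mul hs.ne' (by positivity), Real.log_pow] at a b
  rw [one_div, Real.log_inv] at a
  unfold LT
  rw [abs_le]
  constructor <;> linarith

variable {I : Type} [Fintype I] [DecidableEq I]

theorem sum_marg_mul (a : Γ → I) (H : (I → Bool) → ℝ) (G : (Γ → Bool) → ℝ) :
    ∑ τ, marg a H τ * G τ = ∑ σ, Real.exp (H σ) * G fun g => σ (a g) := by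
  simp only [marg, sum_mul]
  rw [sum_comm]
  simp

theorem marg_nonneg (a : Γ → I) (H : (I → Bool) → ℝ) (τ : Γ → Bool) : 0 ≤ marg a H τ :=
  sum_nonneg fun σ _ => by split_ifs <;> positivity

theorem sum_marg_pos (a : Γ → I) (H : (I → Bool) → ℝ) : 0 < ∑ τ, marg a H τ := by
  have := sum_marg_mul a H fun _ => 1
  simp only [mul_one] at this
  rw [this]
  exact sum_pos (fun s _ => Real.exp_pos _) univ_nonempty

theorem T_Zsys (hR : 0 < R) (h0 : 0 ≤ ε) (hε : ε * D ≤ 1 / 2) (lev : Γ → ℕ) (y : Γ → Ty D R)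
    (a : Γ → I) (H : (I → Bool) → ℝ) (Act : Finset Γ) :
    T (eU R) (unifK (Sys Γ I D)) R [] (Zsys ε lev y a H Act) =
      (Fintype.card (I → Bool) : ℝ)⁻¹ *
        T (eU R) (unifK (Γ → Om D)) R [] (Wm ε lev y Act (marg a H)) := by
  rw [← T_const_mul isKer_unifK R (exps_eU hR).pos' []
    (fun l => (Wm_pos h0 hε lev y Act (marg_nonneg a H) (sum_marg_pos a H) l).le) (by positivity)]
  have x := T_map (e := eU R) (K := unifK (Γ → Om D)) (K' := unifK (Sys Γ I D)) Prod.fst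
    (fun l G => by
      rw [sum_unifK, sum_unifK, expect_prod]
      simp only [Fintype.expect_const]) R []
    fun l => (Fintype.card (I → Bool) : ℝ)⁻¹ * Wm ε lev y Act (marg a H) l
  rw [List.map_nil] at x
  rw [← x]
  obtain ⟨r, hr⟩ : ∃ r, R = r + 1 := ⟨R - 1, by omega⟩
  have := T_last (exps_eU hR).zero (unifK (Sys Γ I D)) (W := Zsys ε lev y a H Act)
    (W' := fun l => (Fintype.card (I → Bool) : ℝ)⁻¹ * Wm ε lev y Act (marg a H) (l.map Prod.fst))
    (fun l => by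
      rw [sum_unifK, sum_unifK, expect_prod, expect_prod]
      refine expect_congr rfl fun ω _ => ?_
      simp only [List.map_cons, Fintype.expect_const, Wm]
      rw [sum_marg_mul, Fintype.expect_eq_sum_div_card, div_eq_inv_mul]
      simp only [Zsys, conf, List.map_cons, List.headD_cons, List.map_map]
      rfl) r []
  rwa [← hr] at this

theorem LT_sub (hR : 0 < R) (h0 : 0 ≤ ε) (hε : ε * D ≤ 1 / 2) (lev : Γ → ℕ) (y : Γ → Ty D R)
    (a : Γ → I) (H : (I → Bool) → ℝ) (Act : Finset Γ) {V : (I → Bool) → ℝ} (hV : ∀ s, 0 < V s) :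
    LT ε lev y Act (marg a fun s => H s + Real.log (V s)) - LT ε lev y Act (marg a H) =
      Real.log (T (eU R) (Ksys ε lev y a H Act) R [] fun l => V (conf l)) := by
  have he := (exps_eU hR).pos'
  have x := T_tilt isKer_unifK he (Zsys_pos h0 hε lev y a H Act) (W := fun l => V (conf l))
    (fun l => (hV _).le) R [] (by simp)
  have e : (fun l => Zsys ε lev y a H Act l * V (conf l)) =
      Zsys ε lev y a (fun s => H s + Real.log (V s)) Act := by
    funext l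
    simp only [Zsys, Real.exp_add, Real.exp_log (hV _)]
    ring
  rw [e, T_Zsys hR h0 hε, T_Zsys hR h0 hε, mul_assoc] at x
  have x' := mul_left_cancel₀ (by positivity) x
  unfold LT
  rw [x', Real.log_mul (T_pos isKer_unifK R he []
    (Wm_pos h0 hε lev y Act (marg_nonneg a H) (sum_marg_pos a H))).ne'
    (T_pos (isKer_unifK.tiltK he hR (Zsys_pos h0 hε lev y a H Act)) R he [] fun l => hV _).ne']
  simp only [Ksys, add_sub_cancel_left]

end

theorem posSpin {I : Type} [Fintype I] [DecidableEq I] {D R Θ : ℕ} {ε : ℝ} (hR : 0 < R)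
    (h0 : 0 ≤ ε) (hε : ε * D ≤ 1 / 2) (θ : Fin R → Fin (Θ + 1)) (y : Gam R Θ → Ty D R)
    (a : Gam R Θ → I) (H : (I → Bool) → ℝ) (s0 : Sys (Gam R Θ) I D) :
    PosSpin R (rootK (Ksys ε (fun g => g.1.val) y a H (actS θ)) (Psys ε θ y a H) s0)
      fun i l => conf l i := by
  intro i h b _
  have k1 := isKer_Ksys hR h0 hε (fun g => g.1.val) y a H (actS θ)
  have k2 := isCond_Psys hR h0 hε θ y a H
  have hK := IsKer.rootK k1 k2 s0
  refine sum_pos' (fun s _ => mul_nonneg (hK.1 _ _) (by split_ifs <;> norm_num))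
    ⟨(s0.1, fun _ => b), mem_univ _, ?_⟩
  rw [if_pos (by simp [conf]), mul_one]
  have hp := Ksys_pos hR h0 hε (fun g => g.1.val) y a H (actS θ)
  cases h with
  | nil =>
    change 0 < condP _ _ _ _
    unfold condP
    rw [if_pos (show bits _ (s0.1, fun _ => b) = bits _ s0 from rfl)]
    exact div_pos (hp _ _) (condP_den_pos (hp _) _ _)
  | cons t h => exact hp _ _

theorem Cerr_nonneg {S I : Type} [Fintype S] [Fintype I] (D R : ℕ) {K : Ker S} (hK : IsKer K)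
    (P : List S → S → S → ℝ) (σ : I → List S → Bool) : 0 ≤ Cerr D R K P σ :=
  sum_nonneg fun _ _ => sum_nonneg fun _ _ => sum_nonneg fun _ _ => sum_nonneg fun _ _ =>
    sum_nonneg fun _ _ => nodeE_nonneg hK _ fun _ _ => expect_nonneg fun _ _ => abs_nonneg _

theorem crude {S I L : Type} [Fintype S] [Fintype I] [Nonempty I] [Fintype L] [DecidableEq L]
    {R : ℕ} (hR : 0 < R) {K : Ker S} {P : List S → S → S → ℝ} (hK : IsKer K) (hP : IsCond K P)
    (σ : I → List S → Bool) {W : (L → Bool) → ℝ} {Kb : ℝ}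
    (hW : ∀ s, Real.exp (-Kb) ≤ W s ∧ W s ≤ Real.exp Kb) :
    |Gtrue (eU R) R K σ W - ∑ s0, K [] s0 * Gprod (eU R) R (rootK K P s0) σ W| ≤ 2 * Kb := by
  have he := (exps_eU hR).pos'
  have W0 : ∀ s, 0 < W s := fun s => (Real.exp_pos _).trans_le (hW s).1
  have lW : ∀ s, |Real.log (W s) - Real.log 1| ≤ Kb := fun s => by
    have a := Real.log_le_log (Real.exp_pos _) (hW s).1
    have b := Real.log_le_log (W0 s) (hW s).2
    rw [Real.log_exp] at a b
    rw [Real.log_one, sub_zero]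
    exact abs_le.2 ⟨a, b⟩
  have a := abs_Gtrue_sub_le hK he σ W0 (fun _ => one_pos) lW
  rw [Gtrue_const hK he σ one_pos, Real.log_one, sub_zero] at a
  have b : ∀ s0, |Gprod (eU R) R (rootK K P s0) σ W| ≤ Kb := fun s0 => by
    have := abs_Gprod_sub_le (hK.rootK hP s0) he σ W0 (fun _ => one_pos) lW
    rwa [Gprod_const (hK.rootK hP s0) he σ one_pos, Real.log_one, sub_zero] at this
  have c : |∑ s0, K [] s0 * Gprod (eU R) R (rootK K P s0) σ W| ≤ Kb := by
    refine (abs_sum_le_sum_abs _ _).trans ?_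
    have : ∑ s0, |K [] s0 * Gprod (eU R) R (rootK K P s0) σ W| ≤ ∑ s0, K [] s0 * Kb :=
      sum_le_sum fun s0 _ => by
        rw [abs_mul, abs_of_nonneg (hK.1 _ _)]
        exact mul_le_mul_of_nonneg_left (b s0) (hK.1 _ _)
    rwa [← sum_mul, hK.2, one_mul] at this
  linarith [abs_sub (Gtrue (eU R) R K σ W) (∑ s0, K [] s0 * Gprod (eU R) R (rootK K P s0) σ W)]

end LB

open Finset Filter in
theorem lb_core (n0 : ℕ) (Kb ε : ℝ) (hKb : 0 ≤ Kb) (hε : 0 < ε) :
    ∃ (R : ℕ) (Γ : Type) (_ : Fintype Γ) (_ : DecidableEq Γ) (Ψ : ((Γ → Bool) → ℝ) → ℝ) (C : ℝ),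
      0 < R ∧
      (∀ (m m' : (Γ → Bool) → ℝ) (c : ℝ), (∀ τ, 0 ≤ m τ) → 0 < ∑ τ, m τ →
        (∀ τ, m τ ≤ Real.exp c * m' τ) → Ψ m ≤ Ψ m' + c) ∧
      (∀ m : (Γ → Bool) → ℝ, (∀ τ, 0 ≤ m τ) → 0 < ∑ τ, m τ → |Ψ m - Real.log (∑ τ, m τ)| ≤ C) ∧
      ∀ (I : Type) [Fintype I] [DecidableEq I] [Nonempty I] (H : (I → Bool) → ℝ),
        ∃ (S J : Type) (_ : Fintype S) (_ : Fintype J) (lam : J → ℝ) (K : J → Ker S)
          (σ : I → List S → Bool), (∀ j, 0 ≤ lam j) ∧ ∑ j, lam j = 1 ∧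
          (∀ j, IsKer (K j) ∧ PosSpin R (K j) σ) ∧
          ∀ (L : Type) [Fintype L] [DecidableEq L], Fintype.card L ≤ n0 →
            ∀ W : (L → Bool) → ℝ, (∀ s, Real.exp (-Kb) ≤ W s ∧ W s ≤ Real.exp Kb) →
              |(𝔼 a : Γ → I, 𝔼 i : L → I,
                  (Ψ (marg a fun s => H s + Real.log (W fun m => s (i m))) - Ψ (marg a H))) -
                ∑ j, lam j * Gprod (eU R) R (K j) σ W| ≤ ε := by
  obtain ⟨D, R0, hD⟩ := decouple n0 Kb (ε / 2) (by positivity)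
  obtain ⟨R, hR0, hR⟩ : ∃ R, R0 ≤ R ∧ 0 < R := ⟨R0 + 1, by omega, by omega⟩
  obtain ⟨η, hη, hdec⟩ := hD R hR0 hR
  obtain ⟨C1, ε0, hC1, hε0, hC⟩ := Cerr_le D R hR
  obtain ⟨C2, hC2, hA⟩ := Derr_avg D R hR
  set δ := ε / (4 * (Kb + 1)) with hδ
  have δ0 : 0 < δ := by positivity
  obtain ⟨ε1, e0, e1, e2, e3⟩ : ∃ ε1 : ℝ, 0 < ε1 ∧ ε1 ≤ ε0 ∧ ε1 * D ≤ 1 / 2 ∧
      C1 * ε1 ≤ η * δ / 2 := by
    refine ⟨min ε0 (min (1 / (2 * (D + 1))) (η * δ / 2 / C1)), by positivity, min_le_left _ _,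
      ?_, ?_⟩
    · refine (mul_le_mul_of_nonneg_right ((min_le_right _ _).trans (min_le_left _ _))
        (Nat.cast_nonneg D)).trans ?_
      rw [div_mul_eq_mul_div, div_le_div_iff₀ (by positivity) (by positivity)]
      linarith
    · rw [← le_div_iff₀' hC1]
      exact (min_le_right _ _).trans (min_le_right _ _)
  obtain ⟨Θ, hΘ⟩ : ∃ Θ : ℕ, C1 * (C2 / √(Θ + 1 : ℝ) / ε1 ^ (2 * D)) ≤ η * δ / 2 := by
    have t1 : Tendsto (fun Θ : ℕ => √(Θ + 1 : ℝ)) atTop atTop :=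
      Real.tendsto_sqrt_atTop.comp (tendsto_atTop_add_const_right _ _ tendsto_natCast_atTop_atTop)
    have t2 := ((t1.const_div_atTop C2).div_const (ε1 ^ (2 * D))).const_mul C1
    simp only [zero_div, mul_zero] at t2
    exact (t2.eventually (ge_mem_nhds (by positivity))).exists
  refine ⟨R, Gam R Θ, inferInstance, inferInstance, fun m => 𝔼 θ : Fin R → Fin (Θ + 1),
    𝔼 y : Gam R Θ → Ty D R, LB.LT ε1 (fun g => g.1.val) y (actS θ) m,
    Fintype.card (Gam R Θ) * Real.log 2, hR, fun m m' c hm hs h => ?_, fun m hm hs => ?_,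
    fun I _ _ _ H => ?_⟩
  · have := expect_le_expect (s := univ) fun (θ : Fin R → Fin (Θ + 1)) _ =>
      expect_le_expect (s := univ) fun (y : Gam R Θ → Ty D R) _ =>
        LB.LT_mono hR e0.le e2 (fun g => g.1.val) y (actS θ) hm hs h
    simpa only [expect_add_distrib, Fintype.expect_const] using this
  · have x : ∀ θ : Fin R → Fin (Θ + 1), |(𝔼 y : Gam R Θ → Ty D R,
        LB.LT ε1 (fun g => g.1.val) y (actS θ) m) - Real.log (∑ τ, m τ)| ≤
        Fintype.card (Gam R Θ) * Real.log 2 := fun θ => by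
      have := abs_expect_sub_le (g := fun _ => Real.log (∑ τ, m τ))
        (f := fun y : Gam R Θ → Ty D R => LB.LT ε1 (fun g => g.1.val) y (actS θ) m)
        fun y => LB.LT_near hR e0.le e2 _ y (actS θ) hm hs
      rwa [Fintype.expect_const] at this
    have := abs_expect_sub_le (g := fun _ => Real.log (∑ τ, m τ)) x
    rwa [Fintype.expect_const] at this
  let J0 := (Fin R → Fin (Θ + 1)) × (Gam R Θ → Ty D R) × (Gam R Θ → I)
  let KK : J0 → Ker (Sys (Gam R Θ) I D) := fun j =>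
    Ksys ε1 (fun g => g.1.val) j.2.1 j.2.2 H (actS j.1)
  let PP : J0 → List (Sys (Gam R Θ) I D) → Sys (Gam R Θ) I D → Sys (Gam R Θ) I D → ℝ := fun j =>
    Psys ε1 j.1 j.2.1 j.2.2 H
  have hK : ∀ j, IsKer (KK j) := fun j => isKer_Ksys hR e0.le e2 _ _ _ _ _
  have hP : ∀ j, IsCond (KK j) (PP j) := fun j => isCond_Psys hR e0.le e2 _ _ _ _
  have cJ : (0 : ℝ) < Fintype.card J0 := by exact_mod_cast Fintype.card_pos
  refine ⟨Sys (Gam R Θ) I D, J0 × Sys (Gam R Θ) I D, inferInstance, inferInstance,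
    fun j => (Fintype.card J0 : ℝ)⁻¹ * KK j.1 [] j.2, fun j => rootK (KK j.1) (PP j.1) j.2,
    fun i l => conf l i, fun j => mul_nonneg (by positivity) ((hK _).1 _ _), ?_,
    fun j => ⟨(hK _).rootK (hP _) _, LB.posSpin hR e0.le e2 _ _ _ _ _⟩, fun L _ _ hL W hW => ?_⟩
  · rw [Fintype.sum_prod_type]
    simp only [← mul_sum, (hK _).2, sum_const, card_univ, nsmul_eq_mul, mul_one]
    exact mul_inv_cancel₀ cJ.ne'
  have W0 : ∀ s, 0 < W s := fun s => (Real.exp_pos _).trans_le (hW s).1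
  have eL : (𝔼 a : Gam R Θ → I, 𝔼 i : L → I,
      ((𝔼 θ : Fin R → Fin (Θ + 1), 𝔼 y : Gam R Θ → Ty D R, LB.LT ε1 (fun g => g.1.val) y (actS θ)
        (marg a fun s => H s + Real.log (W fun m => s (i m)))) -
      𝔼 θ : Fin R → Fin (Θ + 1), 𝔼 y : Gam R Θ → Ty D R,
        LB.LT ε1 (fun g => g.1.val) y (actS θ) (marg a H))) =
      𝔼 j : J0, Gtrue (eU R) R (KK j) (fun i l => conf l i) W := by
    simp only [← expect_sub_distrib,
      fun θ y a (i : L → I) => LB.LT_sub hR e0.le e2 (fun g : Gam R Θ => g.1.val) y a H (actS θ)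
        (V := fun s => W fun m => s (i m)) fun s => W0 _]
    rw [expect_prod]
    simp only [expect_prod (A := Gam R Θ → Ty D R)]
    simp only [expect_comm (univ : Finset (L → I)) (univ : Finset (Fin R → Fin (Θ + 1))),
      expect_comm (univ : Finset (L → I)) (univ : Finset (Gam R Θ → Ty D R))]
    rw [expect_comm]
    refine expect_congr rfl fun θ _ => ?_
    rw [expect_comm]
    rfl
  have eR : ∑ j : J0 × Sys (Gam R Θ) I D, (Fintype.card J0 : ℝ)⁻¹ * KK j.1 [] j.2 *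
      Gprod (eU R) R (rootK (KK j.1) (PP j.1) j.2) (fun i l => conf l i) W =
      𝔼 j : J0, ∑ s0, KK j [] s0 *
        Gprod (eU R) R (rootK (KK j) (PP j) s0) (fun i l => conf l i) W := by
    rw [Fintype.sum_prod_type, Fintype.expect_eq_sum_div_card, div_eq_inv_mul]
    simp only [mul_sum, mul_assoc]
  rw [eL, eR, ← expect_sub_distrib]
  have pt : ∀ j : J0, |Gtrue (eU R) R (KK j) (fun i l => conf l i) W - ∑ s0, KK j [] s0 *
      Gprod (eU R) R (rootK (KK j) (PP j) s0) (fun i l => conf l i) W| ≤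
      ε / 2 + 2 * Kb / η * (C1 * (Derr D R ε1 (KK j) (PP j) (fun i l => conf l i) /
        ε1 ^ (2 * D) + ε1)) := by
    intro j
    have x := hC ε1 e0 e1 _ I (KK j) (PP j) (fun i l => conf l i) (hK j) (hP j)
    have x0 := LB.Cerr_nonneg D R (hK j) (PP j) fun (i : I) l => conf l i
    have k0 : 0 ≤ 2 * Kb / η := by positivity
    have y := mul_le_mul_of_nonneg_left x k0
    rcases le_total (Cerr D R (KK j) (PP j) fun i l => conf l i) η with h | h
    · have := hdec _ I (KK j) (PP j) (fun i l => conf l i) (hK j) (hP j) h L hL W hW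
      linarith [mul_nonneg k0 x0]
    · have := LB.crude hR (hK j) (hP j) (fun (i : I) l => conf l i) hW
      have z := mul_le_mul_of_nonneg_left h k0
      rw [div_mul_cancel₀ _ hη.ne'] at z
      linarith
  refine (abs_expect_le _ _).trans ((expect_le_expect fun j _ => pt j).trans ?_)
  have av := hA ε1 e0.le e2 Θ I H
  have av' : 𝔼 j : J0, Derr D R ε1 (KK j) (PP j) (fun i l => conf l i) ≤ C2 / √(Θ + 1 : ℝ) := by
    rw [expect_prod]
    simpa only [expect_prod (A := Gam R Θ → Ty D R)] using av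
  simp only [expect_add_distrib, Fintype.expect_const, ← mul_expect, ← expect_div]
  have z : C1 * ((𝔼 j : J0, Derr D R ε1 (KK j) (PP j) fun i l => conf l i) / ε1 ^ (2 * D) + ε1) ≤
      η * δ := by
    have := mul_le_mul_of_nonneg_left (div_le_div_of_nonneg_right av'
      (show 0 ≤ ε1 ^ (2 * D) by positivity)) hC1.le
    linarith
  have z2 := mul_le_mul_of_nonneg_left z (show 0 ≤ 2 * Kb / η by positivity)
  have z3 : 2 * Kb / η * (η * δ) ≤ ε / 2 := by
    rw [← mul_assoc, div_mul_cancel₀ _ hη.ne', hδ, ← mul_div_assoc,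
      div_le_div_iff₀ (by positivity) (by positivity)]
    nlinarith
  linarith

end Crest.Agent.H9.MP
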