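import Crest.Agent.H9.MP.T1a

/-! MP-T4a: conditional kernels and the pinning lemma. -/

set_option autoImplicit false

namespace Crest.Agent.H9.MP

open scoped BigOperators

variable {S X : Type} [Fintype S] [DecidableEq X]

theorem condP_nonneg {μ : S → ℝ} (hμ : ∀ s, 0 ≤ μ s) (β : S → X) (s0 s : S) :
    0 ≤ condP μ β s0 s := by
  unfold condP
  refine div_nonneg ?_ (Finset.sum_nonneg fun s' _ => ?_) <;> split_ifs <;> simp [hμ]

theorem condP_den_pos {μ : S → ℝ} (hμ : ∀ s, 0 < μ s) (β : S → X) (s0 : S) :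
    0 < ∑ s', if β s' = β s0 then μ s' else 0 := by
  refine Finset.sum_pos' (fun s' _ => ?_) ⟨s0, Finset.mem_univ _, by simp [hμ]⟩
  split_ifs <;> simp [(hμ _).le]

theorem sum_condP {μ : S → ℝ} (hμ : ∀ s, 0 < μ s) (β : S → X) (s0 : S) :
    ∑ s, condP μ β s0 s = 1 := by
  unfold condP
  rw [← Finset.sum_div, div_self (condP_den_pos hμ β s0).ne']

theorem condP_symm (μ : S → ℝ) (β : S → X) (s0 s : S) :
    μ s0 * condP μ β s0 s = μ s * condP μ β s s0 := by
  unfold condP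
  by_cases h : β s = β s0
  · simp only [h, if_true]; ring
  · simp [h, Ne.symm h]

theorem sum_mul_condP {μ : S → ℝ} (hμ : ∀ s, 0 < μ s) (β : S → X) (s : S) :
    ∑ s0, μ s0 * condP μ β s0 s = μ s := by
  simp only [condP_symm μ β _ s, ← Finset.mul_sum, sum_condP hμ, mul_one]

theorem condP_congr {X' : Type} [DecidableEq X'] (μ : S → ℝ) {β : S → X} {β' : S → X'}
    (h : ∀ s s', β s = β s' ↔ β' s = β' s') : condP μ β = condP μ β' := by
  funext s0 s
  simp only [condP, h]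

/-- conditional expectation -/
noncomputable def cE (μ : S → ℝ) (β : S → X) (f : S → ℝ) (s0 : S) : ℝ :=
  ∑ s, condP μ β s0 s * f s

theorem cE_symm (μ : S → ℝ) (β : S → X) (f g : S → ℝ) :
    ∑ s, μ s * (g s * cE μ β f s) = ∑ s, μ s * (cE μ β g s * f s) := by
  simp only [cE, Finset.mul_sum, Finset.sum_mul]
  rw [Finset.sum_comm]
  refine Finset.sum_congr rfl fun s _ => Finset.sum_congr rfl fun s0 _ => ?_
  linear_combination (g s0 * f s) * condP_symm μ β s0 s

theorem cE_mul (μ : S → ℝ) (β : S → X) {g : S → ℝ} (hg : ∀ s s', β s = β s' → g s = g s')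
    (f : S → ℝ) (s0 : S) : cE μ β (fun s => g s * f s) s0 = g s0 * cE μ β f s0 := by
  simp only [cE, Finset.mul_sum]
  refine Finset.sum_congr rfl fun s _ => ?_
  by_cases h : β s = β s0
  · rw [hg s s0 h]; ring
  · simp [condP, h]

theorem cE_of_meas {μ : S → ℝ} (hμ : ∀ s, 0 < μ s) (β : S → X) {g : S → ℝ}
    (hg : ∀ s s', β s = β s' → g s = g s') (s0 : S) : cE μ β g s0 = g s0 := by
  have := cE_mul μ β hg (fun _ => 1) s0
  simp only [mul_one] at this
  rw [this]; simp [cE, sum_condP hμ]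

theorem cE_meas (μ : S → ℝ) (β : S → X) (f : S → ℝ) (s s' : S) (h : β s = β s') :
    cE μ β f s = cE μ β f s' := by
  simp only [cE, condP, h]

theorem cE_tower {X' : Type} [DecidableEq X'] {μ : S → ℝ} (hμ : ∀ s, 0 < μ s) (β : S → X)
    (β' : S → X') (h : ∀ s s', β' s = β' s' → β s = β s') (f : S → ℝ) (s0 : S) :
    cE μ β (cE μ β' f) s0 = cE μ β f s0 := by
  set c : S → ℝ := fun s => (if β s = β s0 then 1 else 0) / ∑ s', if β s' = β s0 then μ s' else 0
  have hc : ∀ s, condP μ β s0 s = μ s * c s := fun s => by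
    simp only [condP, c]; split_ifs <;> ring
  have hcm : ∀ s s', β' s = β' s' → c s = c s' := fun s s' e => by simp only [c, h s s' e]
  have := cE_symm μ β' f c
  simp only [cE_of_meas hμ β' hcm] at this
  rw [cE, cE]
  simp only [hc, mul_assoc]
  exact this

theorem cE_sq_le {μ : S → ℝ} (hμ : ∀ s, 0 < μ s) (β : S → X) (f : S → ℝ) (s0 : S) :
    cE μ β f s0 ^ 2 ≤ cE μ β (fun s => f s ^ 2) s0 := by
  have h := Finset.sum_mul_sq_le_sq_mul_sq Finset.univ (fun s => √(condP μ β s0 s))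
    (fun s => √(condP μ β s0 s) * f s)
  have h0 := condP_nonneg (fun s => (hμ s).le) β s0
  simp only [← mul_assoc, Real.mul_self_sqrt (h0 _), mul_pow, Real.sq_sqrt (h0 _),
    sum_condP hμ, one_mul] at h
  exact h

theorem sum_cE {μ : S → ℝ} (hμ : ∀ s, 0 < μ s) (β : S → X) (f : S → ℝ) :
    ∑ s, μ s * cE μ β f s = ∑ s, μ s * f s := by
  have := cE_symm μ β f (fun _ => 1)
  simp only [cE_of_meas hμ β (g := fun _ => (1 : ℝ)) (fun _ _ _ => rfl), one_mul] at this
  exact this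

theorem pin_step {X' : Type} [DecidableEq X'] {μ : S → ℝ} (hμ : ∀ s, 0 < μ s) (β : S → X)
    (β' : S → X') (h : ∀ s s', β' s = β' s' → β s = β s') (τ τ' : S → Bool)
    (hτ : ∀ s s', β' s = β' s' → τ s = τ s') :
    ∑ s0, μ s0 * covB (condP μ β s0) τ τ' ^ 2 ≤
      ∑ s, μ s * cE μ β' (fun s => if τ' s = true then 1 else 0) s ^ 2 -
        ∑ s, μ s * cE μ β (fun s => if τ' s = true then 1 else 0) s ^ 2 := by
  set f : S → ℝ := fun s => if τ' s = true then 1 else 0
  set t : S → ℝ := fun s => if τ s = true then 1 else 0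
  set M := cE μ β f
  set M' := cE μ β' f
  have htm : ∀ s s', β' s = β' s' → t s = t s' := fun s s' e => by simp only [t, hτ s s' e]
  have hMm : ∀ s s', β s = β s' → M s = M s' := cE_meas μ β f
  have hcov : ∀ s0, covB (condP μ β s0) τ τ' = cE μ β (fun s => t s * (M' s - M s)) s0 := by
    intro s0
    have e1 : cE μ β (fun s => t s * M' s) s0 = cE μ β (fun s => t s * f s) s0 := by
      rw [← cE_tower hμ β β' h (fun s => t s * f s)]
      congr 1; funext s; rw [cE_mul μ β' htm]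
    have e2 : cE μ β (fun s => M s * t s) s0 = M s0 * cE μ β t s0 := cE_mul μ β hMm t s0
    have e3 : cE μ β (fun s => t s * (M' s - M s)) s0 =
        cE μ β (fun s => t s * M' s) s0 - cE μ β (fun s => M s * t s) s0 := by
      simp only [cE, ← Finset.sum_sub_distrib]
      exact Finset.sum_congr rfl fun s _ => by ring
    rw [e3, e1, e2, covB, mul_comm (M s0)]
    simp only [M, cE, t, f]
    congr 1
    · exact Finset.sum_congr rfl fun s _ => by cases τ s <;> cases τ' s <;> simp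
    · congr 1 <;> exact Finset.sum_congr rfl fun s _ => by split_ifs <;> simp
  have h1 : ∑ s0, μ s0 * covB (condP μ β s0) τ τ' ^ 2 ≤ ∑ s, μ s * (M' s - M s) ^ 2 := by
    refine (Finset.sum_le_sum fun s0 _ => mul_le_mul_of_nonneg_left
      ((hcov s0).symm ▸ cE_sq_le hμ β _ s0) (hμ s0).le).trans ?_
    rw [sum_cE hμ]
    refine Finset.sum_le_sum fun s _ => mul_le_mul_of_nonneg_left ?_ (hμ s).le
    simp only [t]; split_ifs <;> simp [sq_nonneg]
  have h2 : ∑ s, μ s * (M s * M' s) = ∑ s, μ s * M s ^ 2 := by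
    rw [← sum_cE hμ β]
    refine Finset.sum_congr rfl fun s _ => ?_
    rw [cE_mul μ β hMm, cE_tower hμ β β' h, sq]
  have h3 : ∑ s, μ s * (M' s - M s) ^ 2 = ∑ s, μ s * M' s ^ 2 - 2 * ∑ s, μ s * (M s * M' s) +
      ∑ s, μ s * M s ^ 2 := by
    simp only [Finset.mul_sum, ← Finset.sum_sub_distrib, ← Finset.sum_add_distrib]
    exact Finset.sum_congr rfl fun s _ => by ring
  linarith

/-- Pinning: `β θ` reveals the bits `τ u`, `u < θ`. -/
theorem pinning {μ : S → ℝ} (hμ : ∀ s, 0 < μ s) (h1 : ∑ s, μ s = 1) (n : ℕ) (τ : Fin n → S → Bool)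
    (τ' : S → Bool) (β : Fin n → S → X)
    (hβ : ∀ θ s s', β θ s = β θ s' ↔ ∀ u, u < θ → τ u s = τ u s') :
    ∑ θ, ∑ s0, μ s0 * covB (condP μ (β θ) s0) (τ θ) τ' ^ 2 ≤ 1 := by
  classical
  set b : ℕ → S → (Fin n → Bool) := fun θ s u => if u.val < θ then τ u s else false with hb
  have hbi : ∀ θ s s', b θ s = b θ s' ↔ ∀ u : Fin n, u.val < θ → τ u s = τ u s' := by
    intro θ s s'
    rw [funext_iff]
    refine forall_congr' fun u => ?_
    simp only [hb]; split_ifs with h <;> simp [h]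
  set f : S → ℝ := fun s => if τ' s = true then 1 else 0
  set A : ℕ → ℝ := fun θ => ∑ s, μ s * cE μ (b θ) f s ^ 2 with hA
  have step : ∀ θ : Fin n, ∑ s0, μ s0 * covB (condP μ (β θ) s0) (τ θ) τ' ^ 2 ≤
      A (θ + 1) - A θ := by
    intro θ
    rw [condP_congr μ (β' := b θ) fun s s' => by rw [hβ, hbi]; rfl]
    refine pin_step hμ (b θ) (b (θ + 1)) (fun s s' e => ?_) (τ θ) τ' (fun s s' e => ?_)
    · rw [hbi] at e ⊢; exact fun u hu => e u (by omega)
    · rw [hbi] at e; exact e θ (by omega)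
  refine (Finset.sum_le_sum fun θ _ => step θ).trans ?_
  rw [Fin.sum_univ_eq_sum_range (fun θ => A (θ + 1) - A θ), Finset.sum_range_sub]
  have hA0 : 0 ≤ A 0 := Finset.sum_nonneg fun s _ => mul_nonneg (hμ s).le (sq_nonneg _)
  have hAn : A n ≤ 1 := by
    refine (Finset.sum_le_sum fun s _ => mul_le_mul_of_nonneg_left (cE_sq_le hμ _ f s)
      (hμ s).le).trans ?_
    rw [sum_cE hμ, ← h1]
    refine Finset.sum_le_sum fun s _ => ?_
    simp only [f]; split_ifs <;> simp [(hμ s).le]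
  linarith

/-- The averaged form. -/
theorem pinning_avg {μ : S → ℝ} (hμ : ∀ s, 0 < μ s) (h1 : ∑ s, μ s = 1) (n : ℕ)
    (τ : Fin (n + 1) → S → Bool) (τ' : S → Bool) (β : Fin (n + 1) → S → X)
    (hβ : ∀ θ s s', β θ s = β θ s' ↔ ∀ u, u < θ → τ u s = τ u s') :
    𝔼 θ, ∑ s0, μ s0 * |covB (condP μ (β θ) s0) (τ θ) τ'| ≤ 1 / √(n + 1 : ℝ) := by
  have hp := pinning hμ h1 (n + 1) τ τ' β hβ
  set x : Fin (n + 1) → ℝ := fun θ => ∑ s0, μ s0 * |covB (condP μ (β θ) s0) (τ θ) τ'|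
  have hx : ∀ θ, x θ ^ 2 ≤ ∑ s0, μ s0 * covB (condP μ (β θ) s0) (τ θ) τ' ^ 2 := by
    intro θ
    have h := Finset.sum_mul_sq_le_sq_mul_sq Finset.univ (fun s => √(μ s))
      (fun s => √(μ s) * |covB (condP μ (β θ) s) (τ θ) τ'|)
    simp only [← mul_assoc, Real.mul_self_sqrt (hμ _).le, mul_pow, Real.sq_sqrt (hμ _).le,
      h1, one_mul, sq_abs] at h
    exact h
  have h2 := Finset.sum_mul_sq_le_sq_mul_sq Finset.univ (fun _ => (1 : ℝ)) x
  simp only [one_mul, one_pow, Finset.sum_const, Finset.card_univ, Fintype.card_fin,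
    nsmul_eq_mul, mul_one] at h2
  have h3 : ∑ θ, x θ ^ 2 ≤ 1 := (Finset.sum_le_sum fun θ _ => hx θ).trans hp
  have hn : (0 : ℝ) < n + 1 := by positivity
  have h4 : ∑ θ, x θ ≤ √(n + 1 : ℝ) := by
    refine Real.le_sqrt_of_sq_le (h2.trans ?_)
    push_cast; nlinarith
  rw [Finset.expect_eq_sum_div_card, Finset.card_univ, Fintype.card_fin]
  push_cast
  rw [div_le_div_iff₀ hn (Real.sqrt_pos.2 hn), one_mul]
  calc _ ≤ √(n + 1 : ℝ) * √(n + 1 : ℝ) := mul_le_mul_of_nonneg_right h4 (Real.sqrt_nonneg _)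
    _ = _ := Real.mul_self_sqrt hn.le

end Crest.Agent.H9.MP
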