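import Crest.Agent.H9.MP.T4a
import Crest.Agent.H9.MP.T2
import Crest.Agent.H9.MP.T3

/-! MP-T4b: the additivity defect is a covariance of two switch bits in the extended system. -/

/-
Sketch. |xs| = 1. S = Sys, K0 = unifK S, Z = Zsys Act, Z' = Z G1 G2, K = tilt Z, K' = tilt Z'. φ : S × Om × Om → S overwrites the coordinates g1, g2; it pushes unif to unif
(T_map) and Z ∘ map φ = Z ∘ map fst. So for s = φ(s1, w1, w2): T K0 k (s::h) Z' = T K0 k (s1::h) Z * T (mulK K unif) k (..) (G1 G2 on the external coordinates)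
(T_map, T_tilt, tiltK_mulK, T_congr_gen: G reads only positions ≤ k; drop the Bool parts below by T_map); the switch is read at position k = the head, so G_r = gad (s_r if on, ∅ if off).
Summing over s = φ(s1,w1,w2) with bits B s = bits B s1: P'(τ1 = b1, τ2 = b2 | bits B) = E(b1,b2) / Σ E with E(b1,b2) = exp(e k * logT2 (..b1) (..b2)), E(0,0) = 1, E ∈ [1/4,4].
Cov = (E11 E00 - E10 E01)/(ΣE)², Ddef = log(E11 E00/(E10 E01)) / e k, e k ≥ 1/R, |log x - log y| ≤ |x-y|/min.
-/

set_option autoImplicit false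

namespace Crest.Agent.H9.MP

open Finset
open scoped BigOperators

theorem gad_mem {ι : Type} [Fintype ι] [DecidableEq ι] {ε : ℝ} (h0 : 0 ≤ ε)
    (hε : ε * Fintype.card ι ≤ 1 / 2) (π : ℕ → Finset (Finset ι)) (j0 : ℕ) (s : Finset ι)
    {F : ι → ℝ} (hF : ∀ q, |F q| ≤ 1) (z : List (Ax ι)) :
    1 / 2 ≤ gad ε π j0 s F z ∧ gad ε π j0 s F z ≤ 2 := by
  unfold gad
  have : |∑ q ∈ s, (∏ j ∈ range j0, xs (π j) (z.getD j (∅, fun _ => true)) q) * F q| ≤
      Fintype.card ι := by
    refine (abs_sum_le_sum_abs _ _).trans ((sum_le_card_nsmul _ _ 1 fun q _ => ?_).trans ?_)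
    · rw [abs_mul, abs_prod, prod_eq_one fun _ _ => abs_xs _ _ _, one_mul]; exact hF q
    · simpa using card_le_univ s
  obtain ⟨a, b⟩ := abs_le.1 this
  constructor <;> nlinarith

theorem gfac_mem {D R : ℕ} {ε : ℝ} (h0 : 0 ≤ ε) (hε : ε * D ≤ 1 / 2) (k : ℕ) (y : Ty D R)
    (b : Bool) (z : List (Om D)) : 1 / 2 ≤ gfac ε k y b z ∧ gfac ε k y b z ≤ 2 := by
  unfold gfac
  split_ifs
  · exact gad_mem h0 (by simpa using hε) _ _ _ (fun q => by split_ifs <;> simp) _
  · norm_num

section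
variable {Γ I : Type} [Fintype Γ] [DecidableEq Γ] [Fintype I] [DecidableEq I] {D R : ℕ} {ε : ℝ}

omit [Fintype Γ] [DecidableEq Γ] [Fintype I] [DecidableEq I] in
theorem Zsys_pos (h0 : 0 ≤ ε) (hε : ε * D ≤ 1 / 2) (lev : Γ → ℕ) (y : Γ → Ty D R) (a : Γ → I)
    (H : (I → Bool) → ℝ) (Act : Finset Γ) (l : List (Sys Γ I D)) : 0 < Zsys ε lev y a H Act l :=
  mul_pos (Real.exp_pos _) (prod_pos fun _ _ => lt_of_lt_of_le (by norm_num) (gfac_mem h0 hε _ _ _ _).1)

theorem isKer_Ksys (hR : 0 < R) (h0 : 0 ≤ ε) (hε : ε * D ≤ 1 / 2) (lev : Γ → ℕ) (y : Γ → Ty D R)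
    (a : Γ → I) (H : (I → Bool) → ℝ) (Act : Finset Γ) : IsKer (Ksys ε lev y a H Act) :=
  isKer_unifK.tiltK (exps_eU hR).pos' hR (Zsys_pos h0 hε lev y a H Act)

theorem Ksys_pos (hR : 0 < R) (h0 : 0 ≤ ε) (hε : ε * D ≤ 1 / 2) (lev : Γ → ℕ) (y : Γ → Ty D R)
    (a : Γ → I) (H : (I → Bool) → ℝ) (Act : Finset Γ) (l : List (Sys Γ I D)) (s : Sys Γ I D) :
    0 < Ksys ε lev y a H Act l s := by
  have h : ∀ s, 0 < unifK (Sys Γ I D) l s * T (eU R) (unifK (Sys Γ I D)) (R - 1 - l.length) (s :: l)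
      (Zsys ε lev y a H Act) ^ eU R (R - 1 - l.length) := fun s =>
    mul_pos (inv_pos.2 (by exact_mod_cast Fintype.card_pos)) (Real.rpow_pos_of_pos
      (T_pos isKer_unifK _ (fun i hi => (exps_eU hR).pos' i (by omega)) _
        (Zsys_pos h0 hε lev y a H Act)) _)
  exact div_pos (h s) (sum_pos (fun s _ => h s) univ_nonempty)

end

theorem abs_log_sub_le16 {x y : ℝ} (hx : 1 / 16 ≤ x) (hy : 1 / 16 ≤ y) :
    |Real.log x - Real.log y| ≤ 16 * |x - y| := by
  have key : ∀ x y : ℝ, 1 / 16 ≤ x → 1 / 16 ≤ y → Real.log x - Real.log y ≤ 16 * |x - y| := by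
    intro x y hx hy
    have hy0 : 0 < y := by linarith
    rw [← Real.log_div (by linarith) hy0.ne']
    refine (Real.log_le_sub_one_of_pos (div_pos (by linarith) hy0)).trans ?_
    rw [div_sub_one hy0.ne', div_le_iff₀ hy0]
    nlinarith [le_abs_self (x - y), abs_nonneg (x - y)]
  refine abs_sub_le_iff.2 ⟨key x y hx hy, ?_⟩
  rw [abs_sub_comm]; exact key y x hy hx

theorem log_defect {E : Bool → Bool → ℝ} {c v : ℝ} (hE : ∀ b b', 1 / 4 ≤ E b b' ∧ E b b' ≤ 4)
    (h00 : E false false = 1)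
    (hc : c * (E true true + E true false + E false true + E false false) = 1)
    (hv : v = c * E true true - (c * E true true + c * E true false) *
      (c * E true true + c * E false true)) :
    |Real.log (E true true) - Real.log (E true false) - Real.log (E false true)| ≤ 4096 * |v| := by
  obtain ⟨a1, a2⟩ := hE true true
  obtain ⟨b1, b2⟩ := hE true false
  obtain ⟨c1, c2⟩ := hE false true
  rw [h00] at hc
  generalize E true true = x at *
  generalize E true false = y at *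
  generalize E false true = z at *
  have h1 : x - y * z = (x + y + z + 1) ^ 2 * v := by
    have : c = 1 / (x + y + z + 1) := by rw [eq_div_iff (by linarith), hc]
    rw [hv, this]; field_simp; ring
  rw [sub_sub, ← Real.log_mul (by linarith) (by linarith)]
  refine (abs_log_sub_le16 (by linarith) (by nlinarith)).trans ?_
  rw [h1, abs_mul, abs_of_nonneg (sq_nonneg _)]
  have : (x + y + z + 1) ^ 2 ≤ 16 ^ 2 := pow_le_pow_left₀ (by linarith) (by linarith) 2
  nlinarith [abs_nonneg v]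

theorem covB_eq {S : Type} [Fintype S] {μ : S → ℝ} (τ τ' : S → Bool) {p : Bool → Bool → ℝ}
    (hp : ∀ b b', ∑ s, (if τ s = b ∧ τ' s = b' then μ s else 0) = p b b') :
    covB μ τ τ' = p true true - (p true true + p true false) * (p true true + p false true) ∧
      ∑ s, μ s = p true true + p true false + p false true + p false false := by
  simp only [covB, ← hp, ← sum_add_distrib]
  refine ⟨?_, sum_congr rfl fun s _ => by cases τ s <;> cases τ' s <;> simp⟩
  congr 2 <;> exact sum_congr rfl fun s _ => by cases τ s <;> cases τ' s <;> simp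

theorem sum_unifK {S : Type} [Fintype S] (h : List S) (G : S → ℝ) :
    ∑ s, unifK S h s * G s = 𝔼 s, G s := by
  simp only [unifK, ← mul_sum, expect_eq_sum_div_card, card_univ, div_eq_inv_mul]

theorem expect_prod {A B : Type} [Fintype A] [Fintype B] (f : A × B → ℝ) :
    𝔼 x, f x = 𝔼 a, 𝔼 b, f (a, b) := by
  rw [← univ_product_univ, expect_product]

theorem unifK_prod (A B : Type) [Fintype A] [Fintype B] :
    unifK (A × B) = mulK (unifK A) (unifK B) := by
  funext h s; simp [unifK, mulK, mul_comm]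

theorem gad_congr {ι : Type} [Fintype ι] [DecidableEq ι] (ε : ℝ) (π : ℕ → Finset (Finset ι))
    {j0 : ℕ} (s : Finset ι) (F : ι → ℝ) (l z z' : List (Ax ι)) (hl : j0 ≤ l.length) :
    gad ε π j0 s F (l ++ z) = gad ε π j0 s F (l ++ z') := by
  unfold gad
  congr 2
  refine sum_congr rfl fun q _ => ?_
  congr 1
  refine prod_congr rfl fun j hj => ?_
  have := mem_range.1 hj
  rw [List.getD_append _ _ _ _ (by omega), List.getD_append _ _ _ _ (by omega)]

section bridge
variable {Γ I : Type} [Fintype Γ] [DecidableEq Γ] [Fintype I] [DecidableEq I] {D R : ℕ}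

/-- Overwrite the randomness of two gadgets. -/
def ovw (g1 g2 : Γ) (w : Sys Γ I D × Om D × Om D) : Sys Γ I D :=
  (Function.update (Function.update w.1.1 g1 w.2.1) g2 w.2.2, w.1.2)

theorem expect_ovw (g1 g2 : Γ) (G : Sys Γ I D → ℝ) :
    𝔼 w : Sys Γ I D × Om D × Om D, G (ovw g1 g2 w) = 𝔼 s, G s := by
  simp only [expect_prod (A := Sys Γ I D), expect_prod (A := Om D), expect_prod (A := Γ → Om D),
    ovw]
  rw [expect_update g2 fun u => 𝔼 σ, G (u, σ), expect_update g1 fun u => 𝔼 w2, 𝔼 σ,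
    G (Function.update u g2 w2, σ)]
  refine expect_congr rfl fun u _ => ?_
  rw [expect_comm]
  exact expect_congr rfl fun w1 _ => expect_comm _ _ _

/-- The product of the two test gadgets with switches `b1`, `b2`. -/
noncomputable def twoG (ε : ℝ) (y1 y2 : Ty D R) (i1 i2 : I) (b1 b2 : Bool)
    (H : List (Sys Γ I D × Ax (Fin D) × Ax (Fin D))) : ℝ :=
  gad ε (extP y1.2.1) y1.2.2.1.val (if b1 = true then y1.2.2.2 else ∅)
      (fun q => ind (fun i l => conf l i) y1.1 i1 q (H.map Prod.fst)) (H.map fun t => t.2.1) *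
    gad ε (extP y2.2.1) y2.2.2.1.val (if b2 = true then y2.2.2.2 else ∅)
      (fun q => ind (fun i l => conf l i) y2.1 i2 q (H.map Prod.fst)) (H.map fun t => t.2.2)

omit [Fintype Γ] [DecidableEq Γ] [Fintype I] [DecidableEq I] in
theorem twoG_mem {ε : ℝ} (h0 : 0 ≤ ε) (hε : ε * D ≤ 1 / 2) (y1 y2 : Ty D R) (i1 i2 : I)
    (b1 b2 : Bool) (H : List (Sys Γ I D × Ax (Fin D) × Ax (Fin D))) :
    1 / 4 ≤ twoG ε y1 y2 i1 i2 b1 b2 H ∧ twoG ε y1 y2 i1 i2 b1 b2 H ≤ 4 := by
  have hε' : ε * Fintype.card (Fin D) ≤ 1 / 2 := by simpa using hε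
  obtain ⟨a1, a2⟩ := gad_mem h0 hε' (extP y1.2.1) y1.2.2.1.val (if b1 = true then y1.2.2.2 else ∅)
    (fun q => abs_ind_le (fun i l => conf l i) y1.1 i1 q (H.map Prod.fst)) (H.map fun t => t.2.1)
  obtain ⟨c1, c2⟩ := gad_mem h0 hε' (extP y2.2.1) y2.2.2.1.val (if b2 = true then y2.2.2.2 else ∅)
    (fun q => abs_ind_le (fun i l => conf l i) y2.1 i2 q (H.map Prod.fst)) (H.map fun t => t.2.2)
  unfold twoG
  constructor <;> nlinarith

theorem gfac_eq {ε : ℝ} {k : ℕ} (y : Ty D R) (b : Bool) (l : List (Om D)) (w : Om D)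
    (z : List (Om D)) (hl : l.length = k) : gfac ε k y b (l ++ w :: z) =
    gad ε (extP y.2.1) y.2.2.1.val (if w.1 = true then y.2.2.2 else ∅)
      (fun q => if b = y.1 q then 1 else 0) ((l ++ w :: z).map Prod.snd) := by
  unfold gfac
  rw [List.getD_append_right _ _ _ _ hl.le, hl, Nat.sub_self, List.getD_cons_zero]
  split_ifs
  · rfl
  · simp [gad]

theorem T_ovw (hR : 0 < R) {ε : ℝ} (h0 : 0 ≤ ε) (hε : ε * D ≤ 1 / 2) (lev : Γ → ℕ)
    (y : Γ → Ty D R) (a : Γ → I) (H : (I → Bool) → ℝ) {Act : Finset Γ} {g1 g2 : Γ} {k : ℕ}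
    (h12 : g1 ≠ g2) (h1 : g1 ∉ Act) (h2 : g2 ∉ Act) (l1 : lev g1 = k) (l2 : lev g2 = k)
    (j1 : (y g1).2.2.1.val ≤ k + 1) (j2 : (y g2).2.2.1.val ≤ k + 1) (h : List (Sys Γ I D))
    (hh : h.length + k + 1 = R) (w : Sys Γ I D × Om D × Om D) :
    T (eU R) (unifK (Sys Γ I D)) k (ovw g1 g2 w :: h)
        (Zsys ε lev y a H (insert g1 (insert g2 Act))) =
      T (eU R) (unifK (Sys Γ I D)) k (w.1 :: h) (Zsys ε lev y a H Act) *
        T (eU R) (mulK (Ksys ε lev y a H Act) (unifK (Ax (Fin D) × Ax (Fin D)))) k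
          ((w.1, w.2.1.2, w.2.2.2) :: h.map fun t => (t, (∅, fun _ => true), (∅, fun _ => true)))
          (twoG ε (y g1) (y g2) (a g1) (a g2) w.2.1.1 w.2.2.1) := by
  have he := exps_eU hR
  set Z := Zsys ε lev y a H Act
  have hZ := Zsys_pos h0 hε lev y a H Act
  set H1 : List (Sys Γ I D × Om D × Om D) := h.map fun t => (t, t.1 g1, t.1 g2) with hH1
  set ρ : Sys Γ I D × Om D × Om D → Sys Γ I D × Ax (Fin D) × Ax (Fin D) :=
    fun w => (w.1, w.2.1.2, w.2.2.2) with hρ
  have e1 : (w :: H1).map (ovw g1 g2) = ovw g1 g2 w :: h := by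
    simp [hH1, Function.comp_def, ovw]
  have e2 : (w :: H1).map Prod.fst = w.1 :: h := by simp [hH1, Function.comp_def]
  have hG : ∀ l, 0 ≤ twoG (Γ := Γ) ε (y g1) (y g2) (a g1) (a g2) w.2.1.1 w.2.2.1 l := fun l =>
    le_trans (by norm_num) (twoG_mem h0 hε _ _ _ _ _ _ l).1
  rw [← e1, ← T_map (K' := unifK _) (ovw g1 g2) (fun H G => by
    rw [sum_unifK, sum_unifK, expect_ovw]),
    T_congr k (w :: H1) (W' := fun l => Z (l.map Prod.fst) *
      twoG ε (y g1) (y g2) (a g1) (a g2) w.2.1.1 w.2.2.1 (l.map ρ)), unifK_prod,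
    T_tilt (isKer_unifK.mulK isKer_unifK) he.pos' (fun l => hZ _) (fun l => hG _) k _
      (by simp [hH1]; omega), tiltK_mulK isKer_unifK isKer_unifK he.pos' hR hZ]
  · congr 1
    · rw [T_map (K := unifK _) Prod.fst (fun H G => ?_), e2]
      rw [← unifK_prod, sum_unifK, sum_unifK, expect_prod]
      simp
    · rw [T_map (K := mulK (Ksys ε lev y a H Act) (unifK (Ax (Fin D) × Ax (Fin D)))) ρ
        (fun H' G => ?_)]
      · refine T_congr_gen k _ _ _ _ (fun l _ => ?_) fun l hl => ?_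
        · funext s; simp [mulK, unifK, hH1, hρ, Function.comp_def]
        · have f1 : (l ++ (w :: H1).map ρ).map Prod.fst = (l ++ (w.1, w.2.1.2, w.2.2.2) ::
              h.map fun t => (t, (∅, fun _ => true), (∅, fun _ => true))).map Prod.fst := by
            simp [hH1, hρ, Function.comp_def]
          simp only [twoG, f1]
          simp only [List.map_append, List.map_cons, List.append_cons _ _ (List.map _ (List.map _ _))]
          congr 1 <;> exact gad_congr _ _ _ _ _ _ _ (by simp; omega)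
      · simp only [Fintype.sum_prod_type (α₁ := Sys Γ I D), mulK, mul_assoc, ← mul_sum, sum_unifK,
          List.map_map]
        refine sum_congr rfl fun s _ => ?_
        congr 1
        simp only [hρ, expect_prod (A := Om D), expect_prod (A := Bool),
          expect_prod (A := Ax (Fin D)), expect_const univ_nonempty]
  · intro l hl
    have c1 : conf ((l ++ w :: H1).map (ovw g1 g2)) = conf ((l ++ w :: H1).map Prod.fst) := by
      simp only [conf, List.map_map]; rfl
    have c2 : ∀ g ∈ Act, ((l ++ w :: H1).map (ovw g1 g2)).map (fun s => s.1 g) =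
        ((l ++ w :: H1).map Prod.fst).map fun s => s.1 g := by
      intro g hg
      simp only [List.map_map]
      refine List.map_congr_left fun t _ => ?_
      simp [ovw, ne_of_mem_of_not_mem hg h1, ne_of_mem_of_not_mem hg h2]
    have c3 : ((l ++ w :: H1).map (ovw g1 g2)).map (fun s => s.1 g1) =
        l.map (fun t => t.2.1) ++ w.2.1 :: H1.map fun t => t.2.1 := by
      simp [ovw, h12, Function.comp_def]
    have c4 : ((l ++ w :: H1).map (ovw g1 g2)).map (fun s => s.1 g2) =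
        l.map (fun t => t.2.2) ++ w.2.2 :: H1.map fun t => t.2.2 := by
      simp [ovw, Function.comp_def]
    simp only [Z, Zsys]
    rw [prod_insert (by simp [h12, h1]), prod_insert h2, c1, c3, c4, l1, l2,
      gfac_eq _ _ _ _ _ (by simpa using hl), gfac_eq _ _ _ _ _ (by simpa using hl),
      prod_congr rfl fun g hg => by rw [c2 g hg]]
    simp only [twoG, ind, hρ, List.map_map, List.map_append, List.map_cons, Function.comp_def]
    ring

end bridge

theorem Ddef_le_cov (R : ℕ) (hR : 0 < R) : ∃ C : ℝ, 0 ≤ C ∧ ∀ (Γ I : Type) [Fintype Γ]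
    [DecidableEq Γ] [Fintype I] [DecidableEq I] (D : ℕ) (ε : ℝ), 0 ≤ ε → ε * D ≤ 1 / 2 →
    ∀ (lev : Γ → ℕ) (y : Γ → Ty D R) (a : Γ → I) (H : (I → Bool) → ℝ) (Act B : Finset Γ)
      (g1 g2 : Γ) (k : ℕ), k < R → g1 ≠ g2 → g1 ∉ Act → g2 ∉ Act → g1 ∉ B → g2 ∉ B →
      lev g1 = k → lev g2 = k → (y g1).2.2.1.val ≤ k + 1 → (y g2).2.2.1.val ≤ k + 1 →
      ∀ (P : List (Sys Γ I D) → Sys Γ I D → Sys Γ I D → ℝ) (h : List (Sys Γ I D))
        (s0 : Sys Γ I D), h.length + k + 1 = R →
        P h s0 = condP (Ksys ε lev y a H Act h) (bits B) s0 →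
        |Ddef (eU R) (Ksys ε lev y a H Act) P ε (extP (y g1).2.1) (extP (y g2).2.1)
            (y g1).2.2.1.val (y g2).2.2.1.val (y g1).2.2.2 (y g2).2.2.2
            (ind (fun i l => conf l i) (y g1).1 (a g1)) (ind (fun i l => conf l i) (y g2).1 (a g2))
            k h s0| ≤
          C * |covB (condP (Ksys ε lev y a H (insert g1 (insert g2 Act)) h) (bits B) s0)
            (fun s => (s.1 g1).1) (fun s => (s.1 g2).1)| := by
  refine ⟨R * 4096, by positivity, ?_⟩
  intro Γ I _ _ _ _ D ε h0 hε lev y a H Act B g1 g2 k hk h12 h1 h2 hB1 hB2 l1 l2 j1 j2 P h s0 hh hP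
  have he := exps_eU hR
  have hR' : (0 : ℝ) < R := by exact_mod_cast hR
  have hek : 0 < eU R k := he.pos' k hk
  have hek1 : eU R k ≤ 1 := he.le_one k hk.le
  have hekR : 1 ≤ R * eU R k := by
    unfold eU
    have : (k : ℝ) + 1 ≤ R := by exact_mod_cast hk
    rw [mul_div_cancel₀ _ hR'.ne']; linarith
  set K := Ksys ε lev y a H Act with hK
  set K' := Ksys ε lev y a H (insert g1 (insert g2 Act)) with hK'
  have hKp := Ksys_pos hR h0 hε lev y a H Act h
  have hKp' := Ksys_pos hR h0 hε lev y a H (insert g1 (insert g2 Act)) h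
  have hKK : IsKer (mulK K (unifK (Ax (Fin D) × Ax (Fin D)))) :=
    (isKer_Ksys hR h0 hε lev y a H Act).mulK isKer_unifK
  set TT : Bool → Bool → Sys Γ I D × Ax (Fin D) × Ax (Fin D) → ℝ := fun b1 b2 w =>
    T (eU R) (mulK K (unifK (Ax (Fin D) × Ax (Fin D)))) k
      (w :: h.map fun t => (t, (∅, fun _ => true), (∅, fun _ => true)))
      (twoG ε (y g1) (y g2) (a g1) (a g2) b1 b2) ^ eU R k with hTT
  set E : Bool → Bool → ℝ := fun b1 b2 => ∑ w : Sys Γ I D × Ax (Fin D) × Ax (Fin D),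
    P h s0 w.1 * (Fintype.card (Ax (Fin D) × Ax (Fin D)) : ℝ)⁻¹ * TT b1 b2 w with hE
  have hw0 : ∀ w : Sys Γ I D × Ax (Fin D) × Ax (Fin D),
      0 ≤ P h s0 w.1 * (Fintype.card (Ax (Fin D) × Ax (Fin D)) : ℝ)⁻¹ := fun w => by
    rw [hP]; exact mul_nonneg (condP_nonneg (fun s => (hKp s).le) _ _ _) (by positivity)
  have hw1 : ∑ w : Sys Γ I D × Ax (Fin D) × Ax (Fin D),
      P h s0 w.1 * (Fintype.card (Ax (Fin D) × Ax (Fin D)) : ℝ)⁻¹ = 1 := by
    rw [Fintype.sum_prod_type, hP]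
    simp only [sum_const, card_univ, nsmul_eq_mul, ← mul_sum, ← sum_mul]
    rw [sum_condP hKp, one_mul]
    exact mul_inv_cancel₀ (by exact_mod_cast Fintype.card_ne_zero)
  have hTTm : ∀ b1 b2 w, 1 / 4 ≤ TT b1 b2 w ∧ TT b1 b2 w ≤ 4 := fun b1 b2 w => by
    obtain ⟨a1, a2⟩ := T_mem hKK k (fun i hi => he.pos' i (by omega))
      (w :: h.map fun t => (t, (∅, fun _ => true), (∅, fun _ => true))) (by norm_num)
      (twoG_mem h0 hε (y g1) (y g2) (a g1) (a g2) b1 b2)
    constructor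
    · refine le_trans ?_ (Real.rpow_le_rpow (by norm_num) a1 hek.le)
      simpa using Real.rpow_le_rpow_of_exponent_ge (x := 1 / 4) (by norm_num) (by norm_num) hek1
    · refine (Real.rpow_le_rpow (by linarith) a2 hek.le).trans ?_
      simpa using Real.rpow_le_rpow_of_exponent_le (x := 4) (by norm_num) hek1
  have hEm : ∀ b1 b2, 1 / 4 ≤ E b1 b2 ∧ E b1 b2 ≤ 4 := fun b1 b2 => by
    constructor
    · refine le_of_eq_of_le ?_ (sum_le_sum fun w _ =>
        mul_le_mul_of_nonneg_left (hTTm _ _ _).1 (hw0 w))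
      rw [← sum_mul, hw1, one_mul]
    · rw [← one_mul (4 : ℝ), ← hw1, sum_mul]
      exact sum_le_sum fun w _ => mul_le_mul_of_nonneg_left (hTTm _ _ _).2 (hw0 w)
  have h00 : E false false = 1 := by
    have : twoG (Γ := Γ) ε (y g1) (y g2) (a g1) (a g2) false false = fun _ => 1 := by
      funext l; simp [twoG, gad]
    simp only [hE, hTT, this, T_const hKK k (fun i hi => he.pos' i (by omega)) _ zero_le_one,
      Real.one_rpow, mul_one, hw1]
  obtain ⟨c, hc⟩ : ∃ c : ℝ, ∀ b1 b2, ∑ s, (if (s.1 g1).1 = b1 ∧ (s.1 g2).1 = b2 then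
      condP (K' h) (bits B) s0 s else 0) = c * E b1 b2 := by
    set t : Sys Γ I D → ℝ := fun s => T (eU R) (unifK (Sys Γ I D)) k (s :: h)
      (Zsys ε lev y a H Act) ^ eU R k with ht
    set t' : Sys Γ I D → ℝ := fun s => T (eU R) (unifK (Sys Γ I D)) k (s :: h)
      (Zsys ε lev y a H (insert g1 (insert g2 Act))) ^ eU R k with ht'
    have hk' : R - 1 - h.length = k := by omega
    obtain ⟨n, hn0, hn⟩ : ∃ n : ℝ, n ≠ 0 ∧ ∀ s, P h s0 s = n * (unifK _ h s *
        if bits B s = bits B s0 then t s else 0) := by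
      refine ⟨((∑ s', unifK _ h s' * t s') * ∑ s', if bits B s' = bits B s0 then K h s' else 0)⁻¹,
        inv_ne_zero (mul_ne_zero ?_ ?_), fun s => ?_⟩
      · intro hz
        have := hKp s0
        simp only [Ksys, tiltK, hk'] at this
        rw [show (∑ s', unifK _ h s' * T (eU R) (unifK (Sys Γ I D)) k (s' :: h)
          (Zsys ε lev y a H Act) ^ eU R k) = 0 from hz, div_zero] at this
        exact lt_irrefl _ this
      · refine (sum_pos' (fun s _ => ?_) ⟨s0, mem_univ _, by simpa using hKp s0⟩).ne'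
        split_ifs
        exacts [(hKp s).le, le_rfl]
      · rw [hP, condP]
        split_ifs
        · rw [hK]; simp only [Ksys, tiltK, hk']; rw [mul_inv]; ring
        · simp
    obtain ⟨n', hn'⟩ : ∃ n' : ℝ, ∀ s, condP (K' h) (bits B) s0 s = n' * (unifK _ h s *
        if bits B s = bits B s0 then t' s else 0) := by
      refine ⟨((∑ s', unifK _ h s' * t' s') *
        ∑ s', if bits B s' = bits B s0 then K' h s' else 0)⁻¹, fun s => ?_⟩
      rw [condP]
      split_ifs
      · rw [hK']; simp only [Ksys, tiltK, hk']; rw [mul_inv]; ring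
      · simp
    refine ⟨n' / (4 * n), fun b1 b2 => ?_⟩
    have e1 : ∑ s, (if (s.1 g1).1 = b1 ∧ (s.1 g2).1 = b2 then condP (K' h) (bits B) s0 s else 0) =
        n' * ∑ s, unifK _ h s * (if (s.1 g1).1 = b1 ∧ (s.1 g2).1 = b2 then
          (if bits B s = bits B s0 then t' s else 0) else 0) := by
      rw [mul_sum]
      exact sum_congr rfl fun s _ => by rw [hn']; split_ifs <;> simp
    have e2 : E b1 b2 = n * 𝔼 s, 𝔼 z : Ax (Fin D) × Ax (Fin D),
        (if bits B s = bits B s0 then t s else 0) * TT b1 b2 (s, z) := by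
      rw [← sum_unifK h, hE, mul_sum]
      simp only [Fintype.sum_prod_type (α₁ := Sys Γ I D), hn, ← mul_expect]
      refine sum_congr rfl fun s _ => ?_
      rw [← mul_sum, expect_eq_sum_div_card, card_univ]; ring
    have e3 : ∀ w : Sys Γ I D × Om D × Om D, bits B (ovw g1 g2 w) = bits B w.1 := fun w => by
      funext g
      simp only [bits, ovw]
      split_ifs with hg
      · simp [ne_of_mem_of_not_mem hg hB1, ne_of_mem_of_not_mem hg hB2]
      · rfl
    have e4 : ∀ w : Sys Γ I D × Om D × Om D, t' (ovw g1 g2 w) =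
        t w.1 * TT w.2.1.1 w.2.2.1 (w.1, w.2.1.2, w.2.2.2) := fun w => by
      simp only [ht', ht, hTT]
      rw [T_ovw hR h0 hε lev y a H h12 h1 h2 l1 l2 j1 j2 h hh, Real.mul_rpow
        (T_nonneg isKer_unifK _ _ fun l => (Zsys_pos h0 hε lev y a H Act l).le)
        (T_nonneg hKK _ _ fun l => le_trans (by norm_num) (twoG_mem h0 hε _ _ _ _ _ _ l).1)]
    have e5 : ∀ w : Sys Γ I D × Om D × Om D, (ovw g1 g2 w).1 g1 = w.2.1 ∧
        (ovw g1 g2 w).1 g2 = w.2.2 := fun w => by simp [ovw, h12]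
    rw [e1, e2, sum_unifK, ← expect_ovw g1 g2]
    simp only [e3, e4, e5, expect_prod (A := Sys Γ I D), expect_prod (A := Om D),
      expect_prod (A := Bool), expect_prod (A := Ax (Fin D))]
    rw [← mul_assoc, div_mul_eq_mul_div, mul_div_mul_right _ _ hn0, div_eq_mul_inv, mul_assoc]
    congr 1
    rw [mul_expect]
    refine expect_congr rfl fun s _ => ?_
    have hb : ∀ f : Bool → ℝ, 𝔼 b, f b = 2⁻¹ * (f true + f false) := fun f => by
      simp [expect_eq_sum_div_card, div_eq_inv_mul]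
    simp only [hb]
    by_cases hs : bits B s = bits B s0 <;> cases b1 <;> cases b2 <;>
      simp [hs, ← mul_expect] <;> ring
  obtain ⟨c1, c2⟩ := covB_eq (fun s : Sys Γ I D => (s.1 g1).1) (fun s => (s.1 g2).1) hc
  rw [sum_condP hKp'] at c2
  have key := log_defect hEm h00 (c := c) (by linarith) c1
  have hD : Ddef (eU R) K P ε (extP (y g1).2.1) (extP (y g2).2.1)
      (y g1).2.2.1.val (y g2).2.2.1.val (y g1).2.2.2 (y g2).2.2.2
      (ind (fun i l => conf l i) (y g1).1 (a g1)) (ind (fun i l => conf l i) (y g2).1 (a g2))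
      k h s0 = (Real.log (E true true) - Real.log (E true false) - Real.log (E false true)) /
        eU R k := by
    rw [sub_div, sub_div]; rfl
  rw [hD, abs_div, abs_of_pos hek, div_le_iff₀ hek]
  refine key.trans ?_
  have := abs_nonneg (covB (condP (K' h) (bits B) s0) (fun s => (s.1 g1).1) fun s => (s.1 g2).1)
  nlinarith

end Crest.Agent.H9.MP
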