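import Crest.Agent.H9.MP.T5x

/-! MP-T5: the one step interpolation inequality. -/

/-
Sketch. D(θ) = integrand; D(θ + const) = D θ, |D θ - D θ'| ≤ 2p ‖θ - θ'‖ (abs_log_T_sub_le), D 0 = 0. Change variables to Ω: θ = log a + log(1 + b Πf). If b = 0 a.s. then D = 0.
Else f is essentially bounded (P(|b| ≥ β) > 0 and independence give |Π_ℓ f_ℓ(s)| ≤ 1/β a.s.; iid gives |f(s)| ≤ M a.s.). θ_t = log(1 + t b Πf), t ↑ 1: D(θ_t) → D(θ),
|D θ_t| ≤ 2p osc θ_t ≤ 4p supNorm θ (subtract the value at one s; (1+tu)/(1+tu') is monotone in t), dominated convergence. For t < 1: log T(1 - U) = -Σ Mml_n/n! (Y_root, hasSum_Y, |U| ≤ t),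
termwise integration (|Mml_n| ≤ wt n t^n; summable by wt_le). Mml_eq_SS + SS_finite; for a shape t: ev of U = (-tb)^n ev(Π_ℓ f_ℓ(..)); ev_expand with o = (σ0 · l) : I0 → Bool,
weights w τ ≥ 0, Σ w = 1 (ev_nonneg, ev_one); x τ = E_f avg_i Π_q f(τ q i), y = E_f avg_i ev K (f ∘ σ i) t; by independence (ev_prodK, ev_mulK) the three terms are
Σ w x^p, y^p, (Σ w x) y^(p-1); x^p + (p-1) y^p - p x y^(p-1) ≥ 0 (p even: convexity; or x, y ≥ 0), E(-b)^n ≥ 0.
-/

set_option autoImplicit false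

namespace Crest.Agent.H9.MP

open MeasureTheory Crest.ProbabilityR.Diluted Finset Filter Topology
open scoped BigOperators

theorem abs_comb_le {p : ℕ} (hp : 1 ≤ p) {a b c C : ℝ} (ha : |a| ≤ C) (hb : |b| ≤ C)
    (hc : |c| ≤ C) : |comb p a b c| ≤ 2 * p * C := by
  have hp' : (1:ℝ) ≤ p := by exact_mod_cast hp
  unfold comb
  have h1 := mul_le_mul_of_nonneg_left hb (sub_nonneg.2 hp')
  have h2 := mul_le_mul_of_nonneg_left hc (by linarith : (0:ℝ) ≤ p)
  refine (abs_sub _ _).trans ((add_le_add_left (abs_add_le _ _) _).trans ?_)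
  rw [abs_mul, abs_mul, abs_of_nonneg (sub_nonneg.2 hp'), Nat.abs_cast]
  linarith

theorem abs_log_sub_le {u u' t : ℝ} (hu : |u| < 1) (hu' : |u'| < 1) (h0 : 0 ≤ t) (h1 : t ≤ 1) :
    |Real.log (1 + t * u) - Real.log (1 + t * u')| ≤ |Real.log (1 + u) - Real.log (1 + u')| := by
  wlog h : u' ≤ u generalizing u u'
  · rw [abs_sub_comm, abs_sub_comm (Real.log (1 + u))]
    exact this hu' hu (le_of_not_ge h)
  obtain ⟨a1, a2⟩ := abs_lt.1 hu
  obtain ⟨b1, b2⟩ := abs_lt.1 hu'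
  have p1 : 0 < 1 + t * u' := by nlinarith
  have p2 : 1 + t * u' ≤ 1 + t * u := by nlinarith
  have p3 : 0 < 1 + u' := by linarith
  have p4 : 0 < 1 + u := by linarith
  rw [abs_of_nonneg (sub_nonneg.2 (Real.log_le_log p1 p2)),
    abs_of_nonneg (sub_nonneg.2 (Real.log_le_log p3 (by linarith))), sub_le_sub_iff,
    ← Real.log_mul (by linarith) p3.ne', ← Real.log_mul p4.ne' p1.ne']
  exact Real.log_le_log (mul_pos (by linarith) p3) (by nlinarith)

theorem ess_bdd {p : ℕ} (hp : 0 < p) {Ω : Type} [MeasurableSpace Ω] {P : Measure Ω}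
    [IsProbabilityMeasure P] {b : Ω → ℝ} {F : Ω → Fin p → Bool → ℝ} (hb : Measurable b)
    (hF : Measurable F) {π : Measure (Bool → ℝ)} [IsProbabilityMeasure π]
    (hπ : P.map F = Measure.pi fun _ => π) (hbF : ProbabilityTheory.IndepFun b F P)
    (hae : ∀ᵐ ω ∂P, ∀ s : Fin p → Bool, |b ω * ∏ ℓ, F ω ℓ (s ℓ)| < 1) (hb0 : ¬ b =ᵐ[P] 0) :
    ∃ M : ℝ, ∀ᵐ g ∂π, ‖g‖ ≤ M := by
  obtain ⟨n, hn⟩ : ∃ n : ℕ, P (b ⁻¹' {x | 1 / ((n:ℝ) + 1) ≤ |x|}) ≠ 0 := by
    by_contra h
    push Not at h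
    apply hb0
    have : ∀ᵐ ω ∂P, ∀ n : ℕ, ¬ (1 / ((n:ℝ) + 1) ≤ |b ω|) := ae_all_iff.2 fun n => by
      rw [ae_iff]; simpa using h n
    filter_upwards [this] with ω hω
    by_contra h0
    obtain ⟨n, hn⟩ := exists_nat_one_div_lt (abs_pos.2 h0)
    exact hω n hn.le
  refine ⟨n + 1, ?_⟩
  have key : ∀ s : Bool, π {g | (n:ℝ) + 1 < |g s|} = 0 := by
    intro s
    have mA : MeasurableSet {g : Bool → ℝ | (n:ℝ) + 1 < |g s|} :=
      measurableSet_lt measurable_const (by fun_prop)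
    have mB : MeasurableSet {x : ℝ | 1 / ((n:ℝ) + 1) ≤ |x|} :=
      measurableSet_le measurable_const (by fun_prop)
    have mC : MeasurableSet (Set.univ.pi fun _ : Fin p => {g : Bool → ℝ | (n:ℝ) + 1 < |g s|}) :=
      MeasurableSet.univ_pi fun _ => mA
    have h1 := hbF.measure_inter_preimage_eq_mul _ _ mB mC
    rw [← Measure.map_apply hF mC, hπ, Measure.pi_pi] at h1
    have h2 : P (b ⁻¹' {x | 1 / ((n:ℝ) + 1) ≤ |x|} ∩
        F ⁻¹' (Set.univ.pi fun _ : Fin p => {g : Bool → ℝ | (n:ℝ) + 1 < |g s|})) = 0 := by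
      refine measure_mono_null ?_ (ae_iff.1 hae)
      rintro ω ⟨a1, a2⟩ a3
      have a4 := a3 fun _ => s
      have a5 : ((n:ℝ) + 1) ^ p ≤ |∏ ℓ, F ω ℓ s| := by
        rw [abs_prod]
        calc ((n:ℝ) + 1) ^ p = ∏ _ℓ : Fin p, ((n:ℝ) + 1) := by simp
          _ ≤ _ := prod_le_prod (fun _ _ => by positivity) fun ℓ _ => (a2 ℓ trivial).le
      have a6 : (n:ℝ) + 1 ≤ ((n:ℝ) + 1) ^ p :=
        le_self_pow₀ (by have : (0:ℝ) ≤ n := Nat.cast_nonneg _
                         linarith) hp.ne'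
      rw [abs_mul] at a4
      have a7 := mul_le_mul a1 (a6.trans a5) (by positivity) (abs_nonneg _)
      rw [one_div_mul_cancel (by positivity)] at a7
      linarith
    rw [h2, eq_comm, mul_eq_zero, prod_const, pow_eq_zero_iff (by simpa using hp.ne')] at h1
    exact h1.resolve_left hn
  have : ∀ᵐ g ∂π, ∀ s : Bool, |g s| ≤ (n:ℝ) + 1 := ae_all_iff.2 fun s => by
    rw [ae_iff]; simpa using key s
  filter_upwards [this] with g hg
  exact (pi_norm_le_iff_of_nonneg (by positivity)).2 hg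

section
variable {S0 I0 S I : Type} [Fintype S0] [Fintype I0] [Fintype S] [Fintype I]

noncomputable def Dd (p : ℕ) (e : ℕ → ℝ) (R : ℕ) (K0 : Ker S0) (σ0 : I0 → List S0 → Bool)
    (K : Ker S) (σ : I → List S → Bool) (θ : Inter p) : ℝ :=
  comb p (Gsel e R K0 (selT p σ0) θ) (Gsel e R (prodK (Fin p) K) (selP p σ) θ)
    (Gsel e R (mulK K0 (prodK (Fin (p - 1)) K)) (selM p σ0 σ) θ)

noncomputable def dn (p : ℕ) (e : ℕ → ℝ) (R : ℕ) (K0 : Ker S0) (σ0 : I0 → List S0 → Bool)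
    (K : Ker S) (σ : I → List S → Bool) (n : ℕ) (u : Inter p) : ℝ :=
  comb p (Msel e R K0 (selT p σ0) n u) (Msel e R (prodK (Fin p) K) (selP p σ) n u)
    (Msel e R (mulK K0 (prodK (Fin (p - 1)) K)) (selM p σ0 σ) n u)

variable {p : ℕ} {e : ℕ → ℝ} {R : ℕ} {K0 : Ker S0} {K : Ker S}

theorem dn_eq (he : Exps e R) (σ0 : I0 → List S0 → Bool) (σ : I → List S → Bool) (n : ℕ) :
    ∃ (m : ℕ) (t : Fin m → Sh (Fin n) R) (w : Fin m → ℝ),
      (∀ k, 0 ≤ w k ∧ WF R (t k) ∧ lv R (t k) = univ) ∧ ∀ u : Inter p,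
      dn p e R K0 σ0 K σ n u = ∑ k, w k * comb p (Esel R K0 (selT p σ0) (t k) u)
        (Esel R (prodK (Fin p) K) (selP p σ) (t k) u)
        (Esel R (mulK K0 (prodK (Fin (p - 1)) K)) (selM p σ0 σ) (t k) u) := by
  obtain ⟨m, t, w, h1, h2⟩ := SS_finite (ι := Fin n) he le_rfl univ
  refine ⟨m, t, w, h1, fun u => ?_⟩
  simp only [dn, comb, Msel_eq h2, mul_sum, ← sum_add_distrib, ← sum_sub_distrib]
  exact sum_congr rfl fun k _ => by ring

theorem continuous_Esel {A : Type} [Fintype A] (sel : A → List S → Fin p → Bool) {n : ℕ}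
    (t : Sh (Fin n) R) : Continuous (Esel R K sel t) :=
  continuous_expect fun _ => continuous_ev (fun _ _ => continuous_apply _) R t []

theorem continuous_dn (he : Exps e R) (σ0 : I0 → List S0 → Bool) (σ : I → List S → Bool) (n : ℕ) :
    Continuous (dn p e R K0 σ0 K σ n) := by
  obtain ⟨m, t, w, -, h2⟩ := dn_eq (p := p) (K0 := K0) (K := K) he σ0 σ n
  rw [funext h2]
  exact continuous_finset_sum _ fun k _ => continuous_const.mul
    (((continuous_Esel _ _).add (continuous_const.mul (continuous_Esel _ _))).sub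
      (continuous_const.mul (continuous_Esel _ _)))

theorem dn_nonneg {q : ℕ} (hq : 1 ≤ q) (he : Exps e R) (hK0 : IsKer K0)
    (σ0 : I0 → List S0 → Bool) (hK : IsKer K) (σ : I → List S → Bool) (n : ℕ)
    {π : Measure (Bool → ℝ)} [IsProbabilityMeasure π] {M : ℝ}
    (hM : ∀ᵐ g ∂π, ‖g‖ ≤ M) (hs : Even (q + 1) ∨ ∀ᵐ g ∂π, ∀ s, 0 ≤ g s) :
    0 ≤ ∫ f, dn (q + 1) e R K0 σ0 K σ n (fun s => ∏ ℓ, f ℓ (s ℓ))
      ∂(Measure.pi fun _ : Fin (q + 1) => π) := by
  obtain ⟨m, t, w, h1, h2⟩ := dn_eq (p := q + 1) (K0 := K0) (K := K) he σ0 σ n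
  have hM' : ∀ᵐ f ∂(Measure.pi fun _ : Fin (q + 1) => π), ‖f‖ ≤ max M 0 := by
    have := Filter.eventually_all.2 fun i : Fin (q + 1) =>
      (Measure.tendsto_eval_ae_ae (μ := fun _ : Fin (q + 1) => π) (i := i)).eventually hM
    filter_upwards [this] with f hf
    exact (pi_norm_le_iff_of_nonneg (le_max_right _ _)).2 fun i => (hf i).trans (le_max_left _ _)
  have c0 : Continuous fun (f : Fin (q + 1) → Bool → ℝ) (s : Fin (q + 1) → Bool) =>
      ∏ ℓ, f ℓ (s ℓ) := by fun_prop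
  simp only [h2]
  rw [integral_finset_sum]
  · refine sum_nonneg fun k _ => ?_
    rw [integral_const_mul]
    exact mul_nonneg (h1 k).1 (Esel_nonneg hK0 σ0 hK σ hq (t k) (h1 k).2.1 (h1 k).2.2 hM hs)
  · exact fun k _ => integrable_of_cont hM' (continuous_const.mul
      ((((continuous_Esel _ _).comp c0).add (continuous_const.mul
        ((continuous_Esel _ _).comp c0))).sub (continuous_const.mul ((continuous_Esel _ _).comp c0))))

end

theorem one_step {p : ℕ} (hp : 2 ≤ p) {μ : Measure (Inter p)} [IsProbabilityMeasure μ]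
    (hμ : Integrable (fun θ => supNorm θ) μ) (hfac : Fac p μ) {e : ℕ → ℝ} {R : ℕ} (he : Exps e R)
    {S0 I0 S I : Type} [Fintype S0] [Fintype I0] [Nonempty I0] [Fintype S] [Fintype I] [Nonempty I]
    {K0 : Ker S0} (hK0 : IsKer K0) (σ0 : I0 → List S0 → Bool) {K : Ker S} (hK : IsKer K)
    (σ : I → List S → Bool) :
    ∫ θ, (Gtrue e R K0 σ0 (fun s : Fin p → Bool => Real.exp (θ s)) +
      (p - 1 : ℝ) * Gprod e R K σ (fun s : Fin p → Bool => Real.exp (θ s)) -
      p * Gmix e R K0 σ0 K σ θ) ∂μ ≤ 0 := by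
  obtain ⟨q, rfl⟩ : ∃ q, p = q + 1 := ⟨p - 1, by omega⟩
  have hD : ∀ θ : (Fin (q + 1) → Bool) → ℝ, Gtrue e R K0 σ0 (fun s : Fin (q + 1) → Bool => Real.exp (θ s)) +
      (((q + 1 : ℕ) : ℝ) - 1) * Gprod e R K σ (fun s : Fin (q + 1) → Bool => Real.exp (θ s)) -
      ((q + 1 : ℕ) : ℝ) * Gmix e R K0 σ0 K σ θ = Dd (q + 1) e R K0 σ0 K σ θ := by
    intro θ
    have : Gmix e R K0 σ0 K σ θ
        = Gsel e R (mulK K0 (prodK (Fin (q + 1 - 1)) K)) (selM (q + 1) σ0 σ) θ := by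
      unfold Gsel; rw [← univ_product_univ, expect_product]; rfl
    rw [this]; rfl
  simp only [hD]
  set D := Dd (q + 1) e R K0 σ0 K σ with hDdef
  have k2 := hK.prodK (Fin (q + 1))
  have k3 := hK0.mulK (hK.prodK (Fin (q + 1 - 1)))
  have g1 := Gsel_good hK0 he (selT (q + 1) σ0)
  have g2 := Gsel_good k2 he (selP (q + 1) σ)
  have g3 := Gsel_good k3 he (selM (q + 1) σ0 σ)
  have cD : Continuous D := (g1.continuous.add (continuous_const.mul g2.continuous)).sub
    (continuous_const.mul g3.continuous)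
  have aD : ∀ (θ : (Fin (q + 1) → Bool) → ℝ) (c : ℝ), D (fun s => θ s + c) = D θ := fun θ c => by
    simp only [hDdef, Dd, comb, g1.add_const, g2.add_const, g3.add_const]; ring
  have bD : ∀ (θ : (Fin (q + 1) → Bool) → ℝ) (c : ℝ), (∀ s, |θ s| ≤ c) → |D θ| ≤ 2 * (q + 1 : ℕ) * c := by
    intro θ c h
    refine abs_comb_le (by omega) ?_ ?_ ?_
    · simpa [Gsel_zero hK0 he] using g1.abs_sub_le (H' := fun _ => 0) (by simpa using h)
    · simpa [Gsel_zero k2 he] using g2.abs_sub_le (H' := fun _ => 0) (by simpa using h)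
    · have := g3.abs_sub_le (H := θ) (H' := fun _ => 0) (c := c) (by simpa using h)
      rwa [Gsel_zero k3 he, sub_zero] at this
  obtain ⟨Ω, m, P, hP, a, b, f, ha, hb, hf, hind, hid, hbf, hae, hmom, hmap, hs⟩ := hfac
  have mθ : Measurable fun ω => fun s : Fin (q + 1) → Bool =>
      Real.log (a ω * (1 + b ω * ∏ ℓ, f ℓ ω (s ℓ))) := by fun_prop
  have mF : Measurable fun ω ℓ => f ℓ ω := measurable_pi_lambda _ hf
  set π : Measure (Bool → ℝ) := P.map (f 0) with hπdef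
  haveI : IsProbabilityMeasure π := Measure.isProbabilityMeasure_map (hf 0).aemeasurable
  have hπ : P.map (fun ω ℓ => f ℓ ω) = Measure.pi fun _ => π := by
    rw [(ProbabilityTheory.iIndepFun_iff_map_fun_eq_pi_map fun ℓ => (hf ℓ).aemeasurable).1 hind]
    congr 1; funext ℓ; exact (hid ℓ).map_eq
  have cP : Continuous fun (f : Fin (q + 1) → Bool → ℝ) (s : Fin (q + 1) → Bool) =>
      ∏ ℓ, f ℓ (s ℓ) := by fun_prop
  -- the inequality for `t < 1`
  have step : ∀ t : ℝ, 0 ≤ t → t < 1 →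
      ∫ ω, D (fun s => Real.log (1 + t * (b ω * ∏ ℓ, f ℓ ω (s ℓ)))) ∂P ≤ 0 := by
    intro t h0 h1
    set F : ℕ → Ω → ℝ := fun n ω => dn (q + 1) e R K0 σ0 K σ n
      (fun s => -(t * (b ω * ∏ ℓ, f ℓ ω (s ℓ)))) / n.factorial with hF
    have hu : ∀ᵐ ω ∂P, ∀ s : Fin (q + 1) → Bool, |-(t * (b ω * ∏ ℓ, f ℓ ω (s ℓ)))| ≤ t := by
      filter_upwards [hae] with ω hω s
      rw [abs_neg, abs_mul, abs_of_nonneg h0]
      exact mul_le_of_le_one_right h0 (hω.2 s).le
    have hFb : ∀ n, ∀ᵐ ω ∂P, ‖F n ω‖ ≤ 2 * (q + 1 : ℕ) * (wt e R n / n.factorial * t ^ n) := by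
      intro n
      filter_upwards [hu] with ω hω
      rw [hF, Real.norm_eq_abs, abs_div, Nat.abs_cast, div_mul_eq_mul_div, ← mul_div_assoc]
      exact div_le_div_of_nonneg_right (abs_comb_le (by omega) (abs_Msel_le hK0 he _ n hω)
        (abs_Msel_le k2 he _ n hω) (abs_Msel_le k3 he _ n hω)) (Nat.cast_nonneg _)
    have hFm : ∀ n, Measurable (F n) := fun n =>
      ((continuous_dn he σ0 σ n).measurable.comp (by fun_prop)).div_const _
    have hFi : ∀ n, Integrable (F n) P := fun n =>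
      Integrable.of_bound (hFm n).aestronglyMeasurable _ (hFb n)
    obtain ⟨a0, ha0, -⟩ := hasSum_wt he le_rfl h0 h1
    have hsum := hasSum_integral_of_summable_integral_norm hFi (Summable.of_nonneg_of_le
      (fun n => integral_nonneg fun ω => norm_nonneg _) (fun n => by
        have := integral_mono_ae (hFi n).norm (integrable_const _) (hFb n)
        simpa using this) (ha0.summable.mul_left (2 * ((q:ℝ) + 1))))
    have e1 : ∫ ω, (∑' n, F n ω) ∂P
        = -∫ ω, D (fun s => Real.log (1 + t * (b ω * ∏ ℓ, f ℓ ω (s ℓ)))) ∂P := by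
      rw [← integral_neg]
      refine integral_congr_ae ?_
      filter_upwards [hu] with ω hω
      have := ((hasSum_Gsel hK0 he (selT (q + 1) σ0) h1 hω).add
        ((hasSum_Gsel k2 he (selP (q + 1) σ) h1 hω).mul_left (((q + 1 : ℕ) : ℝ) - 1))).sub
        ((hasSum_Gsel k3 he (selM (q + 1) σ0 σ) h1 hω).mul_left ((q + 1 : ℕ) : ℝ))
      simp only [sub_neg_eq_add] at this
      have e2 : (fun n => F n ω) = _ := funext fun n => by
        simp only [hF, dn, comb]
        rw [sub_div, add_div, mul_div_assoc, mul_div_assoc]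
      rw [e2, this.tsum_eq]
      simp only [hDdef, Dd, comb]; ring
    rw [e1] at hsum
    refine neg_nonneg.1 (hsum.nonneg fun n => ?_)
    by_cases hn : n = 0
    · subst hn; simp [hF, dn, comb, Msel_zero]
    have e3 : ∀ ω, F n ω = (t ^ n / n.factorial) * ((-b ω) ^ n *
        dn (q + 1) e R K0 σ0 K σ n (fun s => ∏ ℓ, f ℓ ω (s ℓ))) := fun ω => by
      have : (fun s : Fin (q + 1) → Bool => -(t * (b ω * ∏ ℓ, f ℓ ω (s ℓ))))
          = fun s => (t * -b ω) * ∏ ℓ, f ℓ ω (s ℓ) := by funext s; ring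
      simp only [hF, this, dn, comb, Msel_smul, mul_pow]; ring
    simp only [e3]
    rw [integral_const_mul]
    refine mul_nonneg (by positivity) ?_
    by_cases hb0 : b =ᵐ[P] 0
    · refine le_of_eq (integral_eq_zero_of_ae ?_).symm
      filter_upwards [hb0] with ω hω
      simp [hω, hn]
    obtain ⟨M, hM⟩ := ess_bdd (by omega) hb mF hπ hbf (hae.mono fun ω hω => hω.2) hb0
    have cZ := (continuous_dn (p := q + 1) (K0 := K0) (K := K) he σ0 σ n).comp cP
    have hi := (hbf.comp (φ := fun x : ℝ => (-x) ^ n) (by fun_prop)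
      cZ.measurable).integral_fun_mul_eq_mul_integral
      (Measurable.aestronglyMeasurable (by fun_prop))
      (cZ.measurable.comp mF).aestronglyMeasurable
    refine le_of_le_of_eq (mul_nonneg (hmom n (by omega)).2 ?_) hi.symm
    have h2 := dn_nonneg (by omega) he hK0 σ0 hK σ n hM (hs.imp id fun h =>
      (ae_map_iff (hf 0).aemeasurable (by
        simp only [Set.setOf_forall]
        exact MeasurableSet.iInter fun s => measurableSet_le measurable_const (by fun_prop))).2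
        (ae_of_all _ fun ω s => h 0 ω s))
    rw [← hπ] at h2
    exact h2.trans_eq (integral_map mF.aemeasurable cZ.aestronglyMeasurable)
  have hint : Integrable (fun ω => supNorm fun s : Fin (q + 1) → Bool =>
      Real.log (a ω * (1 + b ω * ∏ ℓ, f ℓ ω (s ℓ)))) P := by
    rw [← hmap] at hμ
    exact (integrable_map_measure hμ.aestronglyMeasurable mθ.aemeasurable).1 hμ
  have hlog : ∀ᵐ ω ∂P, ∀ s : Fin (q + 1) → Bool, Real.log (a ω * (1 + b ω * ∏ ℓ, f ℓ ω (s ℓ)))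
      = Real.log (1 + b ω * ∏ ℓ, f ℓ ω (s ℓ)) + Real.log (a ω) := by
    filter_upwards [hae] with ω hω s
    have := (abs_lt.1 (hω.2 s)).1
    rw [Real.log_mul hω.1.ne' (by linarith), add_comm]
  rw [← hmap, integral_map mθ.aemeasurable cD.aestronglyMeasurable]
  have ht : Tendsto (fun n : ℕ => 1 - 1 / ((n:ℝ) + 1)) atTop (𝓝 1) := by
    simpa using tendsto_one_div_add_atTop_nhds_zero_nat.const_sub (1:ℝ)
  have ht0 : ∀ n : ℕ, 0 ≤ 1 - 1 / ((n:ℝ) + 1) := fun n => sub_nonneg.2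
    (div_le_one_of_le₀ (by have : (0:ℝ) ≤ n := Nat.cast_nonneg _
                           linarith) (by positivity))
  have ht1 : ∀ n : ℕ, 1 - 1 / ((n:ℝ) + 1) < 1 := fun n => sub_lt_self _ (by positivity)
  refine le_of_tendsto' (tendsto_integral_of_dominated_convergence _ (fun n => ?_)
    (hint.const_mul (2 * (q + 1 : ℕ) * 2)) (fun n => ?_) ?_) fun n => step _ (ht0 n) (ht1 n)
  · exact (cD.measurable.comp (by fun_prop)).aestronglyMeasurable
  · filter_upwards [hae, hlog] with ω hω hl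
    rw [Real.norm_eq_abs, ← aD _ (-Real.log (1 + (1 - 1 / ((n:ℝ) + 1)) *
      (b ω * ∏ ℓ, f ℓ ω true))), mul_assoc (2 * _)]
    refine bD _ _ fun s => ?_
    have h1 := abs_log_sub_le (hω.2 s) (hω.2 fun _ => true) (ht0 n) (ht1 n).le
    have h2 := abs_le_supNorm (fun s : Fin (q + 1) → Bool =>
      Real.log (a ω * (1 + b ω * ∏ ℓ, f ℓ ω (s ℓ)))) s
    have h3 := abs_le_supNorm (fun s : Fin (q + 1) → Bool =>
      Real.log (a ω * (1 + b ω * ∏ ℓ, f ℓ ω (s ℓ)))) fun _ => true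
    have h4 := abs_sub (Real.log (a ω * (1 + b ω * ∏ ℓ, f ℓ ω (s ℓ))))
      (Real.log (a ω * (1 + b ω * ∏ ℓ, f ℓ ω true)))
    rw [hl s, hl fun _ => true, add_sub_add_right_eq_sub, ← hl s, ← hl fun _ => true] at h4
    rw [← sub_eq_add_neg]
    linarith
  · filter_upwards [hae, hlog] with ω hω hl
    rw [funext hl, aD]
    refine (cD.tendsto _).comp (tendsto_pi_nhds.2 fun s => ?_)
    have := (abs_lt.1 (hω.2 s)).1
    refine Tendsto.log ?_ (by linarith)
    simpa using (ht.mul_const (b ω * ∏ ℓ, f ℓ ω (s ℓ))).const_add 1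

end Crest.Agent.H9.MP
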