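import Crest.Agent.H9.MP.Defs

/-! MP-T7a: good functionals; symmetry of the interaction law. -/

/-
Sketch of integral_perm: cent θ = θ - θ̄ with θ̄ the mean over s (invariant under π). Φ(θ∘π) = Φ(cent θ ∘ π) + θ̄. On Ω, cent θ = c(b, f) does not involve a, and (b, f∘π⁻¹) has the law of (b, f)
(iIndepFun + IdentDistrib: law of f is Measure.pi, invariant under permutations; IndepFun: product law). Integrability from |Φ θ - Φ 0| ≤ ‖θ‖.
-/

set_option autoImplicit false

namespace Crest.Agent.H9.MP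

open MeasureTheory Crest.ProbabilityR.Diluted

theorem abs_le_supNorm {p : ℕ} (θ : Inter p) (s : Fin p → Bool) : |θ s| ≤ supNorm θ :=
  le_ciSup (f := fun s => |θ s|) (Set.finite_range _).bddAbove s

theorem supNorm_eq_norm {p : ℕ} (θ : Inter p) : supNorm θ = ‖θ‖ := by
  refine le_antisymm (ciSup_le fun s => norm_le_pi_norm θ s) ?_
  exact (pi_norm_le_iff_of_nonneg ((abs_nonneg _).trans (abs_le_supNorm θ fun _ => true))).2
    fun s => abs_le_supNorm θ s

theorem Good.abs_sub_le {C : Type} {Φ : (C → ℝ) → ℝ} (h : Good Φ) {H H' : C → ℝ} {c : ℝ}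
    (hc : ∀ s, |H s - H' s| ≤ c) : |Φ H - Φ H'| ≤ c := by
  have a := h H H' c fun s => by linarith [(abs_le.1 (hc s)).2]
  have b := h H' H c fun s => by linarith [(abs_le.1 (hc s)).1]
  rw [abs_le]; constructor <;> linarith

theorem Good.add_const {C : Type} {Φ : (C → ℝ) → ℝ} (h : Good Φ) (H : C → ℝ) (c : ℝ) :
    Φ (fun s => H s + c) = Φ H + c := by
  have a := h (fun s => H s + c) H c fun s => le_rfl
  have b := h H (fun s => H s + c) (-c) fun s => by linarith
  linarith

theorem Good.continuous {C : Type} [Fintype C] {Φ : (C → ℝ) → ℝ} (h : Good Φ) : Continuous Φ := by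
  refine (LipschitzWith.of_dist_le_mul (K := 1) fun H H' => ?_).continuous
  rw [NNReal.coe_one, one_mul, Real.dist_eq]
  exact h.abs_sub_le fun s => dist_le_pi_dist H H' s

theorem good_logSumExp {C : Type} [Fintype C] [Nonempty C] :
    Good fun H : C → ℝ => Real.log (∑ s, Real.exp (H s)) := by
  intro H H' c hc
  have p1 : 0 < ∑ s, Real.exp (H s) :=
    Finset.sum_pos (fun s _ => Real.exp_pos _) Finset.univ_nonempty
  have p2 : 0 < ∑ s, Real.exp (H' s) :=
    Finset.sum_pos (fun s _ => Real.exp_pos _) Finset.univ_nonempty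
  have : ∑ s, Real.exp (H s) ≤ (∑ s, Real.exp (H' s)) * Real.exp c := by
    rw [Finset.sum_mul]
    exact Finset.sum_le_sum fun s _ => by rw [← Real.exp_add]; exact Real.exp_le_exp.2 (hc s)
  have h2 := Real.log_le_log p1 this
  rwa [Real.log_mul p2.ne' (Real.exp_pos c).ne', Real.log_exp] at h2

/-- Up to an additive constant the law of the interaction is symmetric. -/
theorem Fac.integral_perm {p : ℕ} {μ : Measure (Inter p)} [IsProbabilityMeasure μ]
    (hμ : Integrable (fun θ => supNorm θ) μ) (hfac : Fac p μ) {Φ : Inter p → ℝ} (hΦ : Good Φ)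
    (π : Equiv.Perm (Fin p)) :
    ∫ θ, Φ (fun s => θ (fun ℓ => s (π ℓ))) ∂μ = ∫ θ, Φ θ ∂μ := by
  obtain ⟨Ω, m, P, hP, a, b, f, ha, hb, hf, hind, hid, hbf, hae, -, hmap, -⟩ := hfac
  simp only [supNorm_eq_norm] at hμ
  have hc := hΦ.continuous
  -- the centred functional
  set s0 : Fin p → Bool := fun _ => true with hs0
  set Ψ : Equiv.Perm (Fin p) → Inter p → ℝ :=
    fun π θ => Φ fun s => θ (fun ℓ => s (π ℓ)) - θ s0 with hΨ
  have cΨ : ∀ π, Continuous (Ψ π) := fun π => hc.comp (by fun_prop)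
  have iΨ : ∀ π, Integrable (Ψ π) μ := by
    intro π
    refine Integrable.mono' ((integrable_const |Φ 0|).add (hμ.const_mul 2))
      (cΨ π).aestronglyMeasurable (Filter.Eventually.of_forall fun θ => ?_)
    have h1 : |Ψ π θ - Φ 0| ≤ 2 * ‖θ‖ := hΦ.abs_sub_le fun s => by
      have x := norm_le_pi_norm θ fun ℓ => s (π ℓ)
      have y := norm_le_pi_norm θ s0
      have z := abs_sub (θ fun ℓ => s (π ℓ)) (θ s0)
      simp only [Real.norm_eq_abs, Pi.zero_apply, sub_zero] at x y ⊢
      linarith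
    have h2 := abs_sub_abs_le_abs_sub (Ψ π θ) (Φ 0)
    simp only [Real.norm_eq_abs, Pi.add_apply]
    linarith
  have i0 : Integrable (fun θ : Inter p => θ s0) μ :=
    hμ.mono' (measurable_pi_apply s0).aestronglyMeasurable
      (Filter.Eventually.of_forall fun θ => norm_le_pi_norm θ s0)
  have split : ∀ π : Equiv.Perm (Fin p), ∫ θ, Φ (fun s => θ (fun ℓ => s (π ℓ))) ∂μ =
      ∫ θ, Ψ π θ ∂μ + ∫ θ, θ s0 ∂μ := by
    intro π
    rw [← integral_add (iΨ π) i0]
    refine integral_congr_ae (Filter.Eventually.of_forall fun θ => ?_)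
    simp only [hΨ]
    rw [← hΦ.add_const]
    simp
  have e1 := split 1
  simp only [Equiv.Perm.coe_one, id] at e1
  rw [split π, e1]
  congr 1
  -- pass to the probability space
  set G : ℝ × (Fin p → Bool → ℝ) → ℝ := fun w => Φ fun s =>
    Real.log (1 + w.1 * ∏ ℓ, w.2 ℓ (s ℓ)) - Real.log (1 + w.1 * ∏ ℓ, w.2 ℓ true) with hG
  have mG : Measurable G := hc.measurable.comp (by fun_prop)
  have mθ : Measurable fun ω => fun s : Fin p → Bool =>
      Real.log (a ω * (1 + b ω * ∏ ℓ, f ℓ ω (s ℓ))) := by fun_prop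
  have rep : ∀ π : Equiv.Perm (Fin p),
      ∫ θ, Ψ π θ ∂μ = ∫ ω, G (b ω, fun ℓ => f (π.symm ℓ) ω) ∂P := by
    intro π
    rw [← hmap, integral_map mθ.aemeasurable (cΨ π).aestronglyMeasurable]
    refine integral_congr_ae ?_
    filter_upwards [hae] with ω hω
    simp only [hΨ, hG]
    congr 1
    funext s
    have pos : ∀ s : Fin p → Bool, 1 + b ω * ∏ ℓ, f ℓ ω (s ℓ) ≠ 0 := fun s => by
      have := (abs_lt.1 (hω.2 s)).1
      linarith
    rw [Real.log_mul hω.1.ne' (pos _), Real.log_mul hω.1.ne' (pos _),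
      ← Equiv.prod_comp π fun ℓ => f (π.symm ℓ) ω (s ℓ),
      Equiv.prod_comp π.symm fun ℓ => f ℓ ω true]
    simp [hs0]
  have idd : ∀ π : Equiv.Perm (Fin p), ProbabilityTheory.IdentDistrib
      (fun ω => (b ω, fun ℓ => f (π.symm ℓ) ω)) (fun ω => (b ω, fun ℓ => f ℓ ω)) P P := by
    intro π
    refine ProbabilityTheory.IdentDistrib.prodMk
      (ProbabilityTheory.IdentDistrib.refl hb.aemeasurable)
      (ProbabilityTheory.IdentDistrib.pi (X := fun ℓ => f (π.symm ℓ)) (Y := f)
        (fun ℓ => (hid _).trans (hid ℓ).symm) (hind.precomp π.symm.injective) hind) ?_ hbf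
    exact hbf.comp (φ := id) (ψ := fun (x : Fin p → Bool → ℝ) ℓ => x (π.symm ℓ)) measurable_id
      (by fun_prop)
  rw [rep π, rep 1]
  exact (((idd π).trans (idd 1).symm).comp mG).integral_eq

end Crest.Agent.H9.MP
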