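import Crest.Agent.H9.MP.T1b
import Crest.Agent.H9.MP.T7a

/-! Helper file for MP-T5. -/

set_option autoImplicit false

namespace Crest.Agent.H9.MP

open MeasureTheory Crest.ProbabilityR.Diluted Finset
open scoped BigOperators

section sel
variable {p : ℕ} {S A : Type} [Fintype S] [Fintype A] {e : ℕ → ℝ} {R : ℕ} {K : Ker S}

/-- The common form of `Gtrue`, `Gprod`, `Gmix`. -/
noncomputable def Gsel (e : ℕ → ℝ) (R : ℕ) (K : Ker S) (sel : A → List S → Fin p → Bool)
    (θ : Inter p) : ℝ :=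
  𝔼 a, Real.log (T e K R [] fun H => Real.exp (θ (sel a H)))

noncomputable def Msel (e : ℕ → ℝ) (R : ℕ) (K : Ker S) (sel : A → List S → Fin p → Bool) (n : ℕ)
    (u : Inter p) : ℝ :=
  𝔼 a, Mml (ι := Fin n) e K R [] (fun _ l => u (sel a l)) univ

noncomputable def Esel (R : ℕ) (K : Ker S) (sel : A → List S → Fin p → Bool) {n : ℕ}
    (t : Sh (Fin n) R) (u : Inter p) : ℝ :=
  𝔼 a, ev K (fun _ l => u (sel a l)) R t []

theorem Gsel_good [Nonempty A] (hK : IsKer K) (he : Exps e R) (sel : A → List S → Fin p → Bool) :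
    Good (Gsel e R K sel) := fun θ θ' c h => by
  unfold Gsel
  rw [← Fintype.expect_const (ι := A) c, ← expect_add_distrib]
  exact expect_le_expect fun a _ => log_T_le hK R he.pos' [] (fun _ => Real.exp_pos _)
    (fun _ => Real.exp_pos _) fun l => by simpa using h _

theorem Gsel_zero (hK : IsKer K) (he : Exps e R) (sel : A → List S → Fin p → Bool) :
    Gsel e R K sel (fun _ => 0) = 0 := by
  simp [Gsel, T_const hK R he.pos' [] zero_le_one]

theorem hasSum_Gsel (hK : IsKer K) (he : Exps e R) (sel : A → List S → Fin p → Bool)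
    {u : Inter p} {ρ : ℝ} (hρ : ρ < 1) (hu : ∀ s, |u s| ≤ ρ) :
    HasSum (fun n : ℕ => Msel e R K sel n u / n.factorial)
      (-Gsel e R K sel fun s => Real.log (1 - u s)) := by
  have hu1 : ∀ s, u s < 1 := fun s => ((le_abs_self _).trans (hu s)).trans_lt hρ
  have h := (hasSum_sum (s := univ) fun (a : A) _ =>
    hasSum_Y hK he le_rfl [] (U := fun l => u (sel a l)) hρ fun l => hu _).div_const
      (Fintype.card A : ℝ)
  simp only [Y_root hK he [] (fun l => hu1 _)] at h
  unfold Msel Gsel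
  simp only [Fintype.expect_eq_sum_div_card, Real.exp_log (sub_pos.2 (hu1 _))]
  rw [← neg_div, ← sum_neg_distrib]
  simp only [← sum_div] at h
  simpa only [div_right_comm] using h

theorem abs_Msel_le [Nonempty A] (hK : IsKer K) (he : Exps e R)
    (sel : A → List S → Fin p → Bool) (n : ℕ) {u : Inter p} {ρ : ℝ} (hu : ∀ s, |u s| ≤ ρ) :
    |Msel e R K sel n u| ≤ wt e R n * ρ ^ n := by
  refine (abs_expect_le _ _).trans (expect_le univ_nonempty fun a _ => ?_)
  simpa using abs_Mml_le (ι := Fin n) hK he le_rfl [] (F := fun _ l => u (sel a l))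
    ((abs_nonneg _).trans (hu fun _ => true)) (fun _ _ => hu _) univ

theorem ev_const_mul {ι : Type} [DecidableEq ι] (c : ℝ) (F : ι → List S → ℝ) (j : ℕ)
    (t : Sh ι j) (ht : WF j t) (h : List S) :
    ev K (fun q l => c * F q l) j t h = c ^ (lv j t).card * ev K F j t h := by
  induction j generalizing h with
  | zero => rw [lv_zero (ι := ι) t, card_singleton, pow_one]; rfl
  | succ j ih =>
    rw [lv_succ, ← pow_card_lvL c _ ht.2.2, ev, ev, ← List.prod_map_mul]
    congr 1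
    refine List.map_congr_left fun t' ht' => ?_
    simp only [ih t' (ht.2.1 t' ht'), mul_sum]
    exact sum_congr rfl fun s _ => by ring

theorem Msel_smul (sel : A → List S → Fin p → Bool) (n : ℕ) (c : ℝ) (u : Inter p) :
    Msel e R K sel n (fun s => c * u s) = c ^ n * Msel e R K sel n u := by
  unfold Msel
  rw [mul_expect]
  refine expect_congr rfl fun a _ => ?_
  rw [Mml_eq_SS, Mml_eq_SS, ← SS_const_mul]
  exact SS_congr R univ fun t ht hl => by rw [ev_const_mul c _ R t ht, hl]; simp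

theorem Msel_zero (sel : A → List S → Fin p → Bool) (u : Inter p) : Msel e R K sel 0 u = 0 := by
  simp [Msel, Mml_const, mN_zero]

theorem Msel_eq {n m : ℕ} {t : Fin m → Sh (Fin n) R} {w : Fin m → ℝ}
    (h : ∀ Φ : Sh (Fin n) R → ℝ, SS e R univ Φ = ∑ k, w k * Φ (t k))
    (sel : A → List S → Fin p → Bool) (u : Inter p) :
    Msel e R K sel n u = ∑ k, w k * Esel R K sel (t k) u := by
  unfold Msel Esel
  simp only [Mml_eq_SS, h, expect_sum_comm, mul_expect]

theorem continuous_ev {ι X : Type} [TopologicalSpace X] {F : X → ι → List S → ℝ}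
    (hF : ∀ q l, Continuous fun x => F x q l) (j : ℕ) (t : Sh ι j) (h : List S) :
    Continuous fun x => ev K (F x) j t h := by
  induction j generalizing h with
  | zero => exact hF _ _
  | succ j ih =>
    exact continuous_list_prod _ fun t' _ =>
      continuous_finset_sum _ fun s _ => continuous_const.mul (ih t' _)

theorem continuous_expect {X J : Type} [TopologicalSpace X] [Fintype J] {F : J → X → ℝ}
    (hF : ∀ i, Continuous (F i)) : Continuous fun x => 𝔼 i, F i x := by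
  simp only [Fintype.expect_eq_sum_div_card]
  exact (continuous_finset_sum _ fun i _ => hF i).div_const _

end sel

theorem expect_prod_pi {L I : Type} [Fintype L] [DecidableEq L] [Fintype I] (g : L → I → ℝ) :
    𝔼 i : L → I, ∏ ℓ, g ℓ (i ℓ) = ∏ ℓ, 𝔼 i, g ℓ i := by
  simp only [Fintype.expect_eq_sum_div_card]
  rw [prod_div_distrib, prod_univ_sum, Fintype.piFinset_univ]; simp

theorem prod_snocS {q : ℕ} (g : Fin (q + 1) → Bool → ℝ) (s' : Fin q → Bool) (ε : Bool) :
    ∏ ℓ, g ℓ (snocS (p := q + 1) s' ε ℓ)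
      = g (Fin.last q) ε * ∏ ℓ : Fin q, g ℓ.castSucc (s' ℓ) := by
  rw [Fin.prod_univ_castSucc, mul_comm]
  simp [snocS]

theorem key_ineq {q : ℕ} (hq : 1 ≤ q) {x y : ℝ} (h : Even (q + 1) ∨ (0 ≤ x ∧ 0 ≤ y)) :
    0 ≤ x ^ (q + 1) + q * y ^ (q + 1) - (q + 1) * (x * y ^ q) := by
  by_cases hy : y = 0
  · subst hy
    rw [zero_pow (by omega), zero_pow (by omega)]
    simp only [mul_zero, add_zero, sub_zero]
    rcases h with h | h
    · exact h.pow_nonneg x
    · exact pow_nonneg h.1 _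
  have hy0 : 0 ≤ y ^ (q + 1) := h.elim (fun h => h.pow_nonneg y) fun h => pow_nonneg h.2 _
  have h1 : 1 + ((q + 1 : ℕ) : ℝ) * (x / y - 1) ≤ (1 + (x / y - 1)) ^ (q + 1) := by
    by_cases h2 : -2 ≤ x / y - 1
    · exact one_add_mul_le_pow h2 _
    · rcases h with h | h
      · have h3 := h.pow_nonneg (1 + (x / y - 1))
        have h4 : (0:ℝ) ≤ q := Nat.cast_nonneg _
        push_cast; nlinarith
      · have := div_nonneg h.1 h.2; linarith
  have h2 := mul_le_mul_of_nonneg_right h1 hy0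
  rw [add_sub_cancel, ← mul_pow, div_mul_cancel₀ _ hy] at h2
  have h3 : (1 + ((q + 1 : ℕ) : ℝ) * (x / y - 1)) * y ^ (q + 1)
      = (q + 1) * (x * y ^ q) - q * y ^ (q + 1) := by
    push_cast; field_simp; ring
  linarith

theorem integrable_of_cont {X : Type} [NormedAddCommGroup X] [ProperSpace X] [MeasurableSpace X]
    [BorelSpace X] {π : Measure X} [IsFiniteMeasure π] {M : ℝ} (hM : ∀ᵐ g ∂π, ‖g‖ ≤ M)
    {Z : X → ℝ} (hZ : Continuous Z) : Integrable Z π := by
  obtain ⟨C, hC⟩ := (isCompact_closedBall (0 : X) M).exists_bound_of_continuousOn hZ.continuousOn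
  refine Integrable.of_bound hZ.aestronglyMeasurable C ?_
  filter_upwards [hM] with g hg
  exact hC g (by simpa using hg)

section three
variable {q : ℕ} {S0 I0 S I : Type} [Fintype S0] [Fintype I0] [Fintype S] [Fintype I]

def selT (p : ℕ) (σ0 : I0 → List S0 → Bool) (i : Fin p → I0) (l : List S0) : Fin p → Bool :=
  fun ℓ => σ0 (i ℓ) l

def selP (p : ℕ) (σ : I → List S → Bool) (i : Fin p → I) (l : List (Fin p → S)) : Fin p → Bool :=
  fun ℓ => σ (i ℓ) (l.map fun t => t ℓ)

def selM (p : ℕ) (σ0 : I0 → List S0 → Bool) (σ : I → List S → Bool)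
    (i : I0 × (Fin (p - 1) → I)) (H : List (S0 × (Fin (p - 1) → S))) : Fin p → Bool :=
  snocS (fun ℓ => σ (i.2 ℓ) ((H.map Prod.snd).map fun t => t ℓ)) (σ0 i.1 (H.map Prod.fst))

/-- The combination of the three terms. -/
noncomputable def comb (p : ℕ) (a b c : ℝ) : ℝ := a + (p - 1 : ℝ) * b - p * c

theorem Esel_nonneg {R n : ℕ} {K0 : Ker S0} (hK0 : IsKer K0) (σ0 : I0 → List S0 → Bool)
    {K : Ker S} (hK : IsKer K) (σ : I → List S → Bool) (hq : 1 ≤ q) (t : Sh (Fin n) R)
    (ht : WF R t) (hl : lv R t = univ) {π : Measure (Bool → ℝ)} [IsProbabilityMeasure π] {M : ℝ}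
    (hM : ∀ᵐ g ∂π, ‖g‖ ≤ M) (hs : Even (q + 1) ∨ ∀ᵐ g ∂π, ∀ s, 0 ≤ g s) :
    0 ≤ ∫ f, comb (q + 1) (Esel R K0 (selT (q + 1) σ0) t fun s => ∏ ℓ, f ℓ (s ℓ))
      (Esel R (prodK (Fin (q + 1)) K) (selP (q + 1) σ) t fun s => ∏ ℓ, f ℓ (s ℓ))
      (Esel R (mulK K0 (prodK (Fin (q + 1 - 1)) K)) (selM (q + 1) σ0 σ) t fun s => ∏ ℓ, f ℓ (s ℓ))
      ∂(Measure.pi fun _ : Fin (q + 1) => π) := by
  classical
  set w : (Fin n → I0 → Bool) → ℝ := fun τ =>
    ev K0 (fun k l => if (fun i => σ0 i l) = τ k then 1 else 0) R t [] with hw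
  have hw0 : ∀ τ, 0 ≤ w τ := fun τ =>
    ev_nonneg hK0 (fun _ _ => by split_ifs <;> norm_num) R t []
  have hw1 : ∑ τ, w τ = 1 := by
    have := ev_expand (K := K0) (fun l i => σ0 i l) (fun _ _ => 1) R t ht hl []
    rw [ev_one hK0] at this
    simpa using this.symm
  set X : (Fin n → I0 → Bool) → (Bool → ℝ) → ℝ := fun τ g => 𝔼 i, ∏ k, g (τ k i) with hX
  set Yv : (Bool → ℝ) → ℝ := fun g => 𝔼 i, ev K (fun _ l => g (σ i l)) R t [] with hY
  have cX : ∀ τ, Continuous (X τ) := fun τ => continuous_expect fun i => by fun_prop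
  have cY : Continuous Yv := continuous_expect fun i =>
    continuous_ev (fun _ _ => continuous_apply _) R t []
  have e1 : ∀ f : Fin (q + 1) → Bool → ℝ,
      (Esel R K0 (selT (q + 1) σ0) t fun s => ∏ ℓ, f ℓ (s ℓ)) = ∑ τ, w τ * ∏ ℓ, X τ (f ℓ) := by
    intro f
    unfold Esel
    have : ∀ i : Fin (q + 1) → I0, ev K0 (fun _ l => ∏ ℓ, f ℓ (selT (q + 1) σ0 i l ℓ)) R t []
        = ∑ τ, w τ * ∏ ℓ, ∏ k, f ℓ (τ k (i ℓ)) := fun i => by
      refine (ev_expand (K := K0) (fun l i => σ0 i l) (fun _ x => ∏ ℓ, f ℓ (x (i ℓ))) R t ht hl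
        []).trans (sum_congr rfl fun τ _ => ?_)
      rw [mul_comm, prod_comm]
    simp only [this, expect_sum_comm, ← mul_expect]
    exact sum_congr rfl fun τ _ => by
      rw [expect_prod_pi fun ℓ i => ∏ k, f ℓ (τ k i)]
  have e2 : ∀ f : Fin (q + 1) → Bool → ℝ,
      (Esel R (prodK (Fin (q + 1)) K) (selP (q + 1) σ) t fun s => ∏ ℓ, f ℓ (s ℓ))
        = ∏ ℓ, Yv (f ℓ) := by
    intro f
    unfold Esel
    rw [← expect_prod_pi fun ℓ i => ev K (fun _ l => f ℓ (σ i l)) R t []]
    exact expect_congr rfl fun i _ =>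
      ev_prodK (K := K) (fun ℓ (_ : Fin n) l => f ℓ (σ (i ℓ) l)) R t []
  have e3 : ∀ f : Fin (q + 1) → Bool → ℝ,
      (Esel R (mulK K0 (prodK (Fin (q + 1 - 1)) K)) (selM (q + 1) σ0 σ) t fun s => ∏ ℓ, f ℓ (s ℓ))
        = ∑ τ, w τ * ∏ ℓ, (if ℓ = Fin.last q then X τ else Yv) (f ℓ) := by
    intro f
    unfold Esel
    have h1 : ∀ i : I0 × (Fin q → I), ev (mulK K0 (prodK (Fin (q + 1 - 1)) K))
        (fun _ l => ∏ ℓ, f ℓ (selM (q + 1) σ0 σ i l ℓ)) R t []
        = (∑ τ, w τ * ∏ k, f (Fin.last q) (τ k i.1)) *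
          ∏ ℓ : Fin q, ev K (fun _ l => f ℓ.castSucc (σ (i.2 ℓ) l)) R t [] := fun i => by
      have a1 := ev_mulK (K := K0) (K' := prodK (Fin q) K)
        (fun (_ : Fin n) l => f (Fin.last q) (σ0 i.1 l))
        (fun _ l => ∏ ℓ : Fin q, f ℓ.castSucc (σ (i.2 ℓ) (l.map fun u => u ℓ))) R t []
      have a2 := ev_prodK (K := K) (fun (ℓ : Fin q) (_ : Fin n) l => f ℓ.castSucc (σ (i.2 ℓ) l))
        R t []
      have a3 := ev_expand (K := K0) (fun l i => σ0 i l) (fun _ x => f (Fin.last q) (x i.1)) R t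
        ht hl []
      simp only [List.map_nil] at a1 a2
      rw [a2, a3] at a1
      simp only [selM, prod_snocS]
      exact a1.trans (by simp only [mul_comm (w _)]; rfl)
    refine (expect_congr (s := (univ : Finset (I0 × (Fin q → I)))) rfl fun i _ => h1 i).trans ?_
    rw [← univ_product_univ, expect_product]
    simp only [← mul_expect, ← expect_mul, expect_sum_comm]
    rw [expect_prod_pi fun (ℓ : Fin q) i => ev K (fun _ l => f ℓ.castSucc (σ i l)) R t [], sum_mul]
    refine sum_congr rfl fun τ _ => ?_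
    rw [Fin.prod_univ_castSucc, if_pos rfl, mul_assoc, mul_comm (𝔼 _i : I0, _)]
    simp only [(Fin.castSucc_lt_last _).ne, if_false]
    rfl
  simp only [e1, e2, e3, comb]
  have hM' : ∀ᵐ f ∂(Measure.pi fun _ : Fin (q + 1) => π), ‖f‖ ≤ max M 0 := by
    have := Filter.eventually_all.2 fun i : Fin (q + 1) =>
      (Measure.tendsto_eval_ae_ae (μ := fun _ : Fin (q + 1) => π) (i := i)).eventually hM
    filter_upwards [this] with f hf
    exact (pi_norm_le_iff_of_nonneg (le_max_right _ _)).2 fun i => (hf i).trans (le_max_left _ _)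
  have i1 : ∀ τ, Integrable (fun f : Fin (q + 1) → Bool → ℝ => w τ * ∏ ℓ, X τ (f ℓ))
      (Measure.pi fun _ => π) := fun τ => integrable_of_cont hM' (continuous_const.mul
        (continuous_finset_prod _ fun ℓ _ => (cX τ).comp (continuous_apply ℓ)))
  have i2 : Integrable (fun f : Fin (q + 1) → Bool → ℝ => ∏ ℓ, Yv (f ℓ))
      (Measure.pi fun _ => π) := integrable_of_cont hM'
        (continuous_finset_prod _ fun ℓ _ => cY.comp (continuous_apply ℓ))
  have cI : ∀ τ (ℓ : Fin (q + 1)), Continuous (if ℓ = Fin.last q then X τ else Yv) := by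
    intro τ ℓ
    split_ifs
    · exact cX τ
    · exact cY
  have i3 : ∀ τ, Integrable (fun f : Fin (q + 1) → Bool → ℝ =>
      w τ * ∏ ℓ, (if ℓ = Fin.last q then X τ else Yv) (f ℓ))
      (Measure.pi fun _ => π) := fun τ => integrable_of_cont hM' (continuous_const.mul
        (continuous_finset_prod _ fun ℓ _ => (cI τ ℓ).comp (continuous_apply ℓ)))
  have i4 : Integrable (fun f : Fin (q + 1) → Bool → ℝ => ∑ τ, w τ * ∏ ℓ, X τ (f ℓ)
      + (((q + 1 : ℕ) : ℝ) - 1) * ∏ ℓ, Yv (f ℓ)) (Measure.pi fun _ => π) :=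
    (integrable_finset_sum _ fun τ _ => i1 τ).add (i2.const_mul _)
  rw [integral_sub i4
    ((integrable_finset_sum _ fun τ _ => i3 τ).const_mul _),
    integral_add (integrable_finset_sum _ fun τ _ => i1 τ) (i2.const_mul _), integral_const_mul,
    integral_const_mul, integral_finset_sum _ fun τ _ => i1 τ, integral_finset_sum _ fun τ _ => i3 τ]
  simp only [integral_const_mul]
  simp only [integral_fintype_prod_eq_prod (fun ℓ => if ℓ = Fin.last q then X _ else Yv),
    integral_fintype_prod_eq_pow, Fintype.card_fin]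
  have e4 : ∀ τ, ∏ ℓ : Fin (q + 1), ∫ g, (if ℓ = Fin.last q then X τ else Yv) g ∂π
      = (∫ g, X τ g ∂π) * (∫ g, Yv g ∂π) ^ q := fun τ => by
    rw [Fin.prod_univ_castSucc, if_pos rfl, mul_comm]
    simp only [(Fin.castSucc_lt_last _).ne, if_false, prod_const, card_univ, Fintype.card_fin]
  simp only [e4]
  have e5 : ∀ a : ℝ, a = ∑ τ, w τ * a := fun a => by rw [← sum_mul, hw1, one_mul]
  rw [e5 (_ * (∫ g, Yv g ∂π) ^ (q + 1)), mul_sum, ← sum_add_distrib, ← sum_sub_distrib]
  refine sum_nonneg fun τ _ => ?_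
  have := mul_nonneg (hw0 τ) (key_ineq hq (x := ∫ g, X τ g ∂π) (y := ∫ g, Yv g ∂π)
    (hs.imp id fun h => ⟨integral_nonneg_of_ae (by
      filter_upwards [h] with g hg
      exact expect_nonneg fun i _ => prod_nonneg fun k _ => hg _), integral_nonneg_of_ae (by
      filter_upwards [h] with g hg
      exact expect_nonneg fun i _ => ev_nonneg hK (fun _ _ => hg _) R t [])⟩))
  push_cast
  linarith

end three

end Crest.Agent.H9.MP
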