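import Crest.Agent.H9.MP.T6x

/-! MP-T6: the upper bound by a finite trial. -/

/-
Sketch. Bundle finite trees 𝒯 = (S0, Fintype, K0 IsKer, σ0 : Fin N → List S0 → Bool); functionals F 𝒯 (G : List S0 → ℝ), monotone and shift equivariant in G. F0 = log T (exp G).
(A F) 𝒯 G = ∫ θ avg_idx F 𝒯 (G + θ(σ0 ∘ idx)); (B F) 𝒯 G = ∫ θ avg_{v,i} F (𝒯 × prodK (Fin (p-1)) K) (G ∘ fst + θ(snocS labels (σ0 v))). A, B are monotone, affine, commute (Fubini).
one_step for tiltK K0 (exp G) with T_tilt, tiltK_mulK: A F0 - F0 + (p-1) c ≤ p (B F0 - F0), c = ∫ Gprod e^θ. ψ k m = ∫ hs (B^m A^k F0) (unifK (Fin N → Bool), spins at the last level, field);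
poisson_array with λ = αN, P = p. ψ k 0 = E log Z - N log 2 (e 0 = 1). ψ 0 m: unfold to labels Fin m × Fin (p-1) with sites v : Fin m → Fin N; T factorizes over the sites
(group the labels by site), each site gives g(k_v) - log 2, g k = ∫∫ Gprod (siteW), k_v = #{j | v j = site} ~ Bin(m, 1/N); poi_thin gives Poi(αp).
(Any other route is fine.)
-/

set_option autoImplicit false

namespace Crest.Agent.H9.MP

open MeasureTheory Crest.ProbabilityR.Diluted Finset
open scoped BigOperators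

section ops
variable {C C' X X' A A' : Type} [Fintype C] [Fintype C'] [MeasurableSpace X] [MeasurableSpace X']
  [Fintype A] [Fintype A'] {μ : Measure X} [IsProbabilityMeasure μ] {μ' : Measure X'}
  {d : X → A → C → ℝ} {d' : X' → A' → C' → ℝ}

theorem Adm.Op_lin_le [Nonempty A] (hd : Adm μ d) {Φ1 Φ2 Φ3 : (C → ℝ) → ℝ} (h1 : Good Φ1)
    (h2 : Good Φ2) (h3 : Good Φ3) {b c r : ℝ} (h : ∀ G, Φ1 G + b * Φ2 G + c ≤ r * Φ3 G)
    (H : C → ℝ) : Op μ d Φ1 H + b * Op μ d Φ2 H + c ≤ r * Op μ d Φ3 H := by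
  have i1 := hd.integrable' h1 H
  have i2 := (hd.integrable' h2 H).const_mul b
  have i3 := (hd.integrable' h3 H).const_mul r
  have := integral_mono ((i1.add i2).add (integrable_const c)) i3 fun x => by
    have := expect_le_expect (s := univ) fun (a : A) _ => h fun s => H s + d x a s
    simp only [expect_add_distrib, ← mul_expect, Fintype.expect_const] at this
    exact this
  rw [integral_add' (i1.add i2) (integrable_const c), integral_add' i1 i2, integral_const_mul,
    integral_const_mul] at this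
  simpa [Op] using this

theorem Adm.iter_lin_le [Nonempty A] (hd : Adm μ d) {Φ1 Φ2 Φ3 : (C → ℝ) → ℝ} (h1 : Good Φ1)
    (h2 : Good Φ2) (h3 : Good Φ3) {b c r : ℝ} (h : ∀ G, Φ1 G + b * Φ2 G + c ≤ r * Φ3 G) :
    ∀ (k : ℕ) (H : C → ℝ),
      (Op μ d)^[k] Φ1 H + b * (Op μ d)^[k] Φ2 H + c ≤ r * (Op μ d)^[k] Φ3 H
  | 0 => h
  | k + 1 => by
    simp only [Function.iterate_succ_apply']
    exact hd.Op_lin_le ((hd.nice.iter k).good _ h1) ((hd.nice.iter k).good _ h2)
      ((hd.nice.iter k).good _ h3) (hd.iter_lin_le h1 h2 h3 h k)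

omit [Fintype C] [Fintype C'] [IsProbabilityMeasure μ] in
theorem Op_congr' (e : X ≃ᵐ X') (he : MeasurePreserving e μ μ') (φ : A ≃ A')
    {Φ : (C → ℝ) → ℝ} {Φ' : (C' → ℝ) → ℝ} {H : C → ℝ} {H' : C' → ℝ}
    (h : ∀ x a, (Φ fun s => H s + d x a s) = Φ' fun s => H' s + d' (e x) (φ a) s) :
    Op μ d Φ H = Op μ' d' Φ' H' := by
  unfold Op
  rw [← he.integral_comp']
  exact integral_congr_ae (ae_of_all _ fun x => Fintype.expect_equiv φ _ _ fun a => h x a)

omit [Fintype C] [Fintype C'] in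
theorem Good.comp {Φ : (C → ℝ) → ℝ} (h : Good Φ) (π : C → C') :
    Good fun H : C' → ℝ => Φ fun x => H (π x) := fun _ _ c hc => h _ _ c fun _ => hc _

end ops

section sel
variable {p : ℕ} {μ : Measure (ProbabilityR.Diluted.Inter p)} [IsProbabilityMeasure μ] {C A : Type} [Fintype C]
  [Fintype A]

omit [Fintype C] [Fintype A] [IsProbabilityMeasure μ] in
theorem adm_sel (hμ : Integrable (fun θ => supNorm θ) μ) (sel : A → C → Fin p → Bool) :
    Adm μ fun θ a s => θ (sel a s) :=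
  ⟨fun _ _ => measurable_pi_apply _, _, hμ, fun θ _ _ => abs_le_supNorm θ _⟩

omit [Fintype C] [Fintype A] in
theorem adm_pi_sel (hμ : Integrable (fun θ => supNorm θ) μ) {m : ℕ}
    (sel : Fin m → A → C → Fin p → Bool) :
    Adm (Measure.pi fun _ : Fin m => μ) fun θs a s => ∑ j, θs j (sel j a s) :=
  ⟨fun _ _ => by fun_prop, fun θs => ∑ j, supNorm (θs j),
    integrable_finset_sum _ fun j _ => integrable_comp_eval (μ := fun _ : Fin m => μ) (i := j) hμ,
    fun _ _ _ => (abs_sum_le_sum_abs _ _).trans (sum_le_sum fun _ _ => abs_le_supNorm _ _)⟩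

theorem abs_pi_sel_le [Nonempty A] (hμ : Integrable (fun θ => supNorm θ) μ) {m : ℕ}
    (sel : Fin m → A → C → Fin p → Bool) {Φ : (C → ℝ) → ℝ} (hΦ : Good Φ) (H : C → ℝ) :
    |Op (Measure.pi fun _ : Fin m => μ) (fun θs a s => ∑ j, θs j (sel j a s)) Φ H - Φ H|
      ≤ (∫ θ, supNorm θ ∂μ) * m := by
  have i1 := fun j => integrable_comp_eval (μ := fun _ : Fin m => μ) (i := j) hμ
  refine ((adm_pi_sel hμ sel).abs_Op_sub_le hΦ (g := fun θs => ∑ j, supNorm (θs j))
    (integrable_finset_sum _ fun j _ => i1 j) (fun _ _ _ => (abs_sum_le_sum_abs _ _).trans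
      (sum_le_sum fun _ _ => abs_le_supNorm _ _)) H).trans (le_of_eq ?_)
  rw [integral_finset_sum _ fun j _ => i1 j]
  simp only [integral_comp_eval (μ := fun _ : Fin m => μ) hμ.aestronglyMeasurable]
  simp [mul_comm]

omit [Fintype C] in
theorem adm_field {ν : Measure ℝ} [IsProbabilityMeasure ν] (hν : Integrable (fun x : ℝ => x) ν)
    {V : Type} [Fintype V] (sp : C → V → Bool) :
    Adm (Measure.pi fun _ : V => ν) fun hs (_ : Unit) s => ∑ i, hs i * spinVal (sp s i) :=
  ⟨fun _ _ => by fun_prop, fun hs => ∑ i, |hs i|,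
    integrable_finset_sum _ fun i _ => integrable_comp_eval (μ := fun _ : V => ν) (i := i) hν.abs,
    fun _ _ s => (abs_sum_le_sum_abs _ _).trans (sum_le_sum fun i _ => by
      rw [abs_mul]; cases sp s i <;> simp [spinVal])⟩

omit [Fintype C] in
theorem adm_field1 {ν : Measure ℝ} (hν : Integrable (fun x : ℝ => x) ν) (sp : C → Bool) :
    Adm ν fun h (_ : Unit) s => h * spinVal (sp s) :=
  ⟨fun _ _ => by fun_prop, fun h => |h|, hν.abs, fun _ _ s => by
    rw [abs_mul]; cases sp s <;> simp [spinVal]⟩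

end sel

theorem expect_count {N : ℕ} (a : Fin N) : ∀ (m : ℕ) (g : ℕ → ℝ),
    𝔼 v : Fin m → Fin N, g (univ.filter fun j => v j = a).card = bin (1 / N) m g
  | 0, g => by simp [bin]
  | m + 1, g => by
    have hN : (N:ℝ) ≠ 0 := by exact_mod_cast a.pos.ne'
    rw [bin_succ, ← expect_count a m,
      ← Fintype.expect_equiv (Fin.consEquiv fun _ => Fin N) _ _ (fun _ => rfl),
      ← univ_product_univ, expect_product, expect_comm]
    refine expect_congr rfl fun v _ => ?_
    have h1 : ∀ x : Fin N, g (univ.filter fun j => (Fin.consEquiv fun _ => Fin N) (x, v) j = a).card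
        = g (univ.filter fun j => v j = a).card + if x = a then
          g ((univ.filter fun j => v j = a).card + 1) - g (univ.filter fun j => v j = a).card
          else 0 := fun x => by
      simp only [card_filter, Fin.sum_univ_succ, Fin.consEquiv_apply, Fin.cons_zero, Fin.cons_succ]
      split_ifs
      · rw [add_comm 1]; ring
      · simp
    haveI : Nonempty (Fin N) := ⟨a⟩
    simp only [h1, expect_add_distrib, Fintype.expect_const, Fintype.expect_eq_sum_div_card]
    simp; field_simp; ring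

section main
variable {p : ℕ} {S I : Type} [Fintype S] [Fintype I] {e : ℕ → ℝ} {R : ℕ} {K : Ker S}
  {μ : Measure (ProbabilityR.Diluted.Inter p)} [IsProbabilityMeasure μ]

/-- `m` cavity interactions at uniform sites. -/
noncomputable def Xi (μ : Measure (ProbabilityR.Diluted.Inter p)) (e : ℕ → ℝ) (R : ℕ) (K : Ker S)
    (σ : I → List S → Bool) (N m : ℕ) (H : (Fin N → Bool) → ℝ) : ℝ :=
  Op (Measure.pi fun _ : Fin m => μ)
    (fun θs (v : Fin m → Fin N) (x : (Fin N → Bool) × (Fin m × Fin (p - 1) → Bool)) =>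
      ∑ j, θs j (snocS (fun ℓ => x.2 (j, ℓ)) (x.1 (v j)))) (Phi e R K σ) fun x => H x.1

variable [Nonempty I] (hμ : Integrable (fun θ => supNorm θ) μ) (he : Exps e R) (hK : IsKer K)
  (σ : I → List S → Bool) {N : ℕ} [Nonempty (Fin N)]
include hμ he hK

theorem Xi_good (m : ℕ) : Good (Xi μ e R K σ N m) :=
  ((adm_pi_sel hμ _).nice.good _ (Phi_good hK he σ)).comp Prod.fst

theorem Xi_close (m : ℕ) (H : (Fin N → Bool) → ℝ) :
    |Xi μ e R K σ N m H - Real.log (∑ s, Real.exp (H s))| ≤ (∫ θ, supNorm θ ∂μ) * m := by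
  rw [← Phi_fst (Lab := Fin m × Fin (p - 1)) hK he σ H]
  exact abs_pi_sel_le hμ _ (Phi_good hK he σ) _

theorem Xi_step (hp : 2 ≤ p) (hfac : Fac p μ) (m : ℕ) (H : (Fin N → Bool) → ℝ) :
    Op μ (fun θ (a : Fin p → Fin N) (s : Fin N → Bool) => θ fun ℓ => s (a ℓ)) (Xi μ e R K σ N m) H
      + (p - 1 : ℝ) * Xi μ e R K σ N m H
      + (p - 1 : ℝ) * ∫ θ, Gprod e R K σ (fun s : Fin p → Bool => Real.exp (θ s)) ∂μ
      ≤ p * Xi μ e R K σ N (m + 1) H := by
  have aE := adm_sel hμ fun (a : Fin p → Fin N)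
    (x : (Fin N → Bool) × (Fin m × Fin (p - 1) → Bool)) ℓ => x.1 (a ℓ)
  have aB := adm_pi_sel hμ fun (j : Fin m) (v : Fin m → Fin N)
    (x : (Fin N → Bool) × (Fin m × Fin (p - 1) → Bool)) => snocS (fun ℓ => x.2 (j, ℓ)) (x.1 (v j))
  have aN := adm_sel hμ fun (v : Fin N)
    (x : (Fin N → Bool) × ((Fin m × Fin (p - 1)) ⊕ Fin (p - 1) → Bool)) =>
      snocS (fun ℓ => x.2 (Sum.inr ℓ)) (x.1 v)
  have aB' := adm_pi_sel hμ fun (j : Fin m) (v : Fin m → Fin N)
    (x : (Fin N → Bool) × ((Fin m × Fin (p - 1)) ⊕ Fin (p - 1) → Bool)) =>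
      snocS (fun ℓ => x.2 (Sum.inl (j, ℓ))) (x.1 (v j))
  have g0 := Phi_good (Sp := Fin N → Bool) (Lab := Fin m × Fin (p - 1)) hK he σ
  have g1 := Phi_good (Sp := Fin N → Bool) (Lab := (Fin m × Fin (p - 1)) ⊕ Fin (p - 1)) hK he σ
  have h1 := aB.Op_lin_le (aE.nice.good _ g0) g0
    ((aN.nice.good _ g1).comp fun x => (x.1, fun y => x.2 (Sum.inl y)))
    (fun G => core_step hp hμ hfac he hK σ G) fun x => H x.1
  rw [← Op_comm aE aB g0] at h1
  refine h1.trans (le_of_eq ?_)
  congr 1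
  have h2 := congrFun (Op_comm aB' aN g1) fun x => H x.1
  rw [Op_prod aN aB' g1] at h2
  refine h2.trans (Op_congr' (MeasurableEquiv.piFinSuccAbove (fun _ => ProbabilityR.Diluted.Inter p) 0)
    (measurePreserving_piFinSuccAbove (fun _ => μ) 0) (Fin.consEquiv fun _ => Fin N).symm
    fun θs v => ?_).symm
  unfold Phi
  rw [← Gprod_comp_inj hK σ (A := Fin (m + 1) × Fin (p - 1))
    (u := Sum.elim (fun y => (y.1.succ, y.2)) fun ℓ => (0, ℓ))]
  · simp only [Fin.sum_univ_succ]; rfl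
  · rintro (⟨j, ℓ⟩ | ℓ) (⟨j', ℓ'⟩ | ℓ') h <;> simp_all [Fin.succ_ne_zero, (Fin.succ_ne_zero _).symm]

omit hμ [IsProbabilityMeasure μ] [Nonempty (Fin N)] in
theorem Phi_factor {m : ℕ} (θs : Fin m → ProbabilityR.Diluted.Inter p) (v : Fin m → Fin N) (hs : Fin N → ℝ) :
    (Phi e R K σ fun x : (Fin N → Bool) × (Fin m × Fin (p - 1) → Bool) =>
      0 + ∑ j, θs j (snocS (fun ℓ => x.2 (j, ℓ)) (x.1 (v j))) + ∑ i, hs i * spinVal (x.1 i))
      = ∑ a, Gprod e R K σ (siteW
        (fun j => θs ((univ.filter fun j => v j = a).equivFin.symm j).1) (hs a)) := by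
  set u : (a : Fin N) → Fin (univ.filter fun j => v j = a).card → Fin m :=
    fun a j => ((univ.filter fun j => v j = a).equivFin.symm j).1 with hu
  have hv : ∀ a j, v (u a j) = a := fun a j =>
    (mem_filter.1 ((univ.filter fun j => v j = a).equivFin.symm j).2).2
  have hinj : ∀ a, Function.Injective (u a) := fun a =>
    Subtype.val_injective.comp (Equiv.injective _)
  have hsum : ∀ F : Fin m → Fin N → ℝ, ∑ j, F j (v j) = ∑ a, ∑ j, F (u a j) a := fun F => by
    rw [← sum_fiberwise_of_maps_to (g := v) (t := univ) fun _ _ => mem_univ _]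
    refine sum_congr rfl fun a _ => ?_
    rw [← sum_coe_sort, ← (univ.filter fun j => v j = a).equivFin.symm.sum_comp]
    exact sum_congr rfl fun j _ => by rw [hv a j]
  have h1 : ∀ s : Fin m × Fin (p - 1) → Bool, ∑ σ0 : Fin N → Bool, Real.exp
      (0 + ∑ j, θs j (snocS (fun ℓ => s (j, ℓ)) (σ0 (v j))) + ∑ i, hs i * spinVal (σ0 i))
      = ∏ a, siteW (fun j => θs (u a j)) (hs a) fun y => s (u a y.1, y.2) := fun s => by
    unfold siteW
    rw [prod_univ_sum, Fintype.piFinset_univ]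
    refine sum_congr rfl fun σ0 _ => ?_
    rw [← Real.exp_sum, sum_add_distrib, zero_add, add_comm,
      hsum fun j a => θs j (snocS (fun ℓ => s (j, ℓ)) (σ0 a))]
  unfold Phi
  simp only [h1]
  rw [← Gprod_comp_inj hK σ (A := Fin N × (Fin m × Fin (p - 1))) (u := fun y => (v y.1, y))
    (fun _ _ h => congrArg Prod.snd h)]
  simp only [hv]
  refine (Gprod_prod hK he.pos' σ (W := fun a (s : Fin m × Fin (p - 1) → Bool) =>
    siteW (fun j => θs (u a j)) (hs a) fun y => s (u a y.1, y.2))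
    fun a s => sum_pos (fun _ _ => Real.exp_pos _) univ_nonempty).trans ?_
  refine sum_congr rfl fun a _ => Gprod_comp_inj hK σ
    (u := fun y : Fin _ × Fin (p - 1) => (u a y.1, y.2)) ?_ (siteW (fun j => θs (u a j)) (hs a))
  exact fun y y' h => Prod.ext (hinj a (Prod.ext_iff.1 h).1) (Prod.ext_iff.1 h).2

omit [Nonempty (Fin N)] in
theorem site_facts {ν : Measure ℝ} [IsProbabilityMeasure ν] (hν : Integrable (fun x : ℝ => x) ν)
    (k : ℕ) : (∀ θs : Fin k → ProbabilityR.Diluted.Inter p, Integrable (fun h => Gprod e R K σ (siteW θs h)) ν) ∧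
      Integrable (fun θs : Fin k → ProbabilityR.Diluted.Inter p => ∫ h, Gprod e R K σ (siteW θs h) ∂ν)
        (Measure.pi fun _ => μ) ∧
      |∫ θs : Fin k → ProbabilityR.Diluted.Inter p, ∫ h, Gprod e R K σ (siteW θs h) ∂ν ∂(Measure.pi fun _ => μ)
        - ∫ h, Real.log (∑ ε, Real.exp (h * spinVal ε)) ∂ν| ≤ (∫ θ, supNorm θ ∂μ) * k := by
  have g0 := Phi_good (Sp := Bool) (Lab := Fin k × Fin (p - 1)) hK he σ
  have aH := adm_field1 hν fun x : Bool × (Fin k × Fin (p - 1) → Bool) => x.1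
  have aS := adm_pi_sel hμ fun (j : Fin k) (_ : Unit) (x : Bool × (Fin k × Fin (p - 1) → Bool)) =>
    snocS (fun ℓ => x.2 (j, ℓ)) x.1
  have e1 : ∀ (θs : Fin k → ProbabilityR.Diluted.Inter p) (h : ℝ), Gprod e R K σ (siteW θs h)
      = Phi e R K σ fun x : Bool × (Fin k × Fin (p - 1) → Bool) =>
        0 + ∑ j, θs j (snocS (fun ℓ => x.2 (j, ℓ)) x.1) + h * spinVal x.1 := fun θs h => by
    simp only [zero_add, add_comm _ (h * _)]; rfl
  have h2 := aS.integrable (aH.nice.good _ g0) (fun _ => 0) ()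
  have h3 := abs_pi_sel_le hμ (fun (j : Fin k) (_ : Unit)
    (x : Bool × (Fin k × Fin (p - 1) → Bool)) => snocS (fun ℓ => x.2 (j, ℓ)) x.1)
    (aH.nice.good _ g0) fun _ => 0
  simp only [Op, Fintype.expect_const, ← e1] at h2 h3
  have e2 : ∀ h : ℝ, (Phi e R K σ fun x : Bool × (Fin k × Fin (p - 1) → Bool) => h * spinVal x.1)
      = Real.log (∑ ε, Real.exp (h * spinVal ε)) := fun h => Phi_fst hK he σ fun ε => h * spinVal ε
  simp only [zero_add, e2] at h3
  exact ⟨fun θs => by simp only [e1]; exact aH.integrable g0 _ (), h2, h3⟩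

theorem Xi_field {ν : Measure ℝ} [IsProbabilityMeasure ν] (hν : Integrable (fun x : ℝ => x) ν)
    (m : ℕ) : Op (Measure.pi fun _ : Fin N => ν)
      (fun hs (_ : Unit) (s : Fin N → Bool) => ∑ i, hs i * spinVal (s i)) (Xi μ e R K σ N m)
      (fun _ => 0) = N * bin (1 / N) m fun k =>
        ∫ θs : Fin k → ProbabilityR.Diluted.Inter p, ∫ h, Gprod e R K σ (siteW θs h) ∂ν
          ∂(Measure.pi fun _ => μ) := by
  have aF := adm_field hν fun x : (Fin N → Bool) × (Fin m × Fin (p - 1) → Bool) => x.1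
  have aB := adm_pi_sel hμ fun (j : Fin m) (v : Fin m → Fin N)
    (x : (Fin N → Bool) × (Fin m × Fin (p - 1) → Bool)) => snocS (fun ℓ => x.2 (j, ℓ)) (x.1 (v j))
  have g0 := Phi_good (Sp := Fin N → Bool) (Lab := Fin m × Fin (p - 1)) hK he σ
  refine (congrFun (Op_comm aF aB g0) fun _ => 0).trans ?_
  rw [aB.Op_eq (aF.nice.good _ g0)]
  have e1 : ∀ g : ℕ → ℝ, N * bin (1 / N) m g
      = 𝔼 v : Fin m → Fin N, ∑ a, g (univ.filter fun j => v j = a).card := fun g => by
    simp only [expect_sum_comm, expect_count]; simp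
  rw [e1]
  refine expect_congr rfl fun v _ => ?_
  simp only [Op, Fintype.expect_const, Phi_factor he hK σ]
  have mp := fun a : Fin N => measurePreserving_comp_inj μ
    (u := fun j => ((univ.filter fun j => v j = a).equivFin.symm j).1)
    (Subtype.val_injective.comp (Equiv.injective _))
  have e2 : ∀ θs : Fin m → ProbabilityR.Diluted.Inter p, ∫ hs : Fin N → ℝ, ∑ a, Gprod e R K σ (siteW
      (fun j => θs ((univ.filter fun j => v j = a).equivFin.symm j).1) (hs a))
      ∂(Measure.pi fun _ => ν) = ∑ a, ∫ h, Gprod e R K σ (siteW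
        (fun j => θs ((univ.filter fun j => v j = a).equivFin.symm j).1) h) ∂ν := fun θs => by
    rw [integral_finset_sum _ fun a _ => integrable_comp_eval (μ := fun _ : Fin N => ν) (i := a)
      ((site_facts hμ he hK σ hν _).1 _)]
    exact sum_congr rfl fun a _ => integral_comp_eval (μ := fun _ : Fin N => ν) (i := a)
      ((site_facts hμ he hK σ hν _).1 _).aestronglyMeasurable
  simp only [e2]
  refine (integral_finset_sum _ fun a _ =>
    (mp a).integrable_comp_of_integrable (site_facts hμ he hK σ hν _).2.1).trans ?_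
  refine sum_congr rfl fun a _ => ?_
  rw [← (mp a).map_eq, integral_map (mp a).measurable.aemeasurable]
  · rfl
  · rw [(mp a).map_eq]; exact (site_facts hμ he hK σ hν _).2.1.aestronglyMeasurable

end main

theorem pressure_le_Bfin {p : ℕ} (hp : 2 ≤ p) {α : ℝ} (hα : 0 ≤ α) {μ : Measure (Inter p)}
    [IsProbabilityMeasure μ] {ν : Measure ℝ} [IsProbabilityMeasure ν]
    (hμ : Integrable (fun θ => supNorm θ) μ) (hν : Integrable (fun x : ℝ => x) ν)
    (hfac : Fac p μ) {e : ℕ → ℝ} {R : ℕ} (he : Exps e R) {S I : Type} [Fintype S] [Fintype I]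
    [Nonempty I] {K : Ker S} (hK : IsKer K) (σ : I → List S → Bool) {N : ℕ} (hN : 0 < N) :
    pressure p α μ ν N ≤ Bfin p α μ ν e R K σ := by
  haveI : Nonempty (Fin N) := ⟨⟨0, hN⟩⟩
  have hN' : (0:ℝ) < N := by exact_mod_cast hN
  have aE := adm_sel hμ fun (a : Fin p → Fin N) (s : Fin N → Bool) ℓ => s (a ℓ)
  have aF := adm_field hν fun s : Fin N → Bool => s
  set A := Op μ fun θ (a : Fin p → Fin N) (s : Fin N → Bool) => θ fun ℓ => s (a ℓ) with hA
  set Fl := Op (Measure.pi fun _ : Fin N => ν)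
    fun hs (_ : Unit) (s : Fin N → Bool) => ∑ i, hs i * spinVal (s i) with hFl
  set L := ∫ θ, supNorm θ ∂μ with hL
  have hL0 : 0 ≤ L := integral_nonneg fun θ => by simp only [supNorm_eq_norm]; positivity
  have gX := Xi_good hμ he hK σ (N := N)
  have gL := good_logSumExp (C := Fin N → Bool)
  have gF := fun m => aF.nice.good _ (gX m)
  have key := poisson_array (lam := α * N) (P := p)
    (c := (p - 1 : ℝ) * ∫ θ, Gprod e R K σ (fun s : Fin p → Bool => Real.exp (θ s)) ∂μ)
    (by positivity) (Nat.cast_nonneg _) (ψ := fun k m => A^[k] (Fl (Xi μ e R K σ N m)) fun _ => 0)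
    (C := |Fl (fun H => Real.log (∑ s, Real.exp (H s))) fun _ => 0| + L) (fun k m => by
      have h1 := iter_lip aE.nice.good (fun Φ hΦ H => aE.abs_Op_sub_le hΦ hμ
        (fun θ _ _ => abs_le_supNorm θ _) H) (gF m) (fun _ => 0) k
      have h2 := aF.nice.abs_sub_le (gX m) gL (Xi_close hμ he hK σ m) fun _ => 0
      simp only [Function.iterate_zero, id, ← hA, ← hFl, ← hL] at h1 h2
      set c0 := Fl (fun H => Real.log (∑ s, Real.exp (H s))) fun _ => 0
      have h3 := abs_add_three (A^[k] (Fl (Xi μ e R K σ N m)) (fun _ => 0)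
        - Fl (Xi μ e R K σ N m) fun _ => 0) (Fl (Xi μ e R K σ N m) (fun _ => 0) - c0) c0
      rw [sub_add_sub_cancel, sub_add_cancel] at h3
      have h4 : (0:ℝ) ≤ k := Nat.cast_nonneg _
      have h5 : (0:ℝ) ≤ m := Nat.cast_nonneg _
      nlinarith [mul_nonneg (abs_nonneg c0) h4, mul_nonneg (abs_nonneg c0) h5]) (fun k m => by
      have h1 := aE.iter_lin_le (aF.nice.good _ (aE.nice.good _ (gX m))) (gF m) (gF (m + 1))
        (aF.Op_lin_le (aE.nice.good _ (gX m)) (gX m) (gX (m + 1))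
          (Xi_step hμ he hK σ hp hfac m)) k fun _ => 0
      rw [← Op_comm aE aF (gX m)] at h1
      simp only [Function.iterate_succ_apply]
      simp only [← hA, ← hFl] at h1
      linarith)
  have hX0 : Xi μ e R K σ N 0 = fun H => Real.log (∑ s, Real.exp (H s)) := funext fun H => by
    simpa [sub_eq_zero] using Xi_close hμ he hK σ 0 H
  have e1 : ∀ M : ℕ, A^[M] (Fl (Xi μ e R K σ N 0)) (fun _ => 0)
      = ∫ θs, ∫ hs, ((Fintype.card (Fin M → Fin p → Fin N) : ℝ)⁻¹ *
        ∑ idx : Fin M → Fin p → Fin N, logPartition N θs idx hs)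
      ∂(Measure.pi fun _ : Fin N => ν) ∂(Measure.pi fun _ : Fin M => μ) := fun M => by
    rw [hA, ← Op_pi aE (gF 0), hX0, Op]
    refine integral_congr_ae (ae_of_all _ fun θs => ?_)
    simp only [hFl, Op, Fintype.expect_const]
    rw [← integral_expect fun idx => aF.integrable gL _ ()]
    simp only [Fintype.expect_eq_sum_div_card, div_eq_inv_mul, logPartition, zero_add]
  have hg := fun k => (site_facts hμ he hK σ hν k).2.2
  have e2 := poi_bin (l0 := α * p) (l1 := α * p * (N - 1)) (q := 1 / N) (by positivity)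
    (mul_nonneg (by positivity) (sub_nonneg.2 (by exact_mod_cast hN))) (by field_simp; ring)
    (by positivity) (div_le_one_of_le₀ (by exact_mod_cast hN) hN'.le)
    (C := |∫ h, Real.log (∑ ε, Real.exp (h * spinVal ε)) ∂ν| + L) (φ := fun k =>
      ∫ θs : Fin k → ProbabilityR.Diluted.Inter p, ∫ h, Gprod e R K σ (siteW θs h) ∂ν ∂(Measure.pi fun _ => μ))
    (fun k => by
      have h1 := hg k
      have h2 := abs_sub_abs_le_abs_sub (∫ θs : Fin k → ProbabilityR.Diluted.Inter p,
        ∫ h, Gprod e R K σ (siteW θs h) ∂ν ∂(Measure.pi fun _ => μ))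
        (∫ h, Real.log (∑ ε, Real.exp (h * spinVal ε)) ∂ν)
      have h4 : (0:ℝ) ≤ k := Nat.cast_nonneg _
      nlinarith [mul_nonneg (abs_nonneg (∫ h, Real.log (∑ ε, Real.exp (h * spinVal ε)) ∂ν)) h4])
  simp only [e1] at key
  simp only [Function.iterate_zero, id, hFl, Xi_field hμ he hK σ hν, mul_left_comm _ (N:ℝ),
    tsum_mul_left] at key
  rw [show α * p + α * p * (N - 1) = p * (α * N) by ring] at e2
  unfold pressure Bfin
  rw [one_div, inv_mul_le_iff₀ hN']
  rw [e2] at key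
  linarith

end Crest.Agent.H9.MP
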