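import Crest.Agent.H9.MP.T5
import Crest.Agent.H9.MP.Ops

/-! Helper file for MP-T6: marginals, the functional `Phi` and the pointwise step. -/

set_option autoImplicit false

namespace Crest.Agent.H9.MP

open MeasureTheory Crest.ProbabilityR.Diluted Finset
open scoped BigOperators

theorem sum_prod_comp_inj {A B S : Type} [Fintype A] [DecidableEq A] [Fintype B] [DecidableEq B]
    [Fintype S] (k : A → S → ℝ) (hk : ∀ a, ∑ x, k a x = 1) {u : B → A}
    (hu : Function.Injective u) (G : (B → S) → ℝ) :
    ∑ s : A → S, (∏ a, k a (s a)) * G (fun b => s (u b))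
      = ∑ t : B → S, (∏ b, k (u b) (t b)) * G t := by
  classical
  have h1 : ∀ s : A → S, (∏ a, k a (s a)) * G (fun b => s (u b))
      = ∑ t : B → S, (∏ a, (k a (s a) * if ∀ b, u b = a → s a = t b then 1 else 0)) * G t := by
    intro s
    rw [Finset.sum_eq_single (fun b => s (u b))]
    · congr 1
      exact prod_congr rfl fun a _ => by rw [if_pos (fun b h => by rw [← h]), mul_one]
    · intro t _ ht
      obtain ⟨b, hb⟩ := Function.ne_iff.1 ht
      rw [prod_eq_zero (mem_univ (u b)), zero_mul]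
      rw [if_neg (fun h => hb (h b rfl).symm), mul_zero]
    · simp
  simp only [h1]
  rw [sum_comm]
  refine sum_congr rfl fun t _ => ?_
  rw [← sum_mul, ← Fintype.piFinset_univ,
    ← prod_univ_sum (fun _ => univ) fun a x => k a x * if ∀ b, u b = a → x = t b then 1 else 0]
  congr 1
  refine (Fintype.prod_of_injective u hu _ _ (fun a ha => ?_) fun b => ?_).symm
  · simp only [if_pos (fun b (h : u b = a) => absurd ⟨b, h⟩ ha), mul_one, hk]
  · rw [Finset.sum_eq_single (t b)]
    · rw [if_pos (fun b' h => by rw [hu h]), mul_one]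
    · intro x _ hx
      rw [if_neg (fun h => hx (h b rfl)), mul_zero]
    · simp

theorem expect_comp_inj {A B S : Type} [Fintype A] [DecidableEq A] [Fintype B] [DecidableEq B]
    [Fintype S] [Nonempty S] {u : B → A} (hu : Function.Injective u) (G : (B → S) → ℝ) :
    𝔼 s : A → S, G (fun b => s (u b)) = 𝔼 t, G t := by
  have := sum_prod_comp_inj (A := A) (fun _ (_ : S) => (Fintype.card S : ℝ)⁻¹) (by simp) hu G
  simp only [prod_const, card_univ, ← mul_sum] at this
  simp only [Fintype.expect_eq_sum_div_card, Fintype.card_fun, div_eq_inv_mul]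
  push_cast
  simpa only [inv_pow] using this

theorem measurePreserving_comp_inj {A B X : Type} [Fintype A] [Fintype B] [MeasurableSpace X]
    (μ : Measure X) [IsProbabilityMeasure μ] {u : B → A} (hu : Function.Injective u) :
    MeasurePreserving (fun (x : A → X) b => x (u b)) (Measure.pi fun _ => μ)
      (Measure.pi fun _ => μ) := by
  refine ⟨by fun_prop, ?_⟩
  have h := (ProbabilityTheory.iIndepFun_pi (μ := fun _ : A => μ) (X := fun _ => id)
    fun _ => aemeasurable_id).precomp hu
  rw [show (fun (x : A → X) b => x (u b)) = fun x b => id (x (u b)) from rfl,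
    h.map_fun_eq_pi_map fun b => Measurable.aemeasurable (by fun_prop)]
  congr 1; funext b
  exact (measurePreserving_eval (fun _ : A => μ) (u b)).map_eq

variable {S I : Type} [Fintype S] [Fintype I] {e : ℕ → ℝ} {R : ℕ} {K : Ker S}

theorem Gprod_comp_inj [Nonempty I] (hK : IsKer K) (σ : I → List S → Bool) {A B : Type}
    [Fintype A] [DecidableEq A] [Fintype B] [DecidableEq B] {u : B → A}
    (hu : Function.Injective u) (W : (B → Bool) → ℝ) :
    Gprod e R K σ (fun s : A → Bool => W fun b => s (u b)) = Gprod e R K σ W := by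
  unfold Gprod
  rw [← expect_comp_inj hu]
  refine expect_congr rfl fun i _ => ?_
  have := T_map (e := e) (K := prodK B K) (K' := prodK A K) (fun s b => s (u b))
    (fun H G => by
      simp only [prodK, List.map_map]
      exact sum_prod_comp_inj (fun a => K (H.map fun t => t a)) (fun a => hK.2 _) hu G) R []
    (fun H => W fun b => σ (i (u b)) (H.map fun t => t b))
  simp only [List.map_map, List.map_nil] at this
  rw [← this]; rfl

/-- The spin is read at the last level. -/
def cf {Sp S' : Type} (d : Sp) (l : List (Sp × S')) : Sp := (l.map Prod.fst).headD d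

theorem T_marg {Sp S' : Type} [Fintype Sp] [Nonempty Sp] [Fintype S'] {K' : Ker S'}
    (he0 : e 0 = 1) (d : Sp) (W : Sp → List S' → ℝ) : ∀ (j : ℕ) (H : List (Sp × S')),
    T e (mulK (unifK Sp) K') (j + 1) H (fun l => W (cf d l) (l.map Prod.snd))
      = T e K' (j + 1) (H.map Prod.snd) fun l' => (Fintype.card Sp : ℝ)⁻¹ * ∑ σ0, W σ0 l'
  | 0, H => by
    simp only [T, he0, Real.rpow_one, div_one, cf, List.map_cons, List.headD_cons, mulK, unifK]
    rw [Fintype.sum_prod_type, sum_comm]
    refine sum_congr rfl fun s _ => ?_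
    rw [mul_sum, mul_sum]
    exact sum_congr rfl fun s' _ => by ring
  | j + 1, H => by
    have ih := T_marg (K' := K') he0 d W j
    rw [T, T]
    simp only [ih, List.map_cons, mulK, unifK]
    congr 1
    rw [Fintype.sum_prod_type]
    simp only [mul_assoc, ← mul_sum, sum_const, card_univ, nsmul_eq_mul]
    have : (Fintype.card Sp : ℝ) ≠ 0 := by exact_mod_cast Fintype.card_ne_zero
    field_simp

/-- Spins summed out, independent labels. -/
noncomputable def Phi (e : ℕ → ℝ) (R : ℕ) (K : Ker S) (σ : I → List S → Bool) {Sp Lab : Type}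
    [Fintype Sp] [Fintype Lab] [DecidableEq Lab] (G : Sp × (Lab → Bool) → ℝ) : ℝ :=
  Gprod e R K σ fun s : Lab → Bool => ∑ σ0 : Sp, Real.exp (G (σ0, s))

variable {Sp Lab : Type} [Fintype Sp] [Nonempty Sp] [Fintype Lab] [DecidableEq Lab]

theorem Phi_good [Nonempty I] (hK : IsKer K) (he : Exps e R) (σ : I → List S → Bool) :
    Good (Phi e R K σ (Sp := Sp) (Lab := Lab)) := fun G G' c h => by
  unfold Phi Gprod
  rw [← Fintype.expect_const (ι := Lab → I) c, ← expect_add_distrib]
  exact expect_le_expect fun a _ => log_T_le (hK.prodK Lab) R he.pos' []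
    (fun _ => sum_pos (fun _ _ => Real.exp_pos _) univ_nonempty)
    (fun _ => sum_pos (fun _ _ => Real.exp_pos _) univ_nonempty)
    fun l => good_logSumExp _ _ c fun s => h _

theorem Phi_fst [Nonempty I] (hK : IsKer K) (he : Exps e R) (σ : I → List S → Bool)
    (H : Sp → ℝ) : Phi e R K σ (Lab := Lab) (fun x => H x.1) = Real.log (∑ s, Real.exp (H s)) :=
  Gprod_const hK he.pos' σ (sum_pos (fun _ _ => Real.exp_pos _) univ_nonempty)

/-- The leaf weight on the joint tree. -/
noncomputable def Zj (σ : I → List S → Bool) (d : Sp) (i : Lab → I)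
    (G : Sp × (Lab → Bool) → ℝ) (l : List (Sp × (Lab → S))) : ℝ :=
  Real.exp (G (cf d l, fun m => σ (i m) ((l.map Prod.snd).map fun t => t m)))

theorem Phi_eq [Nonempty I] (hK : IsKer K) (he : Exps e R) (σ : I → List S → Bool) (d : Sp)
    (G : Sp × (Lab → Bool) → ℝ) :
    𝔼 i : Lab → I, Real.log (T e (mulK (unifK Sp) (prodK Lab K)) R [] (Zj σ d i G))
      = Phi e R K σ G - Real.log (Fintype.card Sp) := by
  obtain ⟨j, rfl⟩ : ∃ j, R = j + 1 := ⟨R - 1, by have := he.pos; omega⟩
  have hc : (0:ℝ) < Fintype.card Sp := by exact_mod_cast Fintype.card_pos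
  unfold Phi Gprod
  rw [← Fintype.expect_const (ι := Lab → I) (Real.log _), ← expect_sub_distrib]
  refine expect_congr rfl fun i _ => ?_
  have := T_marg (K' := prodK Lab K) he.zero d
    (fun σ0 l => Real.exp (G (σ0, fun m => σ (i m) (l.map fun t => t m)))) j []
  have hpos : ∀ l : List (Lab → S),
      0 < ∑ σ0, Real.exp (G (σ0, fun m => σ (i m) (l.map fun t => t m))) :=
    fun _ => sum_pos (fun _ _ => Real.exp_pos _) univ_nonempty
  rw [T_const_mul (hK.prodK Lab) _ he.pos' _ (fun l => (hpos l).le) (by positivity)] at this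
  unfold Zj
  rw [this, Real.log_mul (by positivity) (T_pos (hK.prodK Lab) _ he.pos' _ hpos).ne', Real.log_inv]
  simp only [List.map_nil]; ring

theorem Good.integrable {p : ℕ} {μ : Measure (Inter p)} [IsProbabilityMeasure μ]
    (hμ : Integrable (fun θ => supNorm θ) μ) {Φ : Inter p → ℝ} (hΦ : Good Φ) : Integrable Φ μ := by
  have : Adm μ (fun θ (_ : Unit) s => θ s) :=
    ⟨fun _ s => measurable_pi_apply s, _, hμ, fun θ _ s => abs_le_supNorm θ s⟩
  simpa using this.integrable hΦ (fun _ => 0) ()

theorem Good.expect_comp {C C' J : Type} [Fintype J] [Nonempty J] {Φ : (C → ℝ) → ℝ} (hΦ : Good Φ)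
    (G : C → ℝ) (sel : J → C → C') :
    Good fun θ : C' → ℝ => 𝔼 j, Φ fun x => G x + θ (sel j x) := fun θ θ' c h => by
  beta_reduce
  rw [← Fintype.expect_const (ι := J) c, ← expect_add_distrib]
  exact expect_le_expect fun j _ => hΦ _ _ c fun x => by have := h (sel j x); linarith

theorem core_step {p : ℕ} (hp : 2 ≤ p) {μ : Measure (Inter p)} [IsProbabilityMeasure μ]
    (hμ : Integrable (fun θ => supNorm θ) μ) (hfac : Fac p μ) (he : Exps e R) [Nonempty I]
    (hK : IsKer K) (σ : I → List S → Bool) {V : Type} [Fintype V] [DecidableEq V] [Nonempty V]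
    (G : (V → Bool) × (Lab → Bool) → ℝ) :
    (∫ θ, (𝔼 idx : Fin p → V, Phi e R K σ fun x => G x + θ fun ℓ => x.1 (idx ℓ)) ∂μ)
      + (p - 1 : ℝ) * Phi e R K σ G
      + (p - 1 : ℝ) * ∫ θ, Gprod e R K σ (fun s : Fin p → Bool => Real.exp (θ s)) ∂μ
      ≤ p * ∫ θ, (𝔼 v : V, Phi e R K σ fun x : (V → Bool) × (Lab ⊕ Fin (p - 1) → Bool) =>
        G (x.1, fun m => x.2 (Sum.inl m)) + θ (snocS (fun ℓ => x.2 (Sum.inr ℓ)) (x.1 v))) ∂μ := by
  set d : V → Bool := fun _ => true
  set 𝒯 := mulK (unifK (V → Bool)) (prodK Lab K) with h𝒯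
  have k1 : IsKer 𝒯 := isKer_unifK.mulK (hK.prodK Lab)
  have kL := hK.prodK (Fin (p - 1))
  have hZ : ∀ (i : Lab → I) l, 0 < Zj σ d i G l := fun _ _ => Real.exp_pos _
  set K0 : (Lab → I) → Ker ((V → Bool) × (Lab → S)) := fun i => tiltK e 𝒯 R (Zj σ d i G) with hK0
  have k0 : ∀ i, IsKer (K0 i) := fun i => k1.tiltK he.pos' he.pos (hZ i)
  set σ0 : V → List ((V → Bool) × (Lab → S)) → Bool := fun v l => cf d l v with hσ0
  have h1 := fun i => one_step hp hμ hfac he (k0 i) σ0 hK σ
  have gP : Good fun θ : Inter p => Gprod e R K σ (fun s : Fin p → Bool => Real.exp (θ s)) :=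
    Gsel_good (hK.prodK (Fin p)) he (selP p σ)
  have gT : ∀ i, Good fun θ : Inter p =>
      Gtrue e R (K0 i) σ0 (fun s : Fin p → Bool => Real.exp (θ s)) := fun i =>
    Gsel_good (k0 i) he (selT p σ0)
  have gM : ∀ i, Good fun θ : Inter p => Gmix e R (K0 i) σ0 K σ θ := fun i => by
    have : (fun θ : Inter p => Gmix e R (K0 i) σ0 K σ θ)
        = Gsel e R (mulK (K0 i) (prodK (Fin (p - 1)) K)) (selM p σ0 σ) := by
      funext θ; unfold Gsel; rw [← univ_product_univ, expect_product]; rfl
    rw [this]; exact Gsel_good ((k0 i).mulK kL) he _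
  have h2 := expect_le univ_nonempty fun i (_ : i ∈ univ) => h1 i
  replace h2 := (integral_expect fun i => ((((gT i).integrable hμ).add
    ((gP.integrable hμ).const_mul _)).sub (((gM i).integrable hμ).const_mul _))).trans_le h2
  have eT : ∀ θ : Inter p, 𝔼 i, Gtrue e R (K0 i) σ0 (fun s : Fin p → Bool => Real.exp (θ s))
      = (𝔼 idx : Fin p → V, Phi e R K σ fun x => G x + θ fun ℓ => x.1 (idx ℓ))
        - Phi e R K σ G := by
    intro θ
    unfold Gtrue
    rw [expect_comm, ← Fintype.expect_const (ι := Fin p → V) (Phi e R K σ G), ← expect_sub_distrib]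
    refine expect_congr rfl fun idx _ => ?_
    rw [← sub_sub_sub_cancel_right _ _ (Real.log (Fintype.card (V → Bool))), ← Phi_eq hK he σ d,
      ← Phi_eq hK he σ d, ← expect_sub_distrib]
    refine expect_congr rfl fun i _ => ?_
    have := T_tilt k1 he.pos' (hZ i) (W := fun l => Real.exp (θ fun ℓ => σ0 (idx ℓ) l))
      (fun _ => (Real.exp_pos _).le) R [] (by simp)
    rw [eq_sub_iff_add_eq', ← Real.log_mul (T_pos k1 R he.pos' _ (hZ i)).ne'
      (T_pos (k0 i) R he.pos' _ fun _ => Real.exp_pos _).ne', ← this]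
    congr 2; funext l
    simp only [Zj, Real.exp_add]; rfl
  have eM : ∀ θ : Inter p, 𝔼 i, Gmix e R (K0 i) σ0 K σ θ
      = (𝔼 v : V, Phi e R K σ fun x : (V → Bool) × (Lab ⊕ Fin (p - 1) → Bool) =>
        G (x.1, fun m => x.2 (Sum.inl m)) + θ (snocS (fun ℓ => x.2 (Sum.inr ℓ)) (x.1 v)))
        - Phi e R K σ G := by
    intro θ
    unfold Gmix
    rw [expect_comm, ← Fintype.expect_const (ι := V) (Phi e R K σ G), ← expect_sub_distrib]
    refine expect_congr rfl fun v _ => ?_
    rw [← sub_sub_sub_cancel_right _ _ (Real.log (Fintype.card (V → Bool))), ← Phi_eq hK he σ d,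
      ← Phi_eq hK he σ d, ← Fintype.expect_equiv (Equiv.sumArrowEquivProdArrow Lab (Fin (p - 1)) I).symm
        _ _ (fun _ => rfl), ← univ_product_univ, expect_product, ← expect_sub_distrib]
    refine expect_congr rfl fun i _ => ?_
    rw [← Fintype.expect_const (ι := Fin (p - 1) → I) (Real.log (T e _ R [] (Zj σ d i G))),
      ← expect_sub_distrib]
    refine expect_congr rfl fun i' _ => ?_
    have k2 := k1.mulK kL
    have a1 := T_tilt k2 he.pos' (Z := fun l => Zj σ d i G (l.map Prod.fst)) (fun _ => hZ i _)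
      (W := fun H => Real.exp (θ (snocS (fun ℓ => σ (i' ℓ) ((H.map Prod.snd).map fun t => t ℓ))
        (σ0 v (H.map Prod.fst))))) (fun _ => (Real.exp_pos _).le) R [] (by simp)
    have a2 := T_mulK_mul (e := e) k1 kL R he.pos' [] (W := Zj σ d i G) (W' := fun _ => 1)
      (fun l => (hZ i l).le) (fun _ => zero_le_one)
    simp only [mul_one, List.map_nil, T_const kL R he.pos' [] zero_le_one] at a2
    rw [a2, tiltK_mulK k1 kL he.pos' he.pos (hZ i)] at a1
    rw [eq_sub_iff_add_eq', ← Real.log_mul (T_pos k1 R he.pos' _ (hZ i)).ne'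
      (T_pos ((k0 i).mulK kL) R he.pos' _ fun _ => Real.exp_pos _).ne', ← a1]
    congr 1
    let φ : (V → Bool) × (Lab ⊕ Fin (p - 1) → S) ≃ ((V → Bool) × (Lab → S)) × (Fin (p - 1) → S) :=
      ((Equiv.refl _).prodCongr (Equiv.sumArrowEquivProdArrow _ _ _)).trans
        (Equiv.prodAssoc _ _ _).symm
    have a3 := T_map (e := e) (K := mulK 𝒯 (prodK (Fin (p - 1)) K))
      (K' := mulK (unifK (V → Bool)) (prodK (Lab ⊕ Fin (p - 1)) K)) φ (fun H G => by
        refine Fintype.sum_equiv φ _ _ fun s => ?_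
        congr 1
        simp only [h𝒯, mulK, prodK, unifK, Fintype.prod_sum_type, List.map_map, mul_assoc]
        rfl) R []
    rw [List.map_nil] at a3
    rw [← a3]
    congr 1; funext l
    simp only [Zj, Real.exp_add, hσ0, cf, List.map_map]
    rfl
  have g1 := (Phi_good hK he σ).expect_comp G fun (idx : Fin p → V) x ℓ => x.1 (idx ℓ)
  have g2 := (Phi_good (Sp := V → Bool) (Lab := Lab ⊕ Fin (p - 1)) hK he σ).expect_comp
    (fun x => G (x.1, fun m => x.2 (Sum.inl m)))
    fun (v : V) x => snocS (fun ℓ => x.2 (Sum.inr ℓ)) (x.1 v)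
  have i1 := g1.integrable hμ
  have i2 := g2.integrable hμ
  have i3 := gP.integrable hμ
  simp only [Pi.add_apply, Pi.sub_apply, expect_sub_distrib, expect_add_distrib, ← mul_expect,
    Fintype.expect_const, eT, eM] at h2
  rw [integral_sub, integral_add, integral_sub i1 (integrable_const _), integral_const_mul,
    integral_const_mul, integral_sub i2 (integrable_const _)] at h2
  · simp only [integral_const, probReal_univ, smul_eq_mul, one_mul] at h2
    linarith
  · exact i1.sub (integrable_const _)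
  · exact i3.const_mul _
  · exact (i1.sub (integrable_const _)).add (i3.const_mul _)
  · exact (i2.sub (integrable_const _)).const_mul _

end Crest.Agent.H9.MP
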