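import Crest.Agent.H9.MP.T7cx

/-! MP-T7c, part 2: the site and the edge estimate. -/

set_option autoImplicit false

namespace Crest.Agent.H9.MP.CP

open MeasureTheory Crest.ProbabilityR.Diluted Filter Finset
open scoped BigOperators

theorem abs_integral_le {X : Type} [MeasurableSpace X] {P : Measure X} {f g : X → ℝ}
    (hg : Integrable g P) (h : ∀ x, |f x| ≤ g x) : |∫ x, f x ∂P| ≤ ∫ x, g x ∂P := by
  have := norm_integral_le_of_norm_le (f := f) hg (Eventually.of_forall h)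
  simpa using this

theorem abs_expect_le' {A : Type} [Fintype A] [Nonempty A] {f : A → ℝ} {c : ℝ}
    (h : ∀ a, |f a| ≤ c) : |𝔼 a, f a| ≤ c :=
  (Finset.abs_expect_le _ _).trans (Finset.expect_le univ_nonempty fun a _ => h a)

theorem continuous_expect {A X : Type} [Fintype A] [TopologicalSpace X] {f : A → X → ℝ}
    (h : ∀ a, Continuous (f a)) : Continuous fun x => 𝔼 a, f a x := by
  simp only [Fintype.expect_eq_sum_div_card]
  exact (continuous_finset_sum _ fun a _ => h a).div_const _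

theorem tsum_final {lam : ℝ} (hl : 0 ≤ lam) {ψ φ : ℕ → ℝ} {A B : ℝ}
    (hψ : ∀ n, |ψ n| ≤ A * (1 + n)) (hφ : ∀ n, |φ n| ≤ B * (1 + n)) {a b D : ℝ} {n1 : ℕ}
    (hle : ∀ n : ℕ, ψ n ≤ φ n + D * (if n ≤ n1 then 0 else 1 + (n : ℝ)) + (a + b * n)) :
    ∑' n, poissonWeight lam n * ψ n ≤ ∑' n, poissonWeight lam n * φ n +
      D * (∑' n : ℕ, poissonWeight lam n * (if n ≤ n1 then 0 else 1 + (n : ℝ))) +
      (a + b * lam) := by
  have ht : ∀ n : ℕ, |(if n ≤ n1 then 0 else 1 + (n : ℝ))| ≤ 1 * (1 + n) := by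
    intro n
    split_ifs
    · simp only [abs_zero]; positivity
    · rw [abs_of_nonneg (by positivity), one_mul]
  have := CR.tsum_poi_mono' hl hψ
    (φ := fun n => φ n + D * (if n ≤ n1 then 0 else 1 + (n : ℝ))) (B := B + |D|)
    (fun n => by
      refine (abs_add_le _ _).trans ?_
      rw [abs_mul]
      have := mul_le_mul_of_nonneg_left (ht n) (abs_nonneg D)
      linarith [hφ n]) hle
  refine this.trans (le_of_eq ?_)
  congr 1
  rw [← tsum_mul_left, ← (summable_poi hl hφ).tsum_add ((summable_poi hl ht).mul_left D)]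
  exact tsum_congr fun n => by ring

variable {p : ℕ} {α : ℝ} {μ : Measure (Inter p)} [IsProbabilityMeasure μ] {ν : Measure ℝ}
  [IsProbabilityMeasure ν] {N : ℕ} [Nonempty (Fin N)] {S J Γ : Type} [Fintype S] [Fintype J]
  [Fintype Γ] [DecidableEq Γ] {Ψ : ((Γ → Bool) → ℝ) → ℝ} {C : ℝ} {R : ℕ}
  {H : (Fin N → Bool) → ℝ} {lam : J → ℝ} {K : J → Ker S} {σ : Fin N → List S → Bool}
  {n0 n1 : ℕ} {Kb ε M : ℝ}

theorem site_ge (hα : 0 ≤ α) (hμ : Integrable (fun θ : Inter p => ‖θ‖) μ)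
    (hν : Integrable (fun x : ℝ => ‖x‖) ν)
    (hm : ∀ (m m' : (Γ → Bool) → ℝ) (c : ℝ), (∀ τ, 0 ≤ m τ) → 0 < ∑ τ, m τ →
      (∀ τ, m τ ≤ Real.exp c * m' τ) → Ψ m ≤ Ψ m' + c)
    (hn : ∀ m : (Γ → Bool) → ℝ, (∀ τ, 0 ≤ m τ) → 0 < ∑ τ, m τ →
      |Ψ m - Real.log (∑ τ, m τ)| ≤ C)
    (hR : 0 < R) (h0 : ∀ j, 0 ≤ lam j) (h1 : ∑ j, lam j = 1) (hK : ∀ j, IsKer (K j))
    (hε : 0 ≤ ε) (hM : 0 ≤ M) (hn0 : n1 * p ≤ n0) (hKb : 2 * (1 + (n1 + 1) * M) ≤ Kb)
    (hmain : ∀ (L : Type) [Fintype L] [DecidableEq L], Fintype.card L ≤ n0 →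
      ∀ W : (L → Bool) → ℝ, (∀ s, Real.exp (-Kb) ≤ W s ∧ W s ≤ Real.exp Kb) →
        |(𝔼 a : Γ → Fin N, 𝔼 i : L → Fin N,
            (Ψ (marg a fun s => H s + Real.log (W fun m => s (i m))) - Ψ (marg a H))) -
          ∑ j, lam j * Gprod (eU R) R (K j) σ W| ≤ ε) :
    ∑ j, lam j * (∑' k : ℕ, poissonWeight (α * p) k *
      ∫ θs, ∫ h, Gprod (eU R) R (K j) σ (siteW θs h) ∂ν ∂(Measure.pi fun _ : Fin k => μ)) ≤
      siteAvg p α μ ν N (Phi Ψ) H + 2 * (1 + ∫ h, ‖h‖ ∂ν + ∫ θ, ‖θ‖ ∂μ) *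
        (∑' n : ℕ, poissonWeight (α * p) n * (if n ≤ n1 then 0 else 1 + (n : ℝ))) +
        ((-Phi Ψ H + 2 * C * (1 - ((N : ℝ) / (N + 1)) ^ Fintype.card Γ) + ε +
          4 * ∫ h, max (‖h‖ - M) 0 ∂ν) + (4 * ∫ θ, max (‖θ‖ - M) 0 ∂μ) * (α * p)) := by
  have hl : 0 ≤ α * p := by positivity
  have g0 : Good (Phi (I := Fin N) Ψ) := Phi_good hm
  have g1 : Good (Phi (I := Fin (N + 1)) Ψ) := Phi_good hm
  set A := 1 + ∫ h, ‖h‖ ∂ν + ∫ θ, ‖θ‖ ∂μ with hA
  set c := -Phi Ψ H + 2 * C * (1 - ((N : ℝ) / (N + 1)) ^ Fintype.card Γ) + ε with hc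
  have a1 : 0 ≤ ∫ h, ‖h‖ ∂ν := integral_nonneg fun _ => norm_nonneg _
  have a2 : 0 ≤ ∫ θ, ‖θ‖ ∂μ := integral_nonneg fun _ => norm_nonneg _
  let G : J → (k : ℕ) → (Fin k → Inter p) × ℝ → ℝ := fun j k w =>
    Gprod (eU R) R (K j) σ (siteW w.1 w.2)
  let X : (k : ℕ) → (Fin k → Inter p) × ℝ → ℝ := fun k w =>
    𝔼 i : Fin k × Fin (p - 1) → Fin N,
      Phi Ψ fun σ : Fin (N + 1) → Bool => H (fun v => σ v.castSucc) +
        (w.2 * spinVal (σ (Fin.last N)) +
          ∑ j, w.1 j (snocS (fun ℓ => σ (i (j, ℓ)).castSucc) (σ (Fin.last N))))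
  let b : (k : ℕ) → (Fin k → Inter p) × ℝ → ℝ := fun k w => 1 + ‖w.2‖ + ∑ j, ‖w.1 j‖
  let Pk : (k : ℕ) → Measure ((Fin k → Inter p) × ℝ) := fun k =>
    (Measure.pi fun _ : Fin k => μ).prod ν
  have ib : ∀ k, Integrable (b k) (Pk k) := fun k => integrable_add_prod hμ hν 1
  have eb : ∀ k, ∫ w, b k w ∂(Pk k) ≤ A * (1 + k) := by
    intro k
    have : ∫ w, b k w ∂(Pk k) = _ := integral_add_prod hμ hν 1
    rw [this, hA]
    have : (0 : ℝ) ≤ k := Nat.cast_nonneg k
    nlinarith [mul_nonneg this a1]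
  have eG : ∀ j k w, G j k w =
      Gprod (eU R) R (K j) σ fun s => Real.exp (Real.log (siteW w.1 w.2 s)) := by
    intro j k w
    simp only [G, Real.exp_log (siteW_pos _ _ _)]
  have bG : ∀ j k w, |G j k w| ≤ b k w := fun j k w => by
    rw [eG]; exact abs_Gprod_le (hK j) hR (abs_log_siteW_le _ _)
  have cG : ∀ j k, Continuous (G j k) := fun j k => by
    have : G j k = _ := funext (eG j k)
    rw [this]
    exact (continuous_Gprod (hK j) hR).comp continuous_log_siteW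
  have iG : ∀ j k, Integrable (G j k) (Pk k) := fun j k =>
    (ib k).mono' (cG j k).aestronglyMeasurable (Eventually.of_forall (bG j k))
  set B0 := |Phi Ψ fun σ : Fin (N + 1) → Bool => H (fun v => σ v.castSucc)| with hB0
  have bX : ∀ k w, |X k w| ≤ B0 + b k w := by
    intro k w
    refine abs_expect_le' fun i => ?_
    have x := g1.abs_sub_le (H := fun σ : Fin (N + 1) → Bool => H (fun v => σ v.castSucc) +
        (w.2 * spinVal (σ (Fin.last N)) +
          ∑ j, w.1 j (snocS (fun ℓ => σ (i (j, ℓ)).castSucc) (σ (Fin.last N)))))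
      (H' := fun σ : Fin (N + 1) → Bool => H (fun v => σ v.castSucc))
      (c := ‖w.2‖ + ∑ j, ‖w.1 j‖) fun s => by
        rw [add_sub_cancel_left]; exact abs_site_le _ _ _ _
    have y := (abs_sub_abs_le_abs_sub _ _).trans x
    simp only [b]
    linarith
  have cX : ∀ k, Continuous (X k) := fun k =>
    continuous_expect fun i => g1.continuous.comp (by fun_prop)
  haveI : ∀ k, IsProbabilityMeasure (Pk k) := fun k => by simp only [Pk]; infer_instance
  have iX : ∀ k, Integrable (X k) (Pk k) := fun k =>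
    ((integrable_const B0).add (ib k)).mono' (cX k).aestronglyMeasurable
      (Eventually.of_forall (bX k))
  have pt : ∀ k w, ∑ j, lam j * G j k w ≤ X k w + (if k ≤ n1 then 0 else 2) * b k w +
      (c + 4 * max (‖w.2‖ - M) 0 + ∑ j, 4 * max (‖w.1 j‖ - M) 0) := by
    intro k w
    have x := core g0 hR h0 h1 hK hε (hmain (Fin k × Fin (p - 1)))
      (V := fun s => Real.log (siteW w.1 w.2 s)) (abs_log_siteW_le _ _)
    simp only [← eG] at x
    have y : |X k w - 𝔼 i : Fin k × Fin (p - 1) → Fin N,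
        Phi Ψ fun s => H s + Real.log (siteW w.1 w.2 fun m => s (i m))| ≤
        2 * C * (1 - ((N : ℝ) / (N + 1)) ^ Fintype.card Γ) := by
      simp only [X]
      rw [← Finset.expect_sub_distrib]
      refine abs_expect_le' fun i => ?_
      rw [← red_site]
      exact Phi_succ hn _
    have t0 : 0 ≤ max (‖w.2‖ - M) 0 + ∑ j, max (‖w.1 j‖ - M) 0 :=
      add_nonneg (le_max_right _ _) (Finset.sum_nonneg fun _ _ => le_max_right _ _)
    have z : (if Fintype.card (Fin k × Fin (p - 1)) ≤ n0 ∧ 1 + ‖w.2‖ + ∑ j, ‖w.1 j‖ ≤ Kb then 0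
        else 2 * (1 + ‖w.2‖ + ∑ j, ‖w.1 j‖)) ≤ (if k ≤ n1 then 0 else 2) * b k w +
          4 * (max (‖w.2‖ - M) 0 + ∑ j, max (‖w.1 j‖ - M) 0) := by
      have b0 : 0 ≤ b k w := (abs_nonneg _).trans (abs_log_siteW_le w.1 w.2 fun _ => true)
      by_cases hk : k ≤ n1
      · rw [if_pos hk, zero_mul, zero_add]
        split_ifs with h
        · linarith
        · refine trunc hk hM _ _ fun h' => h ⟨?_, h'.trans hKb⟩
          simp only [Fintype.card_prod, Fintype.card_fin]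
          exact (Nat.mul_le_mul hk (Nat.sub_le p 1)).trans hn0
      · rw [if_neg hk]
        split_ifs <;> simp only [b] at b0 ⊢ <;> linarith
    rw [← Finset.mul_sum]
    have x1 := (abs_le.1 x).1
    have y1 := (abs_le.1 y).1
    linarith
  have iT : ∀ k, Integrable (fun w : (Fin k → Inter p) × ℝ =>
      c + 4 * max (‖w.2‖ - M) 0 + ∑ j, 4 * max (‖w.1 j‖ - M) 0) (Pk k) := fun k =>
    integrable_add_prod ((integrable_tail hμ M).const_mul 4) ((integrable_tail hν M).const_mul 4) c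
  have eT : ∀ k : ℕ, ∫ w : (Fin k → Inter p) × ℝ,
      (c + 4 * max (‖w.2‖ - M) 0 + ∑ j, 4 * max (‖w.1 j‖ - M) 0) ∂(Pk k) =
      c + 4 * ∫ h, max (‖h‖ - M) 0 ∂ν + (4 * ∫ θ, max (‖θ‖ - M) 0 ∂μ) * k := fun k => by
    have := integral_add_prod (k := k) ((integrable_tail hμ M).const_mul 4)
      ((integrable_tail hν M).const_mul 4) c
    rw [integral_const_mul, integral_const_mul] at this
    rw [mul_comm _ (k : ℝ)]
    exact this
  have int : ∀ k : ℕ, ∑ j, lam j * ∫ w, G j k w ∂(Pk k) ≤ ∫ w, X k w ∂(Pk k) +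
      2 * A * (if k ≤ n1 then 0 else 1 + (k : ℝ)) +
      ((c + 4 * ∫ h, max (‖h‖ - M) 0 ∂ν) + (4 * ∫ θ, max (‖θ‖ - M) 0 ∂μ) * k) := by
    intro k
    have x := integral_mono (integrable_finset_sum _ fun j _ => (iG j k).const_mul (lam j))
      (((iX k).add ((ib k).const_mul (if k ≤ n1 then 0 else 2))).add (iT k)) (pt k)
    rw [integral_finset_sum _ fun j _ => (iG j k).const_mul (lam j), integral_add'
      ((iX k).add ((ib k).const_mul (if k ≤ n1 then 0 else 2))) (iT k),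
      integral_add' (iX k) ((ib k).const_mul (if k ≤ n1 then 0 else 2)), eT] at x
    simp only [integral_const_mul] at x
    have y : (if k ≤ n1 then 0 else 2) * ∫ w, b k w ∂(Pk k) ≤
        2 * A * (if k ≤ n1 then 0 else 1 + (k : ℝ)) := by
      split_ifs
      · simp
      · linarith [eb k]
    linarith
  have bGi : ∀ j (k : ℕ), |∫ w, G j k w ∂(Pk k)| ≤ A * (1 + k) := fun j k =>
    (abs_integral_le (ib k) (bG j k)).trans (eb k)
  have bXi : ∀ k : ℕ, |∫ w, X k w ∂(Pk k)| ≤ (B0 + A) * (1 + k) := by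
    intro k
    have x := abs_integral_le ((integrable_const B0).add (ib k)) (bX k)
    rw [integral_add' (integrable_const B0) (ib k)] at x
    simp only [integral_const, probReal_univ, smul_eq_mul, one_mul] at x
    have : 0 ≤ B0 * k := by positivity
    linarith [eb k]
  have bS : ∀ k : ℕ, |∑ j, lam j * ∫ w, G j k w ∂(Pk k)| ≤ A * (1 + k) := by
    intro k
    refine (Finset.abs_sum_le_sum_abs _ _).trans ?_
    have : ∑ j, |lam j * ∫ w, G j k w ∂(Pk k)| ≤ ∑ j, lam j * (A * (1 + k)) :=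
      Finset.sum_le_sum fun j _ => by
        rw [abs_mul, abs_of_nonneg (h0 j)]
        exact mul_le_mul_of_nonneg_left (bGi j k) (h0 j)
    rwa [← Finset.sum_mul, h1, one_mul] at this
  have fin := tsum_final hl bS bXi int
  have e1 : siteAvg p α μ ν N (Phi Ψ) H = ∑' k, poissonWeight (α * p) k * ∫ w, X k w ∂(Pk k) :=
    tsum_congr fun k => by rw [integral_prod _ (iX k)]
  have e2 : ∑ j, lam j * (∑' k : ℕ, poissonWeight (α * p) k *
      ∫ θs, ∫ h, Gprod (eU R) R (K j) σ (siteW θs h) ∂ν ∂(Measure.pi fun _ : Fin k => μ)) =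
      ∑' k, poissonWeight (α * p) k * ∑ j, lam j * ∫ w, G j k w ∂(Pk k) := by
    simp only [← tsum_mul_left, Finset.mul_sum]
    rw [Summable.tsum_finsetSum fun j _ => ?_]
    · refine Finset.sum_congr rfl fun j _ => tsum_congr fun k => ?_
      rw [integral_prod _ (iG j k)]
      ring
    · refine ((summable_poi hl (bGi j)).mul_left (lam j)).congr fun k => ?_
      ring
  rw [e1, e2]
  exact fin

theorem edge_le (hα : 0 ≤ α) (hp : 1 ≤ p) (hμ : Integrable (fun θ : Inter p => ‖θ‖) μ)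
    (hm : ∀ (m m' : (Γ → Bool) → ℝ) (c : ℝ), (∀ τ, 0 ≤ m τ) → 0 < ∑ τ, m τ →
      (∀ τ, m τ ≤ Real.exp c * m' τ) → Ψ m ≤ Ψ m' + c)
    (hR : 0 < R) (h0 : ∀ j, 0 ≤ lam j) (h1 : ∑ j, lam j = 1) (hK : ∀ j, IsKer (K j))
    (hε : 0 ≤ ε) (hM : 0 ≤ M) (hn0 : n1 * p ≤ n0) (hKb : 2 * (1 + (n1 + 1) * M) ≤ Kb)
    (hmain : ∀ (L : Type) [Fintype L] [DecidableEq L], Fintype.card L ≤ n0 →
      ∀ W : (L → Bool) → ℝ, (∀ s, Real.exp (-Kb) ≤ W s ∧ W s ≤ Real.exp Kb) →
        |(𝔼 a : Γ → Fin N, 𝔼 i : L → Fin N,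
            (Ψ (marg a fun s => H s + Real.log (W fun m => s (i m))) - Ψ (marg a H))) -
          ∑ j, lam j * Gprod (eU R) R (K j) σ W| ≤ ε) :
    edgeAvg p α μ N (Phi Ψ) H ≤ 2 * (1 + ∫ θ, ‖θ‖ ∂μ) *
        (∑' n : ℕ, poissonWeight (α * (p - 1)) n * (if n ≤ n1 then 0 else 1 + (n : ℝ))) +
        ((Phi Ψ H + ε) + (∑ j, lam j * ∫ θ, Gprod (eU R) R (K j) σ
          (fun s : Fin p → Bool => Real.exp (θ s)) ∂μ + 4 * ∫ θ, max (‖θ‖ - M) 0 ∂μ) *
          (α * (p - 1))) := by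
  have hl : 0 ≤ α * (p - 1) := mul_nonneg hα (sub_nonneg.2 (by exact_mod_cast hp))
  have g0 : Good (Phi (I := Fin N) Ψ) := Phi_good hm
  set A := 1 + ∫ θ, ‖θ‖ ∂μ with hA
  have a2 : 0 ≤ ∫ θ, ‖θ‖ ∂μ := integral_nonneg fun _ => norm_nonneg _
  let G : J → Inter p → ℝ := fun j θ => Gprod (eU R) R (K j) σ fun s => Real.exp (θ s)
  let X : (k : ℕ) → (Fin k → Inter p) → ℝ := fun k θs =>
    𝔼 i : Fin k × Fin p → Fin N, Phi Ψ fun σ => H σ + ∑ j, θs j fun ℓ => σ (i (j, ℓ))
  let b : (k : ℕ) → (Fin k → Inter p) → ℝ := fun k θs => 1 + ∑ j, ‖θs j‖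
  let Pk : (k : ℕ) → Measure (Fin k → Inter p) := fun k => Measure.pi fun _ : Fin k => μ
  haveI : ∀ k, IsProbabilityMeasure (Pk k) := fun k => by simp only [Pk]; infer_instance
  have ib : ∀ k, Integrable (b k) (Pk k) := fun k => (integrable_const 1).add (integrable_sum_pi hμ)
  have eb : ∀ k, ∫ w, b k w ∂(Pk k) ≤ A * (1 + k) := by
    intro k
    have : ∫ w, b k w ∂(Pk k) = _ := integral_add (integrable_const 1) (integrable_sum_pi hμ)
    rw [this, integral_sum_pi hμ, hA]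
    have : (0 : ℝ) ≤ k := Nat.cast_nonneg k
    simp only [integral_const, probReal_univ, smul_eq_mul, one_mul]
    nlinarith
  have iG : ∀ j, Integrable (G j) μ := fun j =>
    hμ.mono' (continuous_Gprod (hK j) hR).aestronglyMeasurable
      (Eventually.of_forall fun θ => abs_Gprod_le (hK j) hR fun s => norm_le_pi_norm θ s)
  have bV : ∀ k (θs : Fin k → Inter p) (t : Fin k → Fin p → Bool), |∑ j, θs j (t j)| ≤ b k θs := by
    intro k θs t
    have := (Finset.abs_sum_le_sum_abs _ _).trans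
      (Finset.sum_le_sum fun j (_ : j ∈ univ) => norm_le_pi_norm (θs j) (t j))
    simp only [b]
    linarith
  have bX : ∀ k w, |X k w| ≤ |Phi Ψ H| + b k w := by
    intro k w
    refine abs_expect_le' fun i => ?_
    have x := g0.abs_sub_le (H := fun σ => H σ + ∑ j, w j fun ℓ => σ (i (j, ℓ))) (H' := H)
      (c := b k w) fun s => by rw [add_sub_cancel_left]; exact bV _ _ _
    have y := (abs_sub_abs_le_abs_sub _ _).trans x
    linarith
  have cX : ∀ k, Continuous (X k) := fun k =>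
    continuous_expect fun i => g0.continuous.comp (by fun_prop)
  have iX : ∀ k, Integrable (X k) (Pk k) := fun k =>
    ((integrable_const _).add (ib k)).mono' (cX k).aestronglyMeasurable
      (Eventually.of_forall (bX k))
  let v : Inter p → ℝ := fun θ => ∑ j, lam j * G j θ + 4 * max (‖θ‖ - M) 0
  have iv0 : Integrable (fun θ => ∑ j, lam j * G j θ) μ :=
    integrable_finset_sum _ fun j _ => (iG j).const_mul _
  have iv : Integrable v μ := iv0.add ((integrable_tail hμ M).const_mul 4)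
  have ev : ∫ θ, v θ ∂μ = ∑ j, lam j * ∫ θ, G j θ ∂μ + 4 * ∫ θ, max (‖θ‖ - M) 0 ∂μ := by
    simp only [v]
    rw [integral_add iv0 ((integrable_tail hμ M).const_mul 4),
      integral_finset_sum _ fun j _ => (iG j).const_mul _]
    simp only [integral_const_mul]
  have pt : ∀ k w, X k w ≤ (if k ≤ n1 then 0 else 2) * b k w +
      ((Phi Ψ H + ε) + ∑ j, v (w j)) := by
    intro k w
    have x := core g0 hR h0 h1 hK hε (hmain (Fin k × Fin p))
      (V := fun s => ∑ j, w j fun ℓ => s (j, ℓ)) (b := b k w) (fun s => bV _ _ _)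
    have e : ∀ j, (Gprod (eU R) R (K j) σ fun s : Fin k × Fin p → Bool =>
        Real.exp (∑ j, w j fun ℓ => s (j, ℓ))) = ∑ a, G j (w a) := by
      intro j
      simp only [Real.exp_sum]
      exact Gprod_prod (hK j) (exps_eU hR).pos' σ (W := fun a s => Real.exp (w a s))
        fun _ _ => Real.exp_pos _
    simp only [e] at x
    have t0 : 0 ≤ ∑ j, max (‖w j‖ - M) 0 := Finset.sum_nonneg fun _ _ => le_max_right _ _
    have z : (if Fintype.card (Fin k × Fin p) ≤ n0 ∧ b k w ≤ Kb then 0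
        else 2 * b k w) ≤ (if k ≤ n1 then 0 else 2) * b k w + 4 * ∑ j, max (‖w j‖ - M) 0 := by
      have b0 : 0 ≤ b k w := (abs_nonneg _).trans (bV k w fun _ _ => true)
      by_cases hk : k ≤ n1
      · rw [if_pos hk, zero_mul, zero_add]
        split_ifs with h
        · linarith
        · have := trunc hk hM 0 (fun j => ‖w j‖) fun h' => h ⟨?_, le_trans ?_ (h'.trans hKb)⟩
          · rw [max_eq_right (by linarith)] at this
            simpa only [b, add_zero, zero_add] using this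
          · simp only [Fintype.card_prod, Fintype.card_fin]
            exact (Nat.mul_le_mul hk le_rfl).trans hn0
          · simp [b]
      · rw [if_neg hk]
        split_ifs <;> linarith
    have e2 : ∑ j, v (w j) = ∑ j, lam j * ∑ a, G j (w a) + 4 * ∑ j, max (‖w j‖ - M) 0 := by
      simp only [v, Finset.sum_add_distrib, Finset.mul_sum]
      rw [Finset.sum_comm]
    rw [e2]
    have x1 := (abs_le.1 x).2
    simp only [X]
    linarith
  have int : ∀ k : ℕ, ∫ w, X k w ∂(Pk k) ≤ 0 + 2 * A * (if k ≤ n1 then 0 else 1 + (k : ℝ)) +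
      ((Phi Ψ H + ε) + (∑ j, lam j * ∫ θ, G j θ ∂μ + 4 * ∫ θ, max (‖θ‖ - M) 0 ∂μ) * k) := by
    intro k
    have i2 : Integrable (fun w : Fin k → Inter p => (Phi Ψ H + ε) + ∑ j, v (w j)) (Pk k) :=
      (integrable_const _).add (integrable_sum_pi iv)
    have x := integral_mono (iX k) (((ib k).const_mul (if k ≤ n1 then 0 else 2)).add i2) (pt k)
    rw [integral_add' ((ib k).const_mul (if k ≤ n1 then 0 else 2)) i2,
      integral_add (integrable_const _) (integrable_sum_pi iv), integral_sum_pi iv, ev] at x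
    simp only [integral_const_mul, integral_const, probReal_univ, smul_eq_mul, one_mul] at x
    have y : (if k ≤ n1 then 0 else 2) * ∫ w, b k w ∂(Pk k) ≤
        2 * A * (if k ≤ n1 then 0 else 1 + (k : ℝ)) := by
      split_ifs
      · simp
      · linarith [eb k]
    linarith
  have bXi : ∀ k : ℕ, |∫ w, X k w ∂(Pk k)| ≤ (|Phi Ψ H| + A) * (1 + k) := by
    intro k
    have x := abs_integral_le ((integrable_const |Phi Ψ H|).add (ib k)) (bX k)
    rw [integral_add' (integrable_const _) (ib k)] at x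
    simp only [integral_const, probReal_univ, smul_eq_mul, one_mul] at x
    have : 0 ≤ |Phi Ψ H| * k := by positivity
    linarith [eb k]
  have fin := tsum_final hl bXi (φ := fun _ => 0) (B := 0) (fun n => by simp) int
  simp only [mul_zero, tsum_zero, zero_add] at fin
  exact fin

end Crest.Agent.H9.MP.CP
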