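import Crest.Agent.H9.MP.T7a
import Crest.Agent.H9.MP.Poi
import Crest.Agent.H9.MP.T4
import Crest.Agent.H9.MP.T7cy

/-! MP-T7c: the pointwise cavity estimate. -/

/-
Sketch. Choose n1, Kb1 such that the events {k > n1 or some ‖θ_j‖ > Kb1 or |h| > Kb1} contribute ≤ ε' (integrands are bounded by 1 + |h| + Σ‖θ_j‖; poi_tail, integrability); lb_core with n0 = n1 p,
Kb = (n1+1) Kb1 + 1. Φ N H = avg_a Ψ(marg a H) (Φ 0 = logSumExp). Given H take (S,J,lam,K,σ). For a avoiding the new spin (prob ≥ 1 - |Γ|/(N+1)),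
marg a (H∘init + new) = marg a0 (H + log siteW(σ∘i)); otherwise both are within C of log Σ exp. So siteAvg - Φ N H ≥ Σ_j lam_j Σ_k Poi ∫∫ Gprod (siteW) - ε', edgeAvg - Φ N H ≤ Σ_j lam_j α(p-1) ∫ Gprod e^θ + ε'
(W = Π_k exp θ_k, Gprod_prod, hasSum_poi_mul). Σ_j lam_j Bfin(K j) ≥ F.
-/

set_option autoImplicit false

namespace Crest.Agent.H9.MP

open MeasureTheory Crest.ProbabilityR.Diluted Filter

theorem cavity_pointwise {p : ℕ} (hp : 2 ≤ p) {α : ℝ} (hα : 0 ≤ α) {μ : Measure (Inter p)}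
    [IsProbabilityMeasure μ] {ν : Measure ℝ} [IsProbabilityMeasure ν]
    (hμ : Integrable (fun θ => supNorm θ) μ) (hν : Integrable (fun x : ℝ => x) ν) {F : ℝ}
    (hF : ∀ (R : ℕ) (S I : Type) [Fintype S] [Fintype I] [Nonempty I] (K : Ker S)
      (σ : I → List S → Bool), 0 < R → IsKer K → PosSpin R K σ → F ≤ Bfin p α μ ν (eU R) R K σ)
    {ε : ℝ} (hε : 0 < ε) :
    ∃ (Φ : (N : ℕ) → ((Fin N → Bool) → ℝ) → ℝ) (C : ℝ), (∀ N, Good (Φ N)) ∧
      (∀ N, 0 < N → ∀ H, |Φ N H - Real.log (∑ s, Real.exp (H s))| ≤ C) ∧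
      ∀ᶠ N in atTop, ∀ H,
        F - ε ≤ siteAvg p α μ ν N (Φ (N + 1)) H - edgeAvg p α μ N (Φ N) H := by
  have hμ' : Integrable (fun θ : Inter p => ‖θ‖) μ := by simpa only [supNorm_eq_norm] using hμ
  have hν' : Integrable (fun x : ℝ => ‖x‖) ν := hν.norm
  have hp' : (2 : ℝ) ≤ p := by exact_mod_cast hp
  have l1 : 0 ≤ α * p := by positivity
  have l2 : 0 ≤ α * (p - 1) := mul_nonneg hα (by linarith)
  have a1 : 0 ≤ ∫ h, ‖h‖ ∂ν := integral_nonneg fun _ => norm_nonneg _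
  have a2 : 0 ≤ ∫ θ, ‖θ‖ ∂μ := integral_nonneg fun _ => norm_nonneg _
  have A1 : 0 < 1 + ∫ h, ‖h‖ ∂ν + ∫ θ, ‖θ‖ ∂μ := by linarith
  have A2 : 0 < 1 + ∫ θ, ‖θ‖ ∂μ := by linarith
  obtain ⟨n1, t1⟩ := poi_tail l1 (ε := ε / 16 / (1 + ∫ h, ‖h‖ ∂ν + ∫ θ, ‖θ‖ ∂μ)) (by positivity)
  obtain ⟨n2, t2⟩ := poi_tail l2 (ε := ε / 16 / (1 + ∫ θ, ‖θ‖ ∂μ)) (by positivity)
  rw [le_div_iff₀ A1] at t1
  rw [le_div_iff₀ A2] at t2
  have u1 := CP.tail_tendsto hν' fun _ => norm_nonneg _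
  have u2 := CP.tail_tendsto hμ' fun _ => norm_nonneg _
  have u3 := ((u1.const_mul 4).add ((u2.const_mul 4).mul_const (α * p))).add
    ((u2.const_mul 4).mul_const (α * (p - 1)))
  simp only [mul_zero, zero_mul, add_zero] at u3
  obtain ⟨M, hM⟩ := (u3.eventually (ge_mem_nhds (show 0 < ε / 4 by positivity))).exists
  have M0 : (0 : ℝ) ≤ M := Nat.cast_nonneg M
  obtain ⟨R, Γ, _, _, Ψ, C, hR, hm, hn, hmain⟩ := lb_core ((n1 + n2) * p)
    (2 * (1 + (n1 + n2 + 1) * M)) (ε / 8) (by positivity) (by positivity)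
  refine ⟨fun N H => if N = 0 then Real.log (∑ s, Real.exp (H s)) else CP.Phi Ψ H, C, ?_, ?_, ?_⟩
  · intro N
    rcases Nat.eq_zero_or_pos N with rfl | hN
    · simpa only [if_true] using good_logSumExp
    · haveI : Nonempty (Fin N) := Fin.pos_iff_nonempty.1 hN
      simpa only [if_neg hN.ne'] using CP.Phi_good hm
  · intro N hN H
    haveI : Nonempty (Fin N) := Fin.pos_iff_nonempty.1 hN
    simpa only [if_neg hN.ne'] using CP.Phi_near hn H
  have hx : Tendsto (fun N : ℕ => (N : ℝ) / (N + 1)) atTop (nhds 1) :=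
    tendsto_natCast_div_add_atTop (1 : ℝ)
  have hδ := ((hx.pow (Fintype.card Γ)).const_sub 1).const_mul (2 * C)
  simp only [one_pow, sub_self, mul_zero] at hδ
  filter_upwards [hδ.eventually (ge_mem_nhds (show 0 < ε / 4 by positivity)),
    eventually_gt_atTop 0] with N hδN hN H
  haveI : Nonempty (Fin N) := Fin.pos_iff_nonempty.1 hN
  simp only [if_neg hN.ne', if_neg (Nat.succ_ne_zero N)]
  obtain ⟨S, J, _, _, lam, K, σ, h0, h1, hK, hW⟩ := hmain (Fin N) H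
  have k1 : (n1 : ℝ) * M ≥ 0 := by positivity
  have k2 : (n2 : ℝ) * M ≥ 0 := by positivity
  have s1 := CP.site_ge (n1 := n1) (M := M) hα hμ' hν' hm hn hR h0 h1 (fun j => (hK j).1)
    (by positivity) M0 (Nat.mul_le_mul_right p (Nat.le_add_right n1 n2)) (by nlinarith) hW
  have s2 := CP.edge_le (n1 := n2) (M := M) hα (by omega) hμ' hm hR h0 h1 (fun j => (hK j).1)
    (by positivity) M0 (Nat.mul_le_mul_right p (Nat.le_add_left n2 n1)) (by nlinarith) hW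
  have s3 : ∑ j, lam j * F ≤ ∑ j, lam j * Bfin p α μ ν (eU R) R (K j) σ :=
    Finset.sum_le_sum fun j _ =>
      mul_le_mul_of_nonneg_left (hF R S (Fin N) (K j) σ hR (hK j).1 (hK j).2) (h0 j)
  rw [← Finset.sum_mul, h1, one_mul] at s3
  simp only [Bfin, mul_sub, Finset.sum_sub_distrib] at s3
  have s4 : ∑ j, lam j * (α * ((p : ℝ) - 1) * ∫ θ, Gprod (eU R) R (K j) σ
      (fun s : Fin p → Bool => Real.exp (θ s)) ∂μ) = (∑ j, lam j * ∫ θ, Gprod (eU R) R (K j) σ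
      (fun s : Fin p → Bool => Real.exp (θ s)) ∂μ) * (α * (p - 1)) := by
    rw [Finset.sum_mul]
    exact Finset.sum_congr rfl fun j _ => by ring
  simp only [mul_sub] at s4
  change F - ε ≤ siteAvg p α μ ν N (CP.Phi Ψ) H - edgeAvg p α μ N (CP.Phi Ψ) H
  nlinarith

end Crest.Agent.H9.MP
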