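import Crest.Agent.H9.MP.T7b
import Crest.Agent.H9.MP.T7c

/-! MP-T7: the lower bound. -/

/-
Sketch. ell N logSumExp = N * pressure N. Cesàro: ell (N+1) - ell N ≥ F - ε/2 for N ≥ N0 gives N pressure N ≥ (N - N0)(F - ε/2) - const.
-/

set_option autoImplicit false

namespace Crest.Agent.H9.MP

open MeasureTheory Crest.ProbabilityR.Diluted Filter

theorem abs_ell_sub_le {p : ℕ} {α : ℝ} (hα : 0 ≤ α) {μ : Measure (Inter p)}
    [IsProbabilityMeasure μ] {ν : Measure ℝ} [IsProbabilityMeasure ν]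
    (hμ : Integrable (fun θ => supNorm θ) μ) (hν : Integrable (fun x : ℝ => x) ν) {N : ℕ}
    (hN : 0 < N) {Φ : ((Fin N → Bool) → ℝ) → ℝ} (hΦ : Good Φ) {C : ℝ}
    (hC : ∀ H, |Φ H - Real.log (∑ s, Real.exp (H s))| ≤ C) :
    |ell p α μ ν N Φ - N * pressure p α μ ν N| ≤ C := by
  haveI : Nonempty (Fin N) := Fin.pos_iff_nonempty.1 hN
  have hμ' : Integrable (fun θ : Inter p => ‖θ‖) μ := by simpa only [supNorm_eq_norm] using hμ
  have hL : Good fun H : (Fin N → Bool) → ℝ => Real.log (∑ s, Real.exp (H s)) := good_logSumExp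
  have e : N * pressure p α μ ν N =
      ell p α μ ν N fun H => Real.log (∑ s, Real.exp (H s)) := by
    unfold pressure ell logPartition
    have : (N : ℝ) ≠ 0 := by positivity
    rw [← mul_assoc, mul_one_div_cancel this, one_mul]
    simp only [Fintype.expect_eq_sum_div_card, div_eq_inv_mul]
  rw [e, CR.ell_eq hμ' hν α N hΦ, CR.ell_eq hμ' hν α N hL]
  obtain ⟨L1, nF⟩ := CR.nice_rF hν N
  have nE : CR.Nice (CR.rE μ N) _ := CR.nice_edge hμ' _
  have l0 : 0 ≤ α * N := by positivity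
  have a := CR.PO_mono l0 nE (CR.Op_good nF hΦ) (CR.Op_good nF hL) (c := C)
    (fun H => CR.Op_mono nF hΦ hL fun d => by linarith [(abs_le.1 (hC (H + d))).2]) 0
  have b := CR.PO_mono l0 nE (CR.Op_good nF hL) (CR.Op_good nF hΦ) (c := C)
    (fun H => CR.Op_mono nF hL hΦ fun d => by linarith [(abs_le.1 (hC (H + d))).1]) 0
  rw [abs_le]; constructor <;> linarith

theorem lower_bound {p : ℕ} (hp : 2 ≤ p) {α : ℝ} (hα : 0 ≤ α) {μ : Measure (Inter p)}
    [IsProbabilityMeasure μ] {ν : Measure ℝ} [IsProbabilityMeasure ν]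
    (hμ : Integrable (fun θ => supNorm θ) μ) (hν : Integrable (fun x : ℝ => x) ν)
    (hfac : Fac p μ) {F : ℝ}
    (hF : ∀ (R : ℕ) (S I : Type) [Fintype S] [Fintype I] [Nonempty I] (K : Ker S)
      (σ : I → List S → Bool), 0 < R → IsKer K → PosSpin R K σ → F ≤ Bfin p α μ ν (eU R) R K σ)
    {ε : ℝ} (hε : 0 < ε) : ∀ᶠ N in atTop, F - ε ≤ pressure p α μ ν N := by
  obtain ⟨Φ, C, hΦ, hC, hc⟩ := cavity_pointwise hp hα hμ hν hF (ε := ε / 4) (by positivity)
  have h1 := cavity_reduction hp hα hμ hν hfac Φ hΦ hc (ε := ε / 4) (by positivity)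
  obtain ⟨N0, hN0⟩ := eventually_atTop.1 h1
  have h2 : ∀ n : ℕ, ell p α μ ν N0 (Φ N0) + n * (F - ε / 2) ≤
      ell p α μ ν (N0 + n) (Φ (N0 + n)) := by
    intro n
    induction n with
    | zero => simp
    | succ n ih =>
      have := hN0 (N0 + n) (by omega)
      rw [← add_assoc]
      push_cast
      linarith
  set K := ell p α μ ν N0 (Φ N0) - C - N0 * (F - ε / 2) with hK
  have h3 : Tendsto (fun N : ℕ => K / (N : ℝ)) atTop (nhds 0) :=
    tendsto_const_div_atTop_nhds_zero_nat K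
  filter_upwards [h3.eventually (le_mem_nhds (show -(ε / 2) < 0 by linarith)),
    eventually_ge_atTop N0, eventually_gt_atTop 0] with N h4 h5 h6
  obtain ⟨n, rfl⟩ := Nat.exists_eq_add_of_le h5
  have h7 := (abs_le.1 (abs_ell_sub_le hα hμ hν h6 (hΦ _) (hC _ h6))).2
  have h8 := h2 n
  have hpos : (0 : ℝ) < ((N0 + n : ℕ) : ℝ) := by exact_mod_cast h6
  rw [le_div_iff₀ hpos] at h4
  refine le_of_mul_le_mul_left ?_ hpos
  push_cast at *
  nlinarith

end Crest.Agent.H9.MP
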