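import Crest.Agent.H9.MP.T7by

/-! MP-T7b, part 3: the operators of the model. -/

set_option autoImplicit false

namespace Crest.Agent.H9.MP.CR

open MeasureTheory Crest.ProbabilityR.Diluted Filter Finset
open scoped BigOperators

variable {p : ℕ} {μ : Measure (Inter p)} [IsProbabilityMeasure μ] {ν : Measure ℝ}
  [IsProbabilityMeasure ν]

/-- The increment of one interaction. -/
def inc {C : Type} (κ : C → Fin p → Bool) (θ : Inter p) : C → ℝ := fun σ => θ (κ σ)

/-- The increment of one field. -/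
def fl {I : Type} (i : I) (h : ℝ) : (I → Bool) → ℝ := fun σ => h * spinVal (σ i)

section
variable {C : Type} [Fintype C]

omit [Fintype C] in
theorem measurable_inc (κ : C → Fin p → Bool) : Measurable (inc κ) :=
  measurable_lift (δ := fun θ : Inter p => θ) κ measurable_id

omit [IsProbabilityMeasure μ] in
theorem integrable_inc (hμ : Integrable (fun θ : Inter p => ‖θ‖) μ) (κ : C → Fin p → Bool) :
    Integrable (fun θ => ‖inc κ θ‖) μ :=
  integrable_lift (δ := fun θ : Inter p => θ) κ measurable_id hμ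

omit [IsProbabilityMeasure μ] in
theorem integral_inc_le (hμ : Integrable (fun θ : Inter p => ‖θ‖) μ) (κ : C → Fin p → Bool) :
    ∫ θ, ‖inc κ θ‖ ∂μ ≤ ∫ θ, ‖θ‖ ∂μ :=
  integral_mono (integrable_inc hμ κ) hμ fun θ => norm_lift_le κ θ

theorem nice_edge (hμ : Integrable (fun θ : Inter p => ‖θ‖) μ) {A : Type} [Fintype A] [Nonempty A]
    (κ : A → C → Fin p → Bool) : Nice (avM μ fun a => inc (κ a)) (∫ θ, ‖θ‖ ∂μ) :=
  nice_avM (fun _ => measurable_inc _) (fun _ => integrable_inc hμ _) fun _ => integral_inc_le hμ _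

end

theorem measurable_fl {I : Type} (i : I) : Measurable (fl i) :=
  measurable_pi_lambda _ fun _ => measurable_id.mul_const _

theorem norm_fl_le {I : Type} [Fintype I] [DecidableEq I] (i : I) (h : ℝ) : ‖fl i h‖ ≤ ‖h‖ := by
  refine (pi_norm_le_iff_of_nonneg (norm_nonneg h)).2 fun σ => ?_
  unfold fl spinVal
  split_ifs <;> simp

omit [IsProbabilityMeasure ν] in
theorem integrable_fl {I : Type} [Fintype I] [DecidableEq I] (hν : Integrable (fun x : ℝ => x) ν)
    (i : I) : Integrable (fun h => ‖fl i h‖) ν :=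
  hν.norm.mono' (measurable_fl i).norm.aestronglyMeasurable
    (Eventually.of_forall fun h => by rw [norm_norm]; exact norm_fl_le i h)

/-- Reading the spins at the sites `a`. -/
def kE {N : ℕ} (a : Fin p → Fin N) (σ : Fin N → Bool) : Fin p → Bool := fun ℓ => σ (a ℓ)

/-- Reading the new spin in the last slot. -/
def k1 {N : ℕ} (i : Fin (p - 1) → Fin N) (σ : Fin (N + 1) → Bool) : Fin p → Bool :=
  snocS (fun ℓ => σ (i ℓ).castSucc) (σ (Fin.last N))

/-- Restriction to the old spins. -/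
def rs {N : ℕ} (σ : Fin (N + 1) → Bool) : Fin N → Bool := fun v => σ v.castSucc

/-- One interaction. -/
noncomputable def rE (μ : Measure (Inter p)) (N : ℕ) : Measure ((Fin N → Bool) → ℝ) :=
  avM μ fun a : Fin p → Fin N => inc (kE a)

/-- One interaction among the old spins. -/
noncomputable def r0 (μ : Measure (Inter p)) (N : ℕ) : Measure ((Fin (N + 1) → Bool) → ℝ) :=
  avM μ fun a : Fin p → Fin N => inc fun σ => kE a (rs σ)

/-- One interaction with the new spin in the last slot. -/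
noncomputable def r1 (μ : Measure (Inter p)) (N : ℕ) : Measure ((Fin (N + 1) → Bool) → ℝ) :=
  avM μ fun i : Fin (p - 1) → Fin N => inc (k1 i)

/-- The field. -/
noncomputable def rF (ν : Measure ℝ) (N : ℕ) : Measure ((Fin N → Bool) → ℝ) :=
  sumM ν fun i : Fin N => fl i

/-- The field of the old spins. -/
noncomputable def rF0 (ν : Measure ℝ) (N : ℕ) : Measure ((Fin (N + 1) → Bool) → ℝ) :=
  sumM ν fun i : Fin N => fl ((Fin.last N).succAbove i)

/-- The field of the new spin. -/
noncomputable def rF1 (ν : Measure ℝ) (N : ℕ) : Measure ((Fin (N + 1) → Bool) → ℝ) :=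
  ν.map (fl (Fin.last N))

theorem nice_rF (hν : Integrable (fun x : ℝ => x) ν) (N : ℕ) : ∃ L, Nice (rF ν N) L :=
  ⟨_, nice_sumM (fun _ => measurable_fl _) fun _ => integrable_fl hν _⟩

theorem nice_rF0 (hν : Integrable (fun x : ℝ => x) ν) (N : ℕ) : ∃ L, Nice (rF0 ν N) L :=
  ⟨_, nice_sumM (fun _ => measurable_fl _) fun _ => integrable_fl hν _⟩

theorem nice_rF1 (hν : Integrable (fun x : ℝ => x) ν) (N : ℕ) : ∃ L, Nice (rF1 ν N) L :=
  ⟨_, nice_map (measurable_fl _) (integrable_fl hν _) le_rfl⟩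

theorem Op_rF_succ (hν : Integrable (fun x : ℝ => x) ν) (N : ℕ)
    {Φ : ((Fin (N + 1) → Bool) → ℝ) → ℝ} (hΦ : Good Φ) :
    Op (rF ν (N + 1)) Φ = Op (rF1 ν N) (Op (rF0 ν N) Φ) :=
  Op_sumM_succ (fun _ => measurable_fl _) (fun _ => integrable_fl hν _) (Fin.last N) hΦ

omit [IsProbabilityMeasure ν] in
theorem lifts_rF (N : ℕ) : Lifts rs (rF0 ν N) (rF ν N) := by
  have := lifts_map (P := Measure.pi fun _ : Fin N => ν) (rs (N := N))
    (measurable_sum (δ := fun i : Fin N => fl i) fun _ => measurable_fl _)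
  have e : rF0 ν N = (Measure.pi fun _ : Fin N => ν).map
      fun x s => (∑ k : Fin N, fl k (x k)) (rs s) := by
    unfold rF0 sumM
    congr 1
    funext hs σ
    simp [Finset.sum_apply, fl, rs]
  rw [e]
  exact this

theorem lifts_rE (hμ : Integrable (fun θ : Inter p => ‖θ‖) μ) (N : ℕ) [Nonempty (Fin N)] :
    Lifts rs (r0 μ N) (rE μ N) :=
  lifts_avM rs (δ := fun a : Fin p → Fin N => inc (kE a)) (fun _ => measurable_inc _)
    fun _ => integrable_inc hμ _

theorem ell_eq (hμ : Integrable (fun θ : Inter p => ‖θ‖) μ) (hν : Integrable (fun x : ℝ => x) ν)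
    (α : ℝ) (N : ℕ) [Nonempty (Fin N)] {Φ : ((Fin N → Bool) → ℝ) → ℝ} (hΦ : Good Φ) :
    ell p α μ ν N Φ = PO (α * N) (rE μ N) (Op (rF ν N) Φ) 0 := by
  unfold ell PO rE rF sumM
  refine tsum_congr fun M => ?_
  rw [iter_avM_map (fun _ => measurable_inc _) (fun _ => integrable_inc hμ _)
    (measurable_sum (δ := fun i : Fin N => fl i) fun _ => measurable_fl _)
    (integrable_sum (δ := fun i : Fin N => fl i) (fun _ => measurable_fl _)
      fun _ => integrable_fl hν _) hΦ]
  congr 1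
  refine integral_congr_ae (Eventually.of_forall fun θs => ?_)
  refine integral_congr_ae (Eventually.of_forall fun hs => ?_)
  refine Finset.expect_congr rfl fun idx _ => ?_
  congr 1
  funext σ
  simp only [Pi.add_apply, Pi.zero_apply, zero_add, Finset.sum_apply, inc, fl]
  rfl

theorem siteAvg_eq (hμ : Integrable (fun θ : Inter p => ‖θ‖) μ)
    (hν : Integrable (fun x : ℝ => x) ν) (α : ℝ) (N : ℕ) [Nonempty (Fin N)]
    {Φ : ((Fin (N + 1) → Bool) → ℝ) → ℝ} (hΦ : Good Φ) (H : (Fin N → Bool) → ℝ) :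
    siteAvg p α μ ν N Φ H = PO (α * p) (r1 μ N) (Op (rF1 ν N) Φ) fun σ => H (rs σ) := by
  unfold siteAvg PO r1 rF1
  refine tsum_congr fun M => ?_
  rw [iter_avM_map (fun _ => measurable_inc _) (fun _ => integrable_inc hμ _)
    (measurable_fl _) (integrable_fl hν _) hΦ]
  congr 1
  refine integral_congr_ae (Eventually.of_forall fun θs => ?_)
  refine integral_congr_ae (Eventually.of_forall fun h => ?_)
  refine Fintype.expect_equiv (Equiv.curry _ _ _) _ _ fun i => ?_
  congr 1
  funext σ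
  simp only [Pi.add_apply, Finset.sum_apply, inc, k1, fl, Equiv.curry_apply, Function.curry]
  unfold rs
  ring

theorem edgeAvg_eq (hμ : Integrable (fun θ : Inter p => ‖θ‖) μ) (α : ℝ) (N : ℕ)
    [Nonempty (Fin N)] {Φ : ((Fin N → Bool) → ℝ) → ℝ} (hΦ : Good Φ) (H : (Fin N → Bool) → ℝ) :
    edgeAvg p α μ N Φ H = PO (α * (p - 1)) (rE μ N) Φ H := by
  unfold edgeAvg PO rE
  refine tsum_congr fun M => ?_
  rw [iter_avM' (fun _ => measurable_inc _) (fun _ => integrable_inc hμ _) hΦ]
  congr 1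
  refine integral_congr_ae (Eventually.of_forall fun θs => ?_)
  refine Fintype.expect_equiv (Equiv.curry _ _ _) _ _ fun i => ?_
  congr 1
  funext σ
  simp only [Pi.add_apply, Finset.sum_apply, inc, Equiv.curry_apply]
  rfl

theorem abs_sum_sub_sum_le {A B : Type} [Fintype A] [Fintype B] {J : B → A}
    (hJ : Function.Injective J) {G : A → ℝ} {c : ℝ} (hG : ∀ a, |G a| ≤ c) :
    |∑ a, G a - ∑ b, G (J b)| ≤ c * (Fintype.card A - Fintype.card B : ℝ) := by
  classical
  have e1 : ∑ b, G (J b) = ∑ a ∈ univ.map ⟨J, hJ⟩, G a := by rw [Finset.sum_map]; rfl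
  have e2 := Finset.sum_compl_add_sum (univ.map ⟨J, hJ⟩) G
  have e3 : (((univ.map ⟨J, hJ⟩)ᶜ : Finset A).card : ℝ) = Fintype.card A - Fintype.card B := by
    have := Finset.card_compl_add_card (univ.map ⟨J, hJ⟩)
    rw [Finset.card_map, Finset.card_univ] at this
    rw [← this]; push_cast; ring
  rw [e1, ← e2, add_sub_cancel_right, ← e3, mul_comm]
  refine (Finset.abs_sum_le_sum_abs _ _).trans ?_
  simpa using Finset.sum_le_card_nsmul _ _ c fun a _ => hG a

/-- The sites of an interaction with the new spin in the last slot. -/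
def aL {N : ℕ} (i : Fin (p - 1) → Fin N) : Fin p → Fin (N + 1) :=
  fun ℓ => if h : ℓ.val < p - 1 then (i ⟨ℓ.val, h⟩).castSucc else Fin.last N

theorem kE_aL {N : ℕ} (i : Fin (p - 1) → Fin N) : kE (aL i) = k1 i := by
  funext σ ℓ
  unfold kE aL k1 snocS
  split_ifs <;> rfl

theorem aL_eq_last {N : ℕ} (hp : 0 < p) (i : Fin (p - 1) → Fin N) (ℓ : Fin p) :
    aL i ℓ = Fin.last N ↔ ℓ = ⟨p - 1, by omega⟩ := by
  unfold aL
  split_ifs with h
  · simp only [Fin.castSucc_ne_last, false_iff]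
    rintro rfl
    simp at h
  · simp only [true_iff]
    exact Fin.ext (by have := ℓ.isLt; simp only; omega)

theorem aL_injective {N : ℕ} : Function.Injective (aL (p := p) (N := N)) := by
  intro i i' h
  funext ℓ
  have := congrFun h ⟨ℓ.val, by have := ℓ.isLt; omega⟩
  simpa [aL, ℓ.isLt] using this

/-- Index tuples with at most one slot at the new spin. -/
def JJ {N : ℕ} (hp : 0 < p) :
    (Fin p → Fin N) ⊕ (Fin p × (Fin (p - 1) → Fin N)) → Fin p → Fin (N + 1)
  | .inl a => fun ℓ => (a ℓ).castSucc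
  | .inr w => fun ℓ => aL w.2 (Equiv.swap w.1 ⟨p - 1, by omega⟩ ℓ)

theorem JJ_inr_last {N : ℕ} (hp : 0 < p) (w : Fin p × (Fin (p - 1) → Fin N)) (ℓ : Fin p) :
    JJ hp (.inr w) ℓ = Fin.last N ↔ ℓ = w.1 := by
  simp only [JJ, aL_eq_last hp, ← Equiv.eq_symm_apply, Equiv.symm_swap,
    Equiv.swap_apply_right]

theorem JJ_injective {N : ℕ} (hp : 0 < p) : Function.Injective (JJ (N := N) hp) := by
  rintro (a | w) (a' | w') h
  · congr 1
    funext ℓ
    exact Fin.castSucc_injective _ (congrFun h ℓ)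
  · have := (JJ_inr_last hp w' w'.1).2 rfl
    rw [← h] at this
    exact absurd this (Fin.castSucc_ne_last _)
  · have := (JJ_inr_last hp w w.1).2 rfl
    rw [h] at this
    exact absurd this (Fin.castSucc_ne_last _)
  · have e1 : w.1 = w'.1 := by
      have := (JJ_inr_last hp w w.1).2 rfl
      rw [h] at this
      exact (JJ_inr_last hp w' w.1).1 this
    have e2 : w.2 = w'.2 := by
      apply aL_injective
      funext ℓ
      have := congrFun h (Equiv.swap w.1 ⟨p - 1, by omega⟩ ℓ)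
      simpa only [JJ, ← e1, Equiv.swap_apply_self] using this
    rw [Prod.ext e1 e2]

theorem mix (hp : 0 < p) (hμ : Integrable (fun θ : Inter p => ‖θ‖) μ) (hfac : Fac p μ) (N : ℕ)
    [Nonempty (Fin N)] (Φ : ((Fin (N + 1) → Bool) → ℝ) → ℝ) (hΦ : Good Φ)
    (H : (Fin (N + 1) → Bool) → ℝ) :
    |Op (rE μ (N + 1)) Φ H - (((N : ℝ) / (N + 1)) ^ p * Op (r0 μ N) Φ H +
      (1 - ((N : ℝ) / (N + 1)) ^ p) * Op (r1 μ N) Φ H)| ≤
      2 * (∫ θ, ‖θ‖ ∂μ) * ((((N : ℝ) + 1) ^ p - (N ^ p + p * N ^ (p - 1))) / (N + 1) ^ p) := by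
  set L := ∫ θ, ‖θ‖ ∂μ
  set g : (Fin p → Fin (N + 1)) → ℝ := fun a => Op (μ.map (inc (kE a))) Φ H with hg
  have e' : Op (rE μ (N + 1)) Φ H = 𝔼 a, g a :=
    Op_avM (fun _ => measurable_inc _) (fun _ => integrable_inc hμ _) hΦ H
  have e0 : Op (r0 μ N) Φ H = 𝔼 a : Fin p → Fin N, g fun ℓ => (a ℓ).castSucc :=
    Op_avM (fun _ => measurable_inc _) (fun _ => integrable_inc hμ _) hΦ H
  have e1 : Op (r1 μ N) Φ H = 𝔼 i : Fin (p - 1) → Fin N, g (aL i) := by
    simp only [hg, kE_aL]
    exact Op_avM (fun _ => measurable_inc _) (fun _ => integrable_inc hμ _) hΦ H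
  have hperm : ∀ (a : Fin p → Fin (N + 1)) (π : Equiv.Perm (Fin p)),
      g (fun ℓ => a (π ℓ)) = g a := by
    intro a π
    simp only [hg]
    rw [Op_map (measurable_inc _) hΦ, Op_map (measurable_inc _) hΦ]
    have gd : Good fun θ : Inter p => Φ (H + inc (kE a) θ) := by
      intro θ θ' c hc
      refine hΦ _ _ c fun s => ?_
      have := hc (kE a s)
      simp only [Pi.add_apply, inc]
      linarith
    exact Fac.integral_perm (by simpa only [supNorm_eq_norm] using hμ) hfac gd π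
  set m1 := Op (r1 μ N) Φ H
  set m0 := Op (r0 μ N) Φ H
  have hG : ∀ a, |g a - m1| ≤ 2 * L := by
    intro a
    have x := Op_sub_le (nice_map (measurable_inc (kE a)) (integrable_inc hμ _)
      (integral_inc_le hμ _)) hΦ H
    have y := Op_sub_le (nice_edge hμ fun i : Fin (p - 1) → Fin N => k1 i) hΦ H
    have z := abs_sub_le (g a) (Φ H) m1
    rw [abs_sub_comm] at y
    have x' : |g a - Φ H| ≤ L := x
    have y' : |Φ H - m1| ≤ L := y
    linarith
  have key := abs_sum_sub_sum_le (JJ_injective (N := N) hp) hG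
  have hN : (0 : ℝ) < N := by
    have := Fin.pos_iff_nonempty.2 ‹Nonempty (Fin N)›
    exact_mod_cast this
  rw [Fintype.expect_eq_sum_div_card] at e' e0 e1
  simp only [Fintype.card_pi, Finset.prod_const, Finset.card_univ, Fintype.card_fin, Nat.cast_pow,
    Nat.cast_add, Nat.cast_one] at e' e0 e1
  rw [eq_div_iff (by positivity)] at e' e0 e1
  simp only [Fintype.sum_sum_type, Fintype.sum_prod_type, JJ, hperm, Finset.sum_sub_distrib,
    ← e', ← e0, ← e1, Finset.sum_const, Finset.card_univ, Fintype.card_pi, Finset.prod_const,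
    Fintype.card_fin, nsmul_eq_mul, Fintype.card_sum, Fintype.card_prod, Nat.cast_pow,
    Nat.cast_add, Nat.cast_one, Nat.cast_mul] at key
  have hpos : (0 : ℝ) < (N + 1) ^ p := by positivity
  rw [← mul_div_assoc, le_div_iff₀ hpos, ← abs_of_pos hpos, ← abs_mul, abs_of_pos hpos]
  refine le_trans (le_of_eq ?_) key
  congr 1
  rw [div_pow]
  field_simp
  ring

end Crest.Agent.H9.MP.CR
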