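import Crest.Agent.H9.MP.T7a
import Crest.Agent.H9.MP.Poi
import Crest.Agent.H9.MP.T7bz

/-! MP-T7b: reduction of the increment `ell (N+1) - ell N` to a pointwise cavity estimate. -/

/-
Sketch. Operators on good functionals of V_N = (Fin N → Bool) → ℝ: Op ρ Φ H = ∫ Φ (H + δ) dρ for a probability ρ with ∫‖δ‖ < ∞ (or ∫ θ avg_a Φ(H + inc θ a)): preserves Good, monotone up to constants,
|Op Φ - Φ| ≤ L, two such commute; ell = Σ Poi(αN) M (E^M (Fld Φ)) 0 (peel Measure.pi one coordinate at a time). On N+1 spins the edge operator E' = q0 E0 + q1 E1 + q2 E2 by the number of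
slots at the new spin (0, 1, ≥ 2): q0 = (N/(N+1))^p, q2 = O(N^-2), E1 = new spin in the last slot (Fac.integral_perm). E'' = q0 E0 + (1-q0) E1: |E'^n Φ - E''^n Φ| ≤ 2 n q2 L;
binomial expansion + poi_thin: Poi(λ0) E0-steps, Poi(λ1) E1-steps, λ0 = α(N+1) q0 ≤ αN, λ1 → αp, αN - λ0 → α(p-1) (poi_lip, poi_add). E0 and the field of the first N spins act through
lift H = H ∘ init. So ell (N+1) = P(λ0) Fld (siteAvg) 0 + o(1), ell N = P(λ0) Fld (edgeAvg) 0 + o(1); monotonicity finishes.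
-/

set_option autoImplicit false

namespace Crest.Agent.H9.MP

open MeasureTheory Crest.ProbabilityR.Diluted Filter

namespace CR

open Finset

theorem incr_ge {p : ℕ} (hp : 2 ≤ p) {α : ℝ} (hα : 0 ≤ α) {μ : Measure (Inter p)}
    [IsProbabilityMeasure μ] {ν : Measure ℝ} [IsProbabilityMeasure ν]
    (hμ : Integrable (fun θ : Inter p => ‖θ‖) μ) (hν : Integrable (fun x : ℝ => x) ν)
    (hfac : Fac p μ) {N : ℕ} (hN : 0 < N) {Φ : ((Fin N → Bool) → ℝ) → ℝ} (hΦ : Good Φ)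
    {Φ' : ((Fin (N + 1) → Bool) → ℝ) → ℝ} (hΦ' : Good Φ') {c : ℝ}
    (hc : ∀ H, c ≤ siteAvg p α μ ν N Φ' H - edgeAvg p α μ N Φ H) :
    c - 2 * α * (∫ θ, ‖θ‖ ∂μ) * ((∑ j ∈ range p, ((N : ℝ) / (N + 1)) ^ j -
        p * ((N : ℝ) / (N + 1)) ^ (p - 1)) + |∑ j ∈ range p, ((N : ℝ) / (N + 1)) ^ j - p|) ≤
      ell p α μ ν (N + 1) Φ' - ell p α μ ν N Φ := by
  haveI : Nonempty (Fin N) := Fin.pos_iff_nonempty.1 hN
  set L := ∫ θ, ‖θ‖ ∂μ with hL
  set x : ℝ := (N : ℝ) / (N + 1) with hx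
  set S := ∑ j ∈ range p, x ^ j with hS
  have hN' : (0 : ℝ) < N := by exact_mod_cast hN
  have x0 : 0 ≤ x := by positivity
  have x1 : x ≤ 1 := by rw [hx, div_le_one (by positivity)]; linarith
  have hp' : (2 : ℝ) ≤ p := by exact_mod_cast hp
  obtain ⟨q, rfl⟩ : ∃ q, p = q + 1 := ⟨p - 1, by omega⟩
  have gx : (1 - x) * (N + 1) = 1 := by rw [hx]; field_simp; ring
  have gS : (1 - x ^ (q + 1)) * (N + 1) = S := by
    rw [← mul_neg_geom_sum, ← hS]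
    linear_combination S * gx
  have gx' : x * (N + 1) = N := by linarith
  have nE : Nice (rE μ N) L := nice_edge hμ _
  have nE' : Nice (rE μ (N + 1)) L := nice_edge hμ _
  have n0 : Nice (r0 μ N) L := nice_edge hμ _
  have n1 : Nice (r1 μ N) L := nice_edge hμ _
  obtain ⟨L1, nF⟩ := nice_rF hν N
  obtain ⟨L2, nF'⟩ := nice_rF hν (N + 1)
  obtain ⟨L3, nF0⟩ := nice_rF0 hν N
  obtain ⟨L4, nF1⟩ := nice_rF1 hν N
  have L0 := nE.nonneg
  have a1 : 0 ≤ α * ((q + 1 : ℕ) : ℝ) := by positivity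
  have a2 : 0 ≤ α * (((q + 1 : ℕ) : ℝ) - 1) := mul_nonneg hα (by linarith)
  have t1 := PO_thin nE' n0 n1 (pow_nonneg x0 _) (pow_le_one₀ x0 x1)
    (mix (by omega) hμ hfac N) (Λ := α * ((N + 1 : ℕ) : ℝ)) (by positivity) a1
    (Op_good nF' hΦ') 0
  have t2 := PO_thin nE nE nE (q := x ^ q) (η := 0) (pow_nonneg x0 _) (pow_le_one₀ x0 x1)
    (fun Ψ _ H => by rw [abs_nonpos_iff]; ring) (Λ := α * N) (by positivity) a2
    (Op_good nF hΦ) 0
  rw [← ell_eq hμ hν α _ hΦ'] at t1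
  rw [← ell_eq hμ hν α _ hΦ] at t2
  have el : x ^ (q + 1) * (α * ((N + 1 : ℕ) : ℝ)) = x ^ q * (α * N) := by
    push_cast
    linear_combination (α * x ^ q) * gx'
  have l0 : 0 ≤ x ^ q * (α * N) := by positivity
  have gsite := PO_good a1 n1 (Op_good nF1 hΦ')
  have gedge := PO_good a2 nE hΦ
  have u1 : PO (x ^ q * (α * N)) (r0 μ N) (PO (α * ((q + 1 : ℕ) : ℝ)) (r1 μ N)
      (Op (rF ν (N + 1)) Φ')) 0 = PO (x ^ q * (α * N)) (rE μ N) (Op (rF ν N) fun H =>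
        PO (α * ((q + 1 : ℕ) : ℝ)) (r1 μ N) (Op (rF1 ν N) Φ') fun σ => H (rs σ)) 0 := by
    rw [Op_rF_succ hν N hΦ', Op_comm nF1 nF0 hΦ', ← Op_PO a1 n1 nF0 (Op_good nF1 hΦ')]
    have := (lifts_rE hμ N).PO n0 (Op_good nF0 gsite) (x ^ q * (α * N)) 0
    refine this.trans ?_
    congr 1
    funext H
    exact lifts_rF N _ gsite H
  rw [el, u1] at t1
  rw [← Op_PO a2 nE nF hΦ] at t2
  have u2 := PO_mono l0 nE (Op_good nF gedge) (Op_good nF (good_comp gsite rs)) (c := -c)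
    (fun H => Op_mono nF gedge (good_comp gsite rs) fun d => by
      have := hc (H + d)
      rw [siteAvg_eq hμ hν α N hΦ', edgeAvg_eq hμ α N hΦ] at this
      linarith) 0
  have b1 : (1 - x ^ (q + 1)) * (α * ((N + 1 : ℕ) : ℝ)) - α * ((q + 1 : ℕ) : ℝ) =
      α * (S - ((q + 1 : ℕ) : ℝ)) := by
    push_cast
    linear_combination α * gS
  have b2 : (1 - x ^ q) * (α * N) - α * (((q + 1 : ℕ) : ℝ) - 1) = α * (S - ((q + 1 : ℕ) : ℝ)) := by
    push_cast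
    linear_combination α * gS + (α * x ^ q) * gx'
  have b3 : 2 * L * ((((N : ℝ) + 1) ^ (q + 1) - (N ^ (q + 1) + ((q + 1 : ℕ) : ℝ) *
      N ^ (q + 1 - 1))) / (N + 1) ^ (q + 1)) * (α * ((N + 1 : ℕ) : ℝ)) =
      2 * α * L * (S - ((q + 1 : ℕ) : ℝ) * x ^ (q + 1 - 1)) := by
    rw [← gS, hx, div_pow, div_pow, Nat.add_sub_cancel]
    push_cast
    field_simp
    ring
  rw [b1, b3, abs_mul, abs_of_nonneg hα] at t1
  rw [b2, abs_mul, abs_of_nonneg hα] at t2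
  have := (abs_le.1 t1).1
  have := (abs_le.1 t2).2
  nlinarith

end CR

theorem cavity_reduction {p : ℕ} (hp : 2 ≤ p) {α : ℝ} (hα : 0 ≤ α) {μ : Measure (Inter p)}
    [IsProbabilityMeasure μ] {ν : Measure ℝ} [IsProbabilityMeasure ν]
    (hμ : Integrable (fun θ => supNorm θ) μ) (hν : Integrable (fun x : ℝ => x) ν)
    (hfac : Fac p μ) (Φ : (N : ℕ) → ((Fin N → Bool) → ℝ) → ℝ) (hΦ : ∀ N, Good (Φ N)) {c : ℝ}
    (hc : ∀ᶠ N in atTop, ∀ H, c ≤ siteAvg p α μ ν N (Φ (N + 1)) H - edgeAvg p α μ N (Φ N) H)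
    {ε : ℝ} (hε : 0 < ε) :
    ∀ᶠ N in atTop, c - ε ≤ ell p α μ ν (N + 1) (Φ (N + 1)) - ell p α μ ν N (Φ N) := by
  have hμ' : Integrable (fun θ : Inter p => ‖θ‖) μ := by simpa only [supNorm_eq_norm] using hμ
  have hx : Tendsto (fun N : ℕ => (N : ℝ) / (N + 1)) atTop (nhds 1) :=
    tendsto_natCast_div_add_atTop (1 : ℝ)
  have hS : Tendsto (fun N : ℕ => ∑ j ∈ Finset.range p, ((N : ℝ) / (N + 1)) ^ j) atTop (nhds p) := by
    have := tendsto_finset_sum (Finset.range p) fun j _ => hx.pow j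
    simpa using this
  have h1 := (((hS.sub ((hx.pow (p - 1)).const_mul (p : ℝ))).add
    (hS.sub_const (p : ℝ)).abs).const_mul (2 * α * ∫ θ, ‖θ‖ ∂μ))
  simp only [one_pow, mul_one, sub_self, abs_zero, add_zero, mul_zero] at h1
  filter_upwards [hc, h1.eventually (ge_mem_nhds hε), eventually_gt_atTop 0] with N h2 h3 h4
  have := CR.incr_ge hp hα hμ' hν hfac h4 (hΦ N) (hΦ (N + 1)) h2
  linarith

end Crest.Agent.H9.MP
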