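import Crest.Agent.H9.MP.T7a
import Crest.Agent.H9.MP.Poi

/-! MP-T7b, part 1: averaging operators on good functionals. -/

set_option autoImplicit false

namespace Crest.Agent.H9.MP.CR

open MeasureTheory Crest.ProbabilityR.Diluted Filter Finset

variable {C : Type} [Fintype C]

theorem good_lip {Φ : (C → ℝ) → ℝ} (h : Good Φ) (H d : C → ℝ) : |Φ (H + d) - Φ H| ≤ ‖d‖ := by
  refine h.abs_sub_le fun s => ?_
  have := norm_le_pi_norm d s
  simpa using this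

omit [Fintype C] in
theorem good_conv {Φ Ψ : (C → ℝ) → ℝ} (h : Good Φ) (h' : Good Ψ) {q : ℝ} (h0 : 0 ≤ q)
    (h1 : q ≤ 1) : Good fun H => q * Φ H + (1 - q) * Ψ H := by
  intro H H' c hc
  have a := h H H' c hc
  have b := h' H H' c hc
  have a' := mul_le_mul_of_nonneg_left a h0
  have b' := mul_le_mul_of_nonneg_left b (sub_nonneg.2 h1)
  nlinarith

omit [Fintype C] in
theorem good_comp {C' : Type} {Φ : (C' → ℝ) → ℝ} (h : Good Φ) (r : C' → C) :
    Good fun H : C → ℝ => Φ fun s => H (r s) :=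
  fun H H' c hc => h _ _ c fun s => hc (r s)

/-- Probability measures on Hamiltonians with first moment at most `L`. -/
structure Nice (ρ : Measure (C → ℝ)) (L : ℝ) : Prop where
  prob : IsProbabilityMeasure ρ
  int : Integrable (fun d => ‖d‖) ρ
  le : ∫ d, ‖d‖ ∂ρ ≤ L

theorem Nice.nonneg {ρ : Measure (C → ℝ)} {L : ℝ} (h : Nice ρ L) : 0 ≤ L :=
  (integral_nonneg fun d => norm_nonneg d).trans h.le

theorem Nice.mono {ρ : Measure (C → ℝ)} {L L' : ℝ} (h : Nice ρ L) (hL : L ≤ L') : Nice ρ L' :=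
  ⟨h.prob, h.int, h.le.trans hL⟩

/-- The averaging operator. -/
noncomputable def Op (ρ : Measure (C → ℝ)) (Φ : (C → ℝ) → ℝ) (H : C → ℝ) : ℝ :=
  ∫ d, Φ (H + d) ∂ρ

variable {ρ ρ' ρ0 ρ1 : Measure (C → ℝ)} {L L' : ℝ} {Φ Ψ : (C → ℝ) → ℝ}

theorem Nice.integrable (h : Nice ρ L) (hΦ : Good Φ) (H : C → ℝ) :
    Integrable (fun d => Φ (H + d)) ρ := by
  haveI := h.prob
  refine Integrable.mono' ((integrable_const |Φ H|).add h.int)
    (hΦ.continuous.comp (continuous_const.add continuous_id)).aestronglyMeasurable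
    (Eventually.of_forall fun d => ?_)
  have := good_lip hΦ H d
  have h2 := abs_sub_abs_le_abs_sub (Φ (H + d)) (Φ H)
  simp only [Real.norm_eq_abs, Pi.add_apply]
  linarith

theorem Op_mono (h : Nice ρ L) (hΦ : Good Φ) (hΨ : Good Ψ) {c : ℝ} {H H' : C → ℝ}
    (hc : ∀ d, Φ (H + d) ≤ Ψ (H' + d) + c) : Op ρ Φ H ≤ Op ρ Ψ H' + c := by
  haveI := h.prob
  have := integral_mono (h.integrable hΦ H) ((h.integrable hΨ H').add (integrable_const c))
    (fun d => hc d)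
  simp only [Pi.add_apply] at this
  rw [integral_add (h.integrable hΨ H') (integrable_const c)] at this
  simpa [Op] using this

theorem Op_good (h : Nice ρ L) (hΦ : Good Φ) : Good (Op ρ Φ) := by
  intro H H' c hc
  refine Op_mono h hΦ hΦ fun d => hΦ _ _ c fun s => ?_
  have := hc s
  simp only [Pi.add_apply]
  linarith

theorem Op_sub_le (h : Nice ρ L) (hΦ : Good Φ) (H : C → ℝ) : |Op ρ Φ H - Φ H| ≤ L := by
  haveI := h.prob
  have e : Op ρ Φ H - Φ H = ∫ d, (Φ (H + d) - Φ H) ∂ρ := by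
    rw [integral_sub (h.integrable hΦ H) (integrable_const _)]
    simp [Op]
  rw [e]
  refine le_trans ?_ h.le
  have := norm_integral_le_of_norm_le (f := fun d => Φ (H + d) - Φ H) h.int
    (Eventually.of_forall fun d => by simpa using good_lip hΦ H d)
  simpa using this

theorem Op_comm (h : Nice ρ L) (h' : Nice ρ' L') (hΦ : Good Φ) :
    Op ρ (Op ρ' Φ) = Op ρ' (Op ρ Φ) := by
  haveI := h.prob
  haveI := h'.prob
  funext H
  unfold Op
  have hi : Integrable (Function.uncurry fun d d' : C → ℝ => Φ (H + d + d')) (ρ.prod ρ') := by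
    refine Integrable.mono' (g := fun w => |Φ H| + (‖w.1‖ + ‖w.2‖))
      ((integrable_const _).add ((h.int.comp_fst ρ').add (h'.int.comp_snd ρ)))
      (hΦ.continuous.comp ((continuous_const.add continuous_fst).add
        continuous_snd)).aestronglyMeasurable (Eventually.of_forall fun w => ?_)
    have := good_lip hΦ H (w.1 + w.2)
    have h2 := abs_sub_abs_le_abs_sub (Φ (H + (w.1 + w.2))) (Φ H)
    have h3 := norm_add_le w.1 w.2
    simp only [Real.norm_eq_abs, Function.uncurry, add_assoc]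
    linarith
  rw [integral_integral_swap hi]
  simp only [add_right_comm]

theorem Op_lin (h : Nice ρ L) (hΦ : Good Φ) (hΨ : Good Ψ) (a b : ℝ) :
    Op ρ (fun H => a * Φ H + b * Ψ H) = fun H => a * Op ρ Φ H + b * Op ρ Ψ H := by
  funext H
  unfold Op
  rw [integral_add ((h.integrable hΦ H).const_mul a) ((h.integrable hΨ H).const_mul b),
    integral_const_mul, integral_const_mul]

theorem iter_good (h : Nice ρ L) (hΦ : Good Φ) (n : ℕ) : Good ((Op ρ)^[n] Φ) := by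
  induction n with
  | zero => exact hΦ
  | succ n ih => rw [Function.iterate_succ_apply']; exact Op_good h ih

theorem iter_mono (h : Nice ρ L) (hΦ : Good Φ) (hΨ : Good Ψ) {c : ℝ}
    (hc : ∀ H, Φ H ≤ Ψ H + c) (n : ℕ) (H : C → ℝ) :
    (Op ρ)^[n] Φ H ≤ (Op ρ)^[n] Ψ H + c := by
  induction n generalizing H with
  | zero => exact hc H
  | succ n ih =>
    rw [Function.iterate_succ_apply', Function.iterate_succ_apply']
    exact Op_mono h (iter_good h hΦ n) (iter_good h hΨ n) fun d => ih _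

theorem iter_abs (h : Nice ρ L) (hΦ : Good Φ) (hΨ : Good Ψ) {c : ℝ}
    (hc : ∀ H, |Φ H - Ψ H| ≤ c) (n : ℕ) (H : C → ℝ) :
    |(Op ρ)^[n] Φ H - (Op ρ)^[n] Ψ H| ≤ c := by
  have a := iter_mono h hΦ hΨ (c := c) (fun H => by linarith [(abs_le.1 (hc H)).2]) n H
  have b := iter_mono h hΨ hΦ (c := c) (fun H => by linarith [(abs_le.1 (hc H)).1]) n H
  rw [abs_le]; constructor <;> linarith

theorem iter_succ_sub_le (h : Nice ρ L) (hΦ : Good Φ) (n : ℕ) (H : C → ℝ) :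
    |(Op ρ)^[n + 1] Φ H - (Op ρ)^[n] Φ H| ≤ L := by
  rw [Function.iterate_succ_apply']
  exact Op_sub_le h (iter_good h hΦ n) H

theorem iter_sub_le (h : Nice ρ L) (hΦ : Good Φ) (n : ℕ) (H : C → ℝ) :
    |(Op ρ)^[n] Φ H - Φ H| ≤ n * L := by
  induction n with
  | zero => simp
  | succ n ih =>
    have := iter_succ_sub_le h hΦ n H
    have h2 := abs_sub_le ((Op ρ)^[n + 1] Φ H) ((Op ρ)^[n] Φ H) (Φ H)
    push_cast
    linarith

theorem iter_bound (h : Nice ρ L) (hΦ : Good Φ) (H : C → ℝ) (n : ℕ) :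
    |(Op ρ)^[n] Φ H| ≤ (|Φ H| + L) * (1 + n) := by
  have := iter_sub_le h hΦ n H
  have h2 := abs_sub_abs_le_abs_sub ((Op ρ)^[n] Φ H) (Φ H)
  have h3 := h.nonneg
  have h4 : (0 : ℝ) ≤ |Φ H| * n := by positivity
  nlinarith

theorem iter_comm (h : Nice ρ L) (h' : Nice ρ' L') (hΦ : Good Φ) (n : ℕ) :
    (Op ρ)^[n] (Op ρ' Φ) = Op ρ' ((Op ρ)^[n] Φ) := by
  induction n with
  | zero => rfl
  | succ n ih =>
    rw [Function.iterate_succ_apply', Function.iterate_succ_apply', ih,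
      Op_comm h h' (iter_good h hΦ n)]

theorem iter_lin (h : Nice ρ L) (hΦ : Good Φ) (hΨ : Good Ψ) (a b : ℝ) (n : ℕ) :
    (Op ρ)^[n] (fun H => a * Φ H + b * Ψ H) =
      fun H => a * (Op ρ)^[n] Φ H + b * (Op ρ)^[n] Ψ H := by
  induction n with
  | zero => rfl
  | succ n ih =>
    rw [Function.iterate_succ_apply', Function.iterate_succ_apply', Function.iterate_succ_apply',
      ih, Op_lin h (iter_good h hΦ n) (iter_good h hΨ n)]

/-- Approximate binomial expansion. -/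
theorem binom (h : Nice ρ L) (h0 : Nice ρ0 L) (h1 : Nice ρ1 L) {q η : ℝ} (hq0 : 0 ≤ q)
    (hq1 : q ≤ 1)
    (hη : ∀ Φ : (C → ℝ) → ℝ, Good Φ → ∀ H,
      |Op ρ Φ H - (q * Op ρ0 Φ H + (1 - q) * Op ρ1 Φ H)| ≤ η) (n : ℕ) :
    ∀ Φ : (C → ℝ) → ℝ, Good Φ → ∀ H,
      |(Op ρ)^[n] Φ H - ∑ km ∈ antidiagonal n, (n.choose km.1 : ℝ) * q ^ km.1 * (1 - q) ^ km.2 *
        (Op ρ0)^[km.1] ((Op ρ1)^[km.2] Φ) H| ≤ n * η := by
  induction n with
  | zero => intro Φ _ H; simp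
  | succ n ih =>
    intro Φ hΦ H
    have g0 := Op_good h0 hΦ
    have g1 := Op_good h1 hΦ
    have e1 := iter_abs h (Op_good h hΦ) (good_conv g0 g1 hq0 hq1) (hη Φ hΦ) n H
    rw [iter_lin h g0 g1] at e1
    have e2 := ih _ g0 H
    have e3 := ih _ g1 H
    have key := Finset.sum_antidiagonal_choose_succ_mul
      (fun k m => q ^ k * (1 - q) ^ m * (Op ρ0)^[k] ((Op ρ1)^[m] Φ) H) n
    have s1 : ∑ ij ∈ antidiagonal n, (n.choose ij.1 : ℝ) * (q ^ ij.1 * (1 - q) ^ (ij.2 + 1) *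
        (Op ρ0)^[ij.1] ((Op ρ1)^[ij.2 + 1] Φ) H) = (1 - q) * ∑ km ∈ antidiagonal n,
        (n.choose km.1 : ℝ) * q ^ km.1 * (1 - q) ^ km.2 *
          (Op ρ0)^[km.1] ((Op ρ1)^[km.2] (Op ρ1 Φ)) H := by
      rw [Finset.mul_sum]
      refine Finset.sum_congr rfl fun ij _ => ?_
      rw [Function.iterate_succ_apply]
      ring
    have s2 : ∑ ij ∈ antidiagonal n, (n.choose ij.2 : ℝ) * (q ^ (ij.1 + 1) * (1 - q) ^ ij.2 *
        (Op ρ0)^[ij.1 + 1] ((Op ρ1)^[ij.2] Φ) H) = q * ∑ km ∈ antidiagonal n,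
        (n.choose km.1 : ℝ) * q ^ km.1 * (1 - q) ^ km.2 *
          (Op ρ0)^[km.1] ((Op ρ1)^[km.2] (Op ρ0 Φ)) H := by
      rw [Finset.mul_sum]
      refine Finset.sum_congr rfl fun ij hij => ?_
      rw [Function.iterate_succ_apply, iter_comm h1 h0 hΦ,
        Nat.choose_symm_of_eq_add (HasAntidiagonal.mem_antidiagonal.1 hij).symm]
      ring
    have s0 : ∑ km ∈ antidiagonal (n + 1), ((n + 1).choose km.1 : ℝ) * q ^ km.1 *
        (1 - q) ^ km.2 * (Op ρ0)^[km.1] ((Op ρ1)^[km.2] Φ) H =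
        ∑ ij ∈ antidiagonal (n + 1), (((n + 1).choose ij.1 : ℕ) : ℝ) *
          (q ^ ij.1 * (1 - q) ^ ij.2 * (Op ρ0)^[ij.1] ((Op ρ1)^[ij.2] Φ) H) :=
      Finset.sum_congr rfl fun ij _ => by ring
    rw [s0, key, s1, s2, Function.iterate_succ_apply]
    have e2' := mul_le_mul_of_nonneg_left e2 hq0
    have e3' := mul_le_mul_of_nonneg_left e3 (sub_nonneg.2 hq1)
    rw [← abs_of_nonneg hq0, ← abs_mul, abs_of_nonneg hq0] at e2'
    rw [← abs_of_nonneg (sub_nonneg.2 hq1), ← abs_mul, abs_of_nonneg (sub_nonneg.2 hq1)] at e3'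
    rw [abs_le] at e1 e2' e3' ⊢
    push_cast
    constructor <;> nlinarith [e1.1, e1.2, e2'.1, e2'.2, e3'.1, e3'.2]

/-- The compound Poisson operator. -/
noncomputable def PO (lam : ℝ) (ρ : Measure (C → ℝ)) (Φ : (C → ℝ) → ℝ) (H : C → ℝ) : ℝ :=
  ∑' n, poissonWeight lam n * (Op ρ)^[n] Φ H

theorem tsum_poi_mono' {lam : ℝ} (h : 0 ≤ lam) {ψ φ : ℕ → ℝ} {A B : ℝ}
    (hψ : ∀ n, |ψ n| ≤ A * (1 + n)) (hφ : ∀ n, |φ n| ≤ B * (1 + n)) {a b : ℝ}
    (hle : ∀ n, ψ n ≤ φ n + (a + b * n)) :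
    ∑' n, poissonWeight lam n * ψ n ≤ ∑' n, poissonWeight lam n * φ n + (a + b * lam) := by
  refine tsum_poi_mono h (C := max A B) (fun n => (hψ n).trans ?_) (fun n => (hφ n).trans ?_) hle
  · exact mul_le_mul_of_nonneg_right (le_max_left _ _) (by positivity)
  · exact mul_le_mul_of_nonneg_right (le_max_right _ _) (by positivity)

theorem tsum_poi_abs {lam : ℝ} (h : 0 ≤ lam) {ψ φ : ℕ → ℝ} {A B : ℝ}
    (hψ : ∀ n, |ψ n| ≤ A * (1 + n)) (hφ : ∀ n, |φ n| ≤ B * (1 + n)) {a b : ℝ}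
    (hle : ∀ n, |ψ n - φ n| ≤ a + b * n) :
    |∑' n, poissonWeight lam n * ψ n - ∑' n, poissonWeight lam n * φ n| ≤ a + b * lam := by
  have x := tsum_poi_mono' h hψ hφ (a := a) (b := b) fun n => by linarith [(abs_le.1 (hle n)).2]
  have y := tsum_poi_mono' h hφ hψ (a := a) (b := b) fun n => by linarith [(abs_le.1 (hle n)).1]
  rw [abs_le]; constructor <;> linarith

theorem PO_mono' {lam : ℝ} (hl : 0 ≤ lam) (h : Nice ρ L) (hΦ : Good Φ) (hΨ : Good Ψ) {c : ℝ}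
    {H H' : C → ℝ} (hc : ∀ n, (Op ρ)^[n] Φ H ≤ (Op ρ)^[n] Ψ H' + c) :
    PO lam ρ Φ H ≤ PO lam ρ Ψ H' + c := by
  have := tsum_poi_mono' hl (iter_bound h hΦ H) (iter_bound h hΨ H') (a := c) (b := 0)
    fun n => by simpa using hc n
  simpa [PO] using this

theorem PO_good {lam : ℝ} (hl : 0 ≤ lam) (h : Nice ρ L) (hΦ : Good Φ) : Good (PO lam ρ Φ) :=
  fun H H' c hc => PO_mono' hl h hΦ hΦ fun n => iter_good h hΦ n H H' c hc

theorem PO_mono {lam : ℝ} (hl : 0 ≤ lam) (h : Nice ρ L) (hΦ : Good Φ) (hΨ : Good Ψ) {c : ℝ}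
    (hc : ∀ H, Φ H ≤ Ψ H + c) (H : C → ℝ) : PO lam ρ Φ H ≤ PO lam ρ Ψ H + c :=
  PO_mono' hl h hΦ hΨ fun n => iter_mono h hΦ hΨ hc n H

theorem PO_lip {l0 l1 : ℝ} (h0 : 0 ≤ l0) (h1 : 0 ≤ l1) (h : Nice ρ L) (hΦ : Good Φ) (H : C → ℝ) :
    |PO l0 ρ Φ H - PO l1 ρ Φ H| ≤ |l0 - l1| * L :=
  poi_lip h0 h1 fun n => iter_succ_sub_le h hΦ n H

theorem Op_tsum {lam : ℝ} (hl : 0 ≤ lam) (h : Nice ρ L) {Ψ : ℕ → (C → ℝ) → ℝ}
    (hΨ : ∀ n, Good (Ψ n)) (H : C → ℝ) {A : ℝ} (hA : ∀ n, |Ψ n H| ≤ A * (1 + n)) :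
    Op ρ (fun H => ∑' n, poissonWeight lam n * Ψ n H) H =
      ∑' n, poissonWeight lam n * Op ρ (Ψ n) H := by
  haveI := h.prob
  unfold Op
  rw [← integral_tsum_of_summable_integral_norm (fun n => (h.integrable (hΨ n) H).const_mul _)]
  · simp only [integral_const_mul]
  · have hb : ∀ n, ∫ d, ‖Ψ n (H + d)‖ ∂ρ ≤ (A + L) * (1 + n) := by
      intro n
      have a : ∫ d, ‖Ψ n (H + d)‖ ∂ρ ≤ ∫ d, (|Ψ n H| + ‖d‖) ∂ρ := by
        refine integral_mono (h.integrable (hΨ n) H).norm ((integrable_const _).add h.int)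
          fun d => ?_
        have := good_lip (hΨ n) H d
        have h2 := abs_sub_abs_le_abs_sub (Ψ n (H + d)) (Ψ n H)
        simp only [Real.norm_eq_abs]
        linarith
      rw [integral_add (integrable_const _) h.int] at a
      simp only [integral_const, probReal_univ, smul_eq_mul, one_mul] at a
      have := h.le
      have h3 := hA n
      have h4 : 0 ≤ L * n := mul_nonneg h.nonneg (Nat.cast_nonneg n)
      nlinarith
    have hs := summable_poi hl (ψ := fun n => ∫ d, ‖Ψ n (H + d)‖ ∂ρ) (C := A + L) fun n => by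
      rw [abs_of_nonneg (integral_nonneg fun d => norm_nonneg _)]; exact hb n
    refine hs.congr fun n => ?_
    simp only [norm_mul, integral_const_mul, Real.norm_eq_abs, abs_of_nonneg (poi_nonneg hl n)]

theorem Op_PO {lam : ℝ} (hl : 0 ≤ lam) (h : Nice ρ L) (h' : Nice ρ' L') (hΦ : Good Φ) :
    Op ρ' (PO lam ρ Φ) = PO lam ρ (Op ρ' Φ) := by
  funext H
  have := Op_tsum hl h' (fun n => iter_good h hΦ n) H (iter_bound h hΦ H)
  unfold PO
  rw [this]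
  simp only [iter_comm h h' hΦ]

theorem iter_PO {lam : ℝ} (hl : 0 ≤ lam) (h : Nice ρ L) (h' : Nice ρ' L') (hΦ : Good Φ) (k : ℕ) :
    (Op ρ')^[k] (PO lam ρ Φ) = fun H =>
      ∑' n, poissonWeight lam n * (Op ρ')^[k] ((Op ρ)^[n] Φ) H := by
  have a : ∀ k, (Op ρ')^[k] (PO lam ρ Φ) = PO lam ρ ((Op ρ')^[k] Φ) := by
    intro k
    induction k with
    | zero => rfl
    | succ k ih =>
      rw [Function.iterate_succ_apply', Function.iterate_succ_apply', ih,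
        Op_PO hl h h' (iter_good h' hΦ k)]
  have b : ∀ n, (Op ρ)^[n] ((Op ρ')^[k] Φ) = (Op ρ')^[k] ((Op ρ)^[n] Φ) := by
    intro n
    induction n with
    | zero => rfl
    | succ n ih =>
      rw [Function.iterate_succ_apply', Function.iterate_succ_apply', ih,
        iter_comm h' h (iter_good h hΦ n)]
  rw [a]
  funext H
  simp only [PO, b]

/-- Thinning of a compound Poisson operator. -/
theorem PO_thin (h : Nice ρ L) (h0 : Nice ρ0 L) (h1 : Nice ρ1 L) {q η : ℝ} (hq0 : 0 ≤ q)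
    (hq1 : q ≤ 1)
    (hη : ∀ Φ : (C → ℝ) → ℝ, Good Φ → ∀ H,
      |Op ρ Φ H - (q * Op ρ0 Φ H + (1 - q) * Op ρ1 Φ H)| ≤ η) {Λ l : ℝ} (hΛ : 0 ≤ Λ) (hl : 0 ≤ l)
    (hΦ : Good Φ) (H : C → ℝ) :
    |PO Λ ρ Φ H - PO (q * Λ) ρ0 (PO l ρ1 Φ) H| ≤ η * Λ + |(1 - q) * Λ - l| * L := by
  have a0 : 0 ≤ q * Λ := mul_nonneg hq0 hΛ
  have a1 : 0 ≤ (1 - q) * Λ := mul_nonneg (sub_nonneg.2 hq1) hΛ
  have eΛ : q * Λ + (1 - q) * Λ = Λ := by ring
  have hL := h.nonneg
  have hψ : ∀ k m : ℕ, |(Op ρ0)^[k] ((Op ρ1)^[m] Φ) H| ≤ (|Φ H| + L) * (1 + k + m) := by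
    intro k m
    have x := iter_sub_le h0 (iter_good h1 hΦ m) k H
    have y := iter_sub_le h1 hΦ m H
    have z := abs_sub_abs_le_abs_sub ((Op ρ0)^[k] ((Op ρ1)^[m] Φ) H) ((Op ρ1)^[m] Φ H)
    have w := abs_sub_abs_le_abs_sub ((Op ρ1)^[m] Φ H) (Φ H)
    have u : (0 : ℝ) ≤ |Φ H| * (k + m) := by positivity
    nlinarith
  have th := poi_thin a0 a1 (q := q) (by rw [eΛ]) hq0 hq1 hψ
  rw [eΛ] at th
  have hη0 : 0 ≤ η := (abs_nonneg _).trans (hη Φ hΦ H)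
  have s1 : |PO Λ ρ Φ H - PO (q * Λ) ρ0 (PO ((1 - q) * Λ) ρ1 Φ) H| ≤ 0 + η * Λ := by
    have e : PO (q * Λ) ρ0 (PO ((1 - q) * Λ) ρ1 Φ) H = ∑' k, poissonWeight (q * Λ) k *
        ∑' m, poissonWeight ((1 - q) * Λ) m * (Op ρ0)^[k] ((Op ρ1)^[m] Φ) H := by
      conv_lhs => unfold PO
      refine tsum_congr fun k => ?_
      have := congrFun (iter_PO a1 h1 h0 hΦ k) H
      unfold PO at this
      rw [this]
    rw [e, ← th]
    refine tsum_poi_abs hΛ (iter_bound h hΦ H) (B := |Φ H| + L + η) (fun n => ?_) fun n => ?_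
    · have x := binom h h0 h1 hq0 hq1 hη n Φ hΦ H
      have y := iter_bound h hΦ H n
      have z := abs_sub_abs_le_abs_sub (∑ km ∈ antidiagonal n, (n.choose km.1 : ℝ) * q ^ km.1 *
        (1 - q) ^ km.2 * (Op ρ0)^[km.1] ((Op ρ1)^[km.2] Φ) H) ((Op ρ)^[n] Φ H)
      rw [abs_sub_comm] at z
      nlinarith
    · have x := binom h h0 h1 hq0 hq1 hη n Φ hΦ H
      linarith
  have g1 := PO_good a1 h1 hΦ
  have g2 := PO_good hl h1 hΦ
  have s2 := PO_mono a0 h0 g1 g2 (c := |(1 - q) * Λ - l| * L)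
    (fun H => by linarith [(abs_le.1 (PO_lip a1 hl h1 hΦ H)).2]) H
  have s3 := PO_mono a0 h0 g2 g1 (c := |(1 - q) * Λ - l| * L)
    (fun H => by linarith [(abs_le.1 (PO_lip a1 hl h1 hΦ H)).1]) H
  rw [abs_le] at s1 ⊢
  constructor <;> linarith [s1.1, s1.2]

/-! ### Lifting along a restriction map -/

section lift
variable {C' : Type} [Fintype C'] {τ : Measure (C' → ℝ)} (r : C' → C)

/-- `τ` acts on lifted Hamiltonians as `ρ`. -/
def Lifts (τ : Measure (C' → ℝ)) (ρ : Measure (C → ℝ)) : Prop :=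
  ∀ Φ : (C' → ℝ) → ℝ, Good Φ → ∀ H : C → ℝ,
    Op τ Φ (fun s => H (r s)) = Op ρ (fun H => Φ fun s => H (r s)) H

variable {r}

theorem Lifts.iter (hl : Lifts r τ ρ) (hτ : Nice τ L) {Φ : (C' → ℝ) → ℝ} (hΦ : Good Φ) (n : ℕ) :
    (fun H : C → ℝ => (Op τ)^[n] Φ fun s => H (r s)) =
      (Op ρ)^[n] fun H => Φ fun s => H (r s) := by
  induction n with
  | zero => rfl
  | succ n ih =>
    funext H
    rw [Function.iterate_succ_apply', Function.iterate_succ_apply', hl _ (iter_good hτ hΦ n), ih]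

theorem Lifts.PO (hl : Lifts r τ ρ) (hτ : Nice τ L) {Φ : (C' → ℝ) → ℝ} (hΦ : Good Φ) (lam : ℝ)
    (H : C → ℝ) :
    PO lam τ Φ (fun s => H (r s)) = PO lam ρ (fun H => Φ fun s => H (r s)) H := by
  unfold CR.PO
  refine tsum_congr fun n => ?_
  rw [← hl.iter hτ hΦ n]

end lift

end Crest.Agent.H9.MP.CR
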