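import Crest.Agent.H9.MP.T7bx

/-! MP-T7b, part 2: the explicit laws of the increments. -/

set_option autoImplicit false

namespace Crest.Agent.H9.MP.CR

open MeasureTheory Crest.ProbabilityR.Diluted Filter Finset
open scoped ENNReal BigOperators

variable {C : Type} [Fintype C]

theorem integral_expect {X A : Type} [MeasurableSpace X] [Fintype A] {P : Measure X}
    {f : A → X → ℝ} (hf : ∀ a, Integrable (f a) P) :
    ∫ x, (𝔼 a, f a x) ∂P = 𝔼 a, ∫ x, f a x ∂P := by
  simp only [Fintype.expect_eq_sum_div_card]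
  rw [integral_div, integral_finset_sum _ fun a _ => hf a]

theorem Op_expect {A : Type} [Fintype A] {ρ : Measure (C → ℝ)} {L : ℝ} (h : Nice ρ L)
    {Ψ : A → (C → ℝ) → ℝ} (hΨ : ∀ a, Good (Ψ a)) (H : C → ℝ) :
    Op ρ (fun H => 𝔼 a, Ψ a H) H = 𝔼 a, Op ρ (Ψ a) H :=
  integral_expect fun a => h.integrable (hΨ a) H

section gen
variable {X : Type} [MeasurableSpace X] {P : Measure X} [IsProbabilityMeasure P]

theorem nice_map {δ : X → C → ℝ} (hδ : Measurable δ) (hi : Integrable (fun x => ‖δ x‖) P)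
    {L : ℝ} (hL : ∫ x, ‖δ x‖ ∂P ≤ L) : Nice (P.map δ) L := by
  refine ⟨Measure.isProbabilityMeasure_map hδ.aemeasurable, ?_, ?_⟩
  · exact (integrable_map_measure continuous_norm.aestronglyMeasurable hδ.aemeasurable).2 hi
  · rw [integral_map hδ.aemeasurable continuous_norm.aestronglyMeasurable]; exact hL

omit [IsProbabilityMeasure P] in
theorem Op_map {δ : X → C → ℝ} (hδ : Measurable δ) {Φ : (C → ℝ) → ℝ} (hΦ : Good Φ) (H : C → ℝ) :
    Op (P.map δ) Φ H = ∫ x, Φ (H + δ x) ∂P :=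
  integral_map hδ.aemeasurable
    (hΦ.continuous.comp (continuous_const.add continuous_id)).aestronglyMeasurable

theorem integrable_good {δ : X → C → ℝ} (hδ : Measurable δ) (hi : Integrable (fun x => ‖δ x‖) P)
    {Φ : (C → ℝ) → ℝ} (hΦ : Good Φ) (H : C → ℝ) : Integrable (fun x => Φ (H + δ x)) P :=
  (integrable_map_measure
    (hΦ.continuous.comp (continuous_const.add continuous_id)).aestronglyMeasurable
    hδ.aemeasurable).1 ((nice_map hδ hi le_rfl).integrable hΦ H)

theorem integral_pi_succ {n : ℕ} (i : Fin (n + 1)) {f : (Fin (n + 1) → X) → ℝ}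
    (hf : Integrable f (Measure.pi fun _ => P)) :
    ∫ xs, f xs ∂(Measure.pi fun _ => P) =
      ∫ x, ∫ xs, f (i.insertNth x xs) ∂(Measure.pi fun _ : Fin n => P) ∂P := by
  have hm := (measurePreserving_piFinSuccAbove (fun _ : Fin (n + 1) => P) i).symm
  rw [← hm.integral_comp' f]
  exact integral_prod _ ((hm.integrable_comp_emb (MeasurableEquiv.measurableEmbedding _)).2 hf)

theorem measurable_sum {n : ℕ} {δ : Fin n → X → C → ℝ} (hδ : ∀ k, Measurable (δ k)) :
    Measurable fun xs : Fin n → X => ∑ k, δ k (xs k) :=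
  Finset.measurable_sum _ fun k _ => (hδ k).comp (measurable_pi_apply k)

theorem integrable_sum {n : ℕ} {δ : Fin n → X → C → ℝ} (hδ : ∀ k, Measurable (δ k))
    (hi : ∀ k, Integrable (fun x => ‖δ k x‖) P) :
    Integrable (fun xs : Fin n → X => ‖∑ k, δ k (xs k)‖) (Measure.pi fun _ => P) := by
  refine Integrable.mono' (g := fun xs => ∑ k, ‖δ k (xs k)‖)
    (integrable_finset_sum _ fun k _ =>
      (measurePreserving_eval (fun _ : Fin n => P) k).integrable_comp_of_integrable (hi k))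
    (measurable_sum hδ).norm.aestronglyMeasurable (Eventually.of_forall fun xs => ?_)
  rw [norm_norm]
  exact norm_sum_le _ _

/-- The law of a sum of independent increments. -/
noncomputable def sumM (P : Measure X) {n : ℕ} (δ : Fin n → X → C → ℝ) : Measure (C → ℝ) :=
  (Measure.pi fun _ : Fin n => P).map fun xs => ∑ k, δ k (xs k)

theorem nice_sumM {n : ℕ} {δ : Fin n → X → C → ℝ} (hδ : ∀ k, Measurable (δ k))
    (hi : ∀ k, Integrable (fun x => ‖δ k x‖) P) :
    Nice (sumM P δ) (∫ xs, ‖∑ k, δ k (xs k)‖ ∂(Measure.pi fun _ : Fin n => P)) :=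
  nice_map (measurable_sum hδ) (integrable_sum hδ hi) le_rfl

omit [IsProbabilityMeasure P] in
theorem Op_sumM {n : ℕ} {δ : Fin n → X → C → ℝ} (hδ : ∀ k, Measurable (δ k))
    {Φ : (C → ℝ) → ℝ} (hΦ : Good Φ) (H : C → ℝ) :
    Op (sumM P δ) Φ H = ∫ xs, Φ (H + ∑ k, δ k (xs k)) ∂(Measure.pi fun _ : Fin n => P) :=
  Op_map (measurable_sum hδ) hΦ H

theorem Op_sumM_succ {n : ℕ} {δ : Fin (n + 1) → X → C → ℝ} (hδ : ∀ k, Measurable (δ k))
    (hi : ∀ k, Integrable (fun x => ‖δ k x‖) P) (i : Fin (n + 1)) {Φ : (C → ℝ) → ℝ}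
    (hΦ : Good Φ) :
    Op (sumM P δ) Φ = Op (P.map (δ i)) (Op (sumM P fun k => δ (i.succAbove k)) Φ) := by
  funext H
  have g := Op_good (nice_sumM (P := P) (δ := fun k => δ (i.succAbove k)) (fun k => hδ _)
    fun k => hi _) hΦ
  rw [Op_map (hδ i) g, Op_sumM hδ hΦ,
    integral_pi_succ i (integrable_good (measurable_sum hδ) (integrable_sum hδ hi) hΦ H)]
  refine integral_congr_ae (Eventually.of_forall fun x => ?_)
  simp only
  rw [Op_sumM (fun k => hδ _) hΦ]
  refine integral_congr_ae (Eventually.of_forall fun xs => ?_)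
  simp only [Fin.sum_univ_succAbove _ i, Fin.insertNth_apply_same, Fin.insertNth_apply_succAbove,
    add_assoc]

variable {A : Type} [Fintype A]

/-- The law of one increment with a uniform index. -/
noncomputable def avM (P : Measure X) (δ : A → X → C → ℝ) : Measure (C → ℝ) :=
  ∑ a, ((Fintype.card A : ℝ≥0∞)⁻¹) • P.map (δ a)

omit [IsProbabilityMeasure P] in
theorem integral_avM [Nonempty A] {δ : A → X → C → ℝ} {f : (C → ℝ) → ℝ}
    (hf : ∀ a, Integrable f (P.map (δ a))) :
    Integrable f (avM P δ) ∧ ∫ d, f d ∂(avM P δ) = 𝔼 a, ∫ d, f d ∂(P.map (δ a)) := by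
  have hc : ((Fintype.card A : ℝ≥0∞)⁻¹) ≠ ∞ := by simp
  have h1 : ∀ a, Integrable f (((Fintype.card A : ℝ≥0∞)⁻¹) • P.map (δ a)) :=
    fun a => (hf a).smul_measure hc
  refine ⟨integrable_finsetSum_measure.2 fun a _ => h1 a, ?_⟩
  unfold avM
  rw [integral_finsetSum_measure fun a _ => h1 a, Fintype.expect_eq_sum_div_card, div_eq_inv_mul,
    Finset.mul_sum]
  refine Finset.sum_congr rfl fun a _ => ?_
  rw [integral_smul_measure]
  simp

theorem nice_avM [Nonempty A] {δ : A → X → C → ℝ} (hδ : ∀ a, Measurable (δ a))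
    (hi : ∀ a, Integrable (fun x => ‖δ a x‖) P) {L : ℝ} (hL : ∀ a, ∫ x, ‖δ a x‖ ∂P ≤ L) :
    Nice (avM P δ) L := by
  have hn := fun a => nice_map (hδ a) (hi a) (hL a)
  have h := integral_avM (P := P) (δ := δ) (f := fun d => ‖d‖) fun a => (hn a).int
  refine ⟨⟨?_⟩, h.1, ?_⟩
  · unfold avM
    have : ∀ a, (P.map (δ a)) Set.univ = 1 := fun a => (hn a).prob.measure_univ
    simp only [Measure.coe_finsetSum, Finset.sum_apply, Measure.smul_apply, this, smul_eq_mul,
      mul_one, Finset.sum_const, Finset.card_univ, nsmul_eq_mul]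
    exact ENNReal.mul_inv_cancel (by simp) (by simp)
  · rw [h.2]
    exact Finset.expect_le Finset.univ_nonempty fun a _ => (hn a).le

theorem Op_avM [Nonempty A] {δ : A → X → C → ℝ} (hδ : ∀ a, Measurable (δ a))
    (hi : ∀ a, Integrable (fun x => ‖δ a x‖) P) {Φ : (C → ℝ) → ℝ} (hΦ : Good Φ) (H : C → ℝ) :
    Op (avM P δ) Φ H = 𝔼 a, Op (P.map (δ a)) Φ H :=
  (integral_avM fun a => (nice_map (hδ a) (hi a) le_rfl).integrable hΦ H).2

theorem good_expect [Nonempty A] {Ψ : A → (C → ℝ) → ℝ} (hΨ : ∀ a, Good (Ψ a)) :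
    Good fun H => 𝔼 a, Ψ a H := by
  intro H H' c hc
  have := Finset.expect_le_expect (s := univ) (f := fun a => Ψ a H) (g := fun a => Ψ a H' + c)
    fun a _ => hΨ a H H' c hc
  rwa [Finset.expect_add_distrib, Fintype.expect_const] at this

theorem iter_avM [Nonempty A] [DecidableEq A] {δ : A → X → C → ℝ} (hδ : ∀ a, Measurable (δ a))
    (hi : ∀ a, Integrable (fun x => ‖δ a x‖) P) {Φ : (C → ℝ) → ℝ} (hΦ : Good Φ) (M : ℕ) :
    (Op (avM P δ))^[M] Φ = fun H => 𝔼 idx : Fin M → A, Op (sumM P fun k => δ (idx k)) Φ H := by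
  induction M with
  | zero =>
    funext H
    have : ∀ idx : Fin 0 → A, Op (sumM P fun k => δ (idx k)) Φ H = Φ H := by
      intro idx
      rw [Op_sumM (fun k => hδ _) hΦ]
      simp
    simp only [this, Fintype.expect_const, Function.iterate_zero, id]
  | succ M ih =>
    funext H
    have g : ∀ idx : Fin M → A, Good (Op (sumM P fun k => δ (idx k)) Φ) := fun idx =>
      Op_good (nice_sumM (P := P) (δ := fun k => δ (idx k)) (fun k => hδ _) fun k => hi _) hΦ
    rw [Function.iterate_succ_apply', ih, Op_avM hδ hi (good_expect g)]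
    simp only [fun a => Op_expect (nice_map (hδ a) (hi a) le_rfl) g H]
    rw [← Finset.expect_product', Finset.univ_product_univ]
    refine Fintype.expect_equiv (Fin.consEquiv fun _ : Fin (M + 1) => A) _ _ fun w => ?_
    rw [Op_sumM_succ (δ := fun k => δ ((Fin.consEquiv fun _ : Fin (M + 1) => A) w k))
      (fun k => hδ _) (fun k => hi _) 0 hΦ]
    rfl

theorem iter_avM' [Nonempty A] [DecidableEq A] {δ : A → X → C → ℝ} (hδ : ∀ a, Measurable (δ a))
    (hi : ∀ a, Integrable (fun x => ‖δ a x‖) P) {Φ : (C → ℝ) → ℝ} (hΦ : Good Φ) (M : ℕ)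
    (H : C → ℝ) :
    (Op (avM P δ))^[M] Φ H = ∫ xs, (𝔼 idx : Fin M → A, Φ (H + ∑ k, δ (idx k) (xs k)))
      ∂(Measure.pi fun _ : Fin M => P) := by
  rw [iter_avM hδ hi hΦ, integral_expect fun idx : Fin M → A => integrable_good
    (measurable_sum (δ := fun k => δ (idx k)) fun k => hδ _)
    (integrable_sum (δ := fun k => δ (idx k)) (fun k => hδ _) fun k => hi _) hΦ H]
  exact Finset.expect_congr rfl fun idx _ => Op_sumM (fun k => hδ _) hΦ H

/-- Iterates followed by one more independent increment. -/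
theorem iter_avM_map [Nonempty A] [DecidableEq A] {δ : A → X → C → ℝ}
    (hδ : ∀ a, Measurable (δ a)) (hi : ∀ a, Integrable (fun x => ‖δ a x‖) P)
    {Y : Type} [MeasurableSpace Y] {Q : Measure Y} [IsProbabilityMeasure Q] {γ : Y → C → ℝ}
    (hγ : Measurable γ) (hγi : Integrable (fun y => ‖γ y‖) Q) {Φ : (C → ℝ) → ℝ} (hΦ : Good Φ)
    (M : ℕ) (H : C → ℝ) :
    (Op (avM P δ))^[M] (Op (Q.map γ) Φ) H = ∫ xs, ∫ y,
      (𝔼 idx : Fin M → A, Φ (H + ∑ k, δ (idx k) (xs k) + γ y)) ∂Q
      ∂(Measure.pi fun _ : Fin M => P) := by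
  rw [iter_avM' hδ hi (Op_good (nice_map hγ hγi le_rfl) hΦ)]
  refine integral_congr_ae (Eventually.of_forall fun xs => ?_)
  simp only
  rw [integral_expect fun idx : Fin M → A => integrable_good hγ hγi hΦ _]
  exact Finset.expect_congr rfl fun idx _ => Op_map hγ hΦ _

section lift
variable {C' : Type} [Fintype C'] (r : C' → C)

omit [Fintype C] [Fintype C'] in
theorem measurable_lift {δ : X → C → ℝ} (hδ : Measurable δ) :
    Measurable fun x (s : C') => δ x (r s) :=
  measurable_pi_lambda _ fun s => (measurable_pi_apply (r s)).comp hδ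

theorem norm_lift_le (H : C → ℝ) : ‖fun s : C' => H (r s)‖ ≤ ‖H‖ :=
  (pi_norm_le_iff_of_nonneg (norm_nonneg H)).2 fun s => norm_le_pi_norm H (r s)

omit [IsProbabilityMeasure P] in
theorem integrable_lift {δ : X → C → ℝ} (hδ : Measurable δ)
    (hi : Integrable (fun x => ‖δ x‖) P) : Integrable (fun x => ‖fun s : C' => δ x (r s)‖) P :=
  hi.mono' (measurable_lift r hδ).norm.aestronglyMeasurable
    (Eventually.of_forall fun x => by rw [norm_norm]; exact norm_lift_le r _)

omit [IsProbabilityMeasure P] in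
theorem lifts_map {δ : X → C → ℝ} (hδ : Measurable δ) :
    Lifts r (P.map fun x s => δ x (r s)) (P.map δ) := by
  intro Φ hΦ H
  rw [Op_map (measurable_lift r hδ) hΦ, Op_map hδ (good_comp hΦ r)]
  rfl

theorem lifts_avM [Nonempty A] {δ : A → X → C → ℝ} (hδ : ∀ a, Measurable (δ a))
    (hi : ∀ a, Integrable (fun x => ‖δ a x‖) P) :
    Lifts r (avM P fun a x s => δ a x (r s)) (avM P δ) := by
  intro Φ hΦ H
  rw [Op_avM (fun a => measurable_lift r (hδ a)) (fun a => integrable_lift r (hδ a) (hi a)) hΦ,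
    Op_avM hδ hi (good_comp hΦ r)]
  exact Finset.expect_congr rfl fun a _ => lifts_map r (hδ a) Φ hΦ H

end lift

end gen

end Crest.Agent.H9.MP.CR
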