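import Crest.Agent.H9.MP.T7bz
import Crest.Agent.H9.MP.T1a

/-! MP-T7c, part 1: the averaged functional and the deterministic estimates. -/

set_option autoImplicit false

namespace Crest.Agent.H9.MP.CP

open MeasureTheory Crest.ProbabilityR.Diluted Filter Finset
open scoped BigOperators

section meas
variable {X : Type} [MeasurableSpace X] {P : Measure X} [IsProbabilityMeasure P]

theorem integrable_tail {g : X → ℝ} (hg : Integrable g P) (c : ℝ) :
    Integrable (fun x => max (g x - c) 0) P :=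
  (hg.sub (integrable_const c)).pos_part

theorem tail_tendsto {g : X → ℝ} (hg : Integrable g P) (h0 : ∀ x, 0 ≤ g x) :
    Tendsto (fun n : ℕ => ∫ x, max (g x - n) 0 ∂P) atTop (nhds 0) := by
  have := tendsto_integral_of_dominated_convergence (μ := P)
    (F := fun (n : ℕ) x => max (g x - n) 0) (f := fun _ => (0 : ℝ)) g
    (fun n => (integrable_tail hg n).aestronglyMeasurable) hg
    (fun n => Eventually.of_forall fun x => by
      rw [Real.norm_eq_abs, abs_of_nonneg (le_max_right _ _)]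
      exact max_le (by linarith [(Nat.cast_nonneg n : (0 : ℝ) ≤ n)]) (h0 x))
    (Eventually.of_forall fun x => by
      refine tendsto_const_nhds.congr' ?_
      filter_upwards [tendsto_natCast_atTop_atTop.eventually_ge_atTop (g x)] with n hn
      rw [max_eq_right (by linarith)])
  simpa using this

theorem integrable_sum_pi {k : ℕ} {v : X → ℝ} (hv : Integrable v P) :
    Integrable (fun xs : Fin k → X => ∑ j, v (xs j)) (Measure.pi fun _ => P) :=
  integrable_finset_sum _ fun j _ =>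
    (measurePreserving_eval (fun _ : Fin k => P) j).integrable_comp_of_integrable hv

theorem integral_sum_pi {k : ℕ} {v : X → ℝ} (hv : Integrable v P) :
    ∫ xs : Fin k → X, ∑ j, v (xs j) ∂(Measure.pi fun _ => P) = k * ∫ x, v x ∂P := by
  rw [integral_finset_sum (f := fun j (xs : Fin k → X) => v (xs j)) _ fun j _ =>
    (measurePreserving_eval (fun _ : Fin k => P) j).integrable_comp_of_integrable hv]
  have : ∀ j : Fin k, ∫ xs : Fin k → X, v (xs j) ∂(Measure.pi fun _ => P) = ∫ x, v x ∂P := by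
    intro j
    have hm := measurePreserving_eval (fun _ : Fin k => P) j
    have := integral_map (μ := Measure.pi fun _ : Fin k => P) hm.measurable.aemeasurable
      (f := v) (by rw [hm.map_eq]; exact hv.aestronglyMeasurable)
    rw [hm.map_eq] at this
    exact this.symm
  simp [this]

variable {Y : Type} [MeasurableSpace Y] {Q : Measure Y} [IsProbabilityMeasure Q]

theorem integrable_add_prod {k : ℕ} {v : X → ℝ} (hv : Integrable v P) {u : Y → ℝ}
    (hu : Integrable u Q) (c : ℝ) :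
    Integrable (fun w : (Fin k → X) × Y => c + u w.2 + ∑ j, v (w.1 j))
      ((Measure.pi fun _ => P).prod Q) :=
  ((integrable_const c).add (hu.comp_snd _)).add ((integrable_sum_pi hv).comp_fst _)

theorem integral_add_prod {k : ℕ} {v : X → ℝ} (hv : Integrable v P) {u : Y → ℝ}
    (hu : Integrable u Q) (c : ℝ) :
    ∫ w : (Fin k → X) × Y, (c + u w.2 + ∑ j, v (w.1 j)) ∂((Measure.pi fun _ => P).prod Q) =
      c + ∫ y, u y ∂Q + k * ∫ x, v x ∂P := by
  rw [integral_add (f := fun w : (Fin k → X) × Y => c + u w.2)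
    ((integrable_const c).add (hu.comp_snd _))
    ((integrable_sum_pi hv).comp_fst _), integral_add (integrable_const c) (hu.comp_snd _),
    integral_fun_snd, integral_fun_fst (fun xs : Fin k → X => ∑ j, v (xs j)), integral_sum_pi hv]
  simp

end meas

section marg
variable {I Γ : Type} [Fintype I] [DecidableEq I] [Fintype Γ] [DecidableEq Γ]

theorem marg_nonneg (a : Γ → I) (H : (I → Bool) → ℝ) (τ : Γ → Bool) : 0 ≤ marg a H τ :=
  Finset.sum_nonneg fun σ _ => by split_ifs <;> positivity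

theorem sum_marg (a : Γ → I) (H : (I → Bool) → ℝ) :
    ∑ τ, marg a H τ = ∑ σ, Real.exp (H σ) := by
  unfold marg
  rw [Finset.sum_comm]
  simp

theorem sum_marg_pos (a : Γ → I) (H : (I → Bool) → ℝ) : 0 < ∑ τ, marg a H τ := by
  rw [sum_marg]
  exact Finset.sum_pos (fun s _ => Real.exp_pos _) Finset.univ_nonempty

theorem marg_le (a : Γ → I) {H H' : (I → Bool) → ℝ} {c : ℝ} (hc : ∀ s, H s ≤ H' s + c)
    (τ : Γ → Bool) : marg a H τ ≤ Real.exp c * marg a H' τ := by
  unfold marg
  rw [Finset.mul_sum]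
  refine Finset.sum_le_sum fun σ _ => ?_
  split_ifs
  · rw [← Real.exp_add]; exact Real.exp_le_exp.2 (by linarith [hc σ])
  · simp

/-- Summing out the last spin. -/
noncomputable def red {N : ℕ} (H : (Fin (N + 1) → Bool) → ℝ) (s : Fin N → Bool) : ℝ :=
  Real.log (∑ ε : Bool, Real.exp (H (Fin.snoc (α := fun _ => Bool) s ε)))

theorem marg_succ {N : ℕ} (a : Γ → Fin N) (H : (Fin (N + 1) → Bool) → ℝ) :
    marg (fun g => (a g).castSucc) H = marg a (red H) := by
  funext τ
  unfold marg red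
  rw [← (Fin.snocEquiv fun _ : Fin (N + 1) => Bool).sum_comp, Fintype.sum_prod_type_right]
  refine Finset.sum_congr rfl fun s _ => ?_
  rw [Real.exp_log (Finset.sum_pos (fun s _ => Real.exp_pos _) Finset.univ_nonempty)]
  simp only [Fin.snocEquiv, Equiv.coe_fn_mk, Fin.snoc_castSucc]
  split_ifs <;> simp

/-- The averaged functional. -/
noncomputable def Phi (Ψ : ((Γ → Bool) → ℝ) → ℝ) (H : (I → Bool) → ℝ) : ℝ :=
  𝔼 a : Γ → I, Ψ (marg a H)

variable {Ψ : ((Γ → Bool) → ℝ) → ℝ} {C : ℝ}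

theorem Phi_good [Nonempty I]
    (hm : ∀ (m m' : (Γ → Bool) → ℝ) (c : ℝ), (∀ τ, 0 ≤ m τ) → 0 < ∑ τ, m τ →
      (∀ τ, m τ ≤ Real.exp c * m' τ) → Ψ m ≤ Ψ m' + c) : Good (Phi (I := I) Ψ) :=
  CR.good_expect fun a H _ c hc => hm _ _ c (marg_nonneg a H) (sum_marg_pos a H) (marg_le a hc)

theorem Phi_near [Nonempty I]
    (hn : ∀ m : (Γ → Bool) → ℝ, (∀ τ, 0 ≤ m τ) → 0 < ∑ τ, m τ →
      |Ψ m - Real.log (∑ τ, m τ)| ≤ C) (H : (I → Bool) → ℝ) :
    |Phi Ψ H - Real.log (∑ s, Real.exp (H s))| ≤ C := by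
  have h : ∀ a : Γ → I, |Ψ (marg a H) - Real.log (∑ s, Real.exp (H s))| ≤ C := fun a => by
    rw [← sum_marg a H]; exact hn _ (marg_nonneg a H) (sum_marg_pos a H)
  have h1 := Finset.expect_le (s := univ) (f := fun a : Γ → I => Ψ (marg a H))
    (a := Real.log (∑ s, Real.exp (H s)) + C) univ_nonempty
    fun a _ => by linarith [(abs_le.1 (h a)).2]
  have h2 := Finset.le_expect (s := univ) (f := fun a : Γ → I => Ψ (marg a H))
    (a := Real.log (∑ s, Real.exp (H s)) - C) univ_nonempty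
    fun a _ => by linarith [(abs_le.1 (h a)).1]
  unfold Phi
  rw [abs_le]; constructor <;> linarith

theorem Phi_succ {N : ℕ} [Nonempty (Fin N)]
    (hn : ∀ m : (Γ → Bool) → ℝ, (∀ τ, 0 ≤ m τ) → 0 < ∑ τ, m τ →
      |Ψ m - Real.log (∑ τ, m τ)| ≤ C) (H : (Fin (N + 1) → Bool) → ℝ) :
    |Phi Ψ H - Phi Ψ (red H)| ≤ 2 * C * (1 - ((N : ℝ) / (N + 1)) ^ Fintype.card Γ) := by
  have e : ∑ s, Real.exp (H s) = ∑ s, Real.exp (red H s) := by
    obtain ⟨a⟩ : Nonempty (Γ → Fin N) := inferInstance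
    rw [← sum_marg (fun g => (a g).castSucc) H, marg_succ, sum_marg]
  have hG : ∀ a : Γ → Fin (N + 1), |Ψ (marg a H) - Phi Ψ (red H)| ≤ 2 * C := by
    intro a
    have x := hn _ (marg_nonneg a H) (sum_marg_pos a H)
    rw [sum_marg, e] at x
    have y := Phi_near hn (red H)
    rw [abs_sub_comm] at y
    linarith [abs_sub_le (Ψ (marg a H)) (Real.log (∑ s, Real.exp (red H s))) (Phi Ψ (red H))]
  have hJ : Function.Injective fun (a : Γ → Fin N) (g : Γ) => (a g).castSucc :=
    fun a a' h => funext fun g => Fin.castSucc_injective _ (congrFun h g)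
  have key := CR.abs_sum_sub_sum_le hJ hG
  have hN : (0 : ℝ) < N := by
    have := Fin.pos_iff_nonempty.2 ‹Nonempty (Fin N)›
    exact_mod_cast this
  have e1 : Phi Ψ H = 𝔼 a : Γ → Fin (N + 1), Ψ (marg a H) := rfl
  have e0 : Phi Ψ (red H) = 𝔼 a : Γ → Fin N, Ψ (marg a (red H)) := rfl
  rw [Fintype.expect_eq_sum_div_card] at e1 e0
  simp only [Fintype.card_pi, Finset.prod_const, Finset.card_univ, Fintype.card_fin, Nat.cast_pow,
    Nat.cast_add, Nat.cast_one] at e1 e0
  rw [eq_div_iff (by positivity)] at e1 e0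
  simp only [marg_succ, Finset.sum_sub_distrib, ← e1, ← e0, Finset.sum_const, Finset.card_univ,
    Fintype.card_pi, Finset.prod_const, Fintype.card_fin, nsmul_eq_mul, Nat.cast_pow,
    Nat.cast_add, Nat.cast_one] at key
  have hpos : (0 : ℝ) < (N + 1) ^ Fintype.card Γ := by positivity
  refine le_of_mul_le_mul_right ?_ hpos
  have r : 2 * C * (1 - ((N : ℝ) / (N + 1)) ^ Fintype.card Γ) * (N + 1) ^ Fintype.card Γ =
      2 * C * ((N + 1) ^ Fintype.card Γ - N ^ Fintype.card Γ) := by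
    rw [div_pow]; field_simp
  rw [r, ← abs_of_pos hpos, ← abs_mul, abs_of_pos hpos]
  refine le_trans (le_of_eq ?_) key
  congr 1
  ring

end marg

section gp
variable {S I L : Type} [Fintype S] [Fintype I] [Nonempty I] [Fintype L] [DecidableEq L]
  {K : Ker S} {R : ℕ} {σ : I → List S → Bool}

theorem abs_Gprod_le (hK : IsKer K) (hR : 0 < R) {V : (L → Bool) → ℝ} {b : ℝ}
    (hb : ∀ s, |V s| ≤ b) : |Gprod (eU R) R K σ fun s => Real.exp (V s)| ≤ b := by
  have := abs_Gprod_sub_le hK (exps_eU hR).pos' σ (W := fun s => Real.exp (V s))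
    (W' := fun _ => 1) (fun _ => Real.exp_pos _) (fun _ => one_pos) (c := b)
    fun s => by simpa using hb s
  rwa [Gprod_const hK (exps_eU hR).pos' σ one_pos, Real.log_one, sub_zero] at this

theorem continuous_Gprod (hK : IsKer K) (hR : 0 < R) :
    Continuous fun V : (L → Bool) → ℝ => Gprod (eU R) R K σ fun s => Real.exp (V s) := by
  refine (LipschitzWith.of_dist_le_mul (K := 1) fun V V' => ?_).continuous
  rw [NNReal.coe_one, one_mul, Real.dist_eq]
  refine abs_Gprod_sub_le hK (exps_eU hR).pos' σ (fun _ => Real.exp_pos _)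
    (fun _ => Real.exp_pos _) fun s => ?_
  rw [Real.log_exp, Real.log_exp]
  exact dist_le_pi_dist V V' s

end gp

theorem core {S I J Γ : Type} [Fintype S] [Fintype I] [DecidableEq I] [Nonempty I] [Fintype J]
    [Fintype Γ] [DecidableEq Γ] {Ψ : ((Γ → Bool) → ℝ) → ℝ} (hg : Good (Phi (I := I) Ψ))
    {R : ℕ} (hR : 0 < R) {H : (I → Bool) → ℝ} {lam : J → ℝ} {K : J → Ker S}
    {σ : I → List S → Bool} (h0 : ∀ j, 0 ≤ lam j) (h1 : ∑ j, lam j = 1) (hK : ∀ j, IsKer (K j))
    {n0 : ℕ} {Kb ε : ℝ} (hε : 0 ≤ ε) {L : Type} [Fintype L] [DecidableEq L]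
    (hmain : Fintype.card L ≤ n0 →
      ∀ W : (L → Bool) → ℝ, (∀ s, Real.exp (-Kb) ≤ W s ∧ W s ≤ Real.exp Kb) →
        |(𝔼 a : Γ → I, 𝔼 i : L → I,
            (Ψ (marg a fun s => H s + Real.log (W fun m => s (i m))) - Ψ (marg a H))) -
          ∑ j, lam j * Gprod (eU R) R (K j) σ W| ≤ ε)
    {V : (L → Bool) → ℝ} {b : ℝ} (hb : ∀ s, |V s| ≤ b) :
    |(𝔼 i : L → I, Phi Ψ fun s => H s + V fun m => s (i m)) - Phi Ψ H -
        ∑ j, lam j * Gprod (eU R) R (K j) σ fun s => Real.exp (V s)| ≤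
      ε + if Fintype.card L ≤ n0 ∧ b ≤ Kb then 0 else 2 * b := by
  split_ifs with h
  · have := hmain h.1 (fun s => Real.exp (V s)) fun s =>
      ⟨Real.exp_le_exp.2 (by linarith [(abs_le.1 (hb s)).1, h.2]),
        Real.exp_le_exp.2 (by linarith [(abs_le.1 (hb s)).2, h.2])⟩
    simp only [Real.log_exp] at this
    rw [Finset.expect_comm] at this
    simp only [Finset.expect_sub_distrib, Fintype.expect_const] at this
    rw [add_zero]
    exact this
  · have x : ∀ i : L → I, |(Phi Ψ fun s => H s + V fun m => s (i m)) - Phi Ψ H| ≤ b :=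
      fun i => hg.abs_sub_le fun s => by simpa using hb _
    have x1 := Finset.expect_le (s := univ)
      (f := fun i : L → I => Phi Ψ fun s => H s + V fun m => s (i m)) (a := Phi Ψ H + b)
      univ_nonempty fun i _ => by linarith [(abs_le.1 (x i)).2]
    have x2 := Finset.le_expect (s := univ)
      (f := fun i : L → I => Phi Ψ fun s => H s + V fun m => s (i m)) (a := Phi Ψ H - b)
      univ_nonempty fun i _ => by linarith [(abs_le.1 (x i)).1]
    have y : |∑ j, lam j * Gprod (eU R) R (K j) σ fun s => Real.exp (V s)| ≤ b := by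
      refine (Finset.abs_sum_le_sum_abs _ _).trans ?_
      have : ∑ j, |lam j * Gprod (eU R) R (K j) σ fun s => Real.exp (V s)| ≤ ∑ j, lam j * b :=
        Finset.sum_le_sum fun j _ => by
          rw [abs_mul, abs_of_nonneg (h0 j)]
          exact mul_le_mul_of_nonneg_left (abs_Gprod_le (hK j) hR hb) (h0 j)
      rwa [← Finset.sum_mul, h1, one_mul] at this
    rw [abs_le] at y ⊢
    constructor <;> linarith [y.1, y.2]

theorem siteW_pos {p k : ℕ} (θs : Fin k → Inter p) (h : ℝ) (s : Fin k × Fin (p - 1) → Bool) :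
    0 < siteW θs h s :=
  Finset.sum_pos (fun _ _ => Real.exp_pos _) Finset.univ_nonempty

theorem abs_site_le {p k : ℕ} (θs : Fin k → Inter p) (h : ℝ) (t : Fin k → Fin p → Bool)
    (ε : Bool) : |h * spinVal ε + ∑ j, θs j (t j)| ≤ ‖h‖ + ∑ j, ‖θs j‖ := by
  refine (abs_add_le _ _).trans (add_le_add ?_ ?_)
  · unfold spinVal; split_ifs <;> simp
  · exact (Finset.abs_sum_le_sum_abs _ _).trans
      (Finset.sum_le_sum fun j _ => norm_le_pi_norm (θs j) (t j))

theorem abs_log_siteW_le {p k : ℕ} (θs : Fin k → Inter p) (h : ℝ)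
    (s : Fin k × Fin (p - 1) → Bool) :
    |Real.log (siteW θs h s)| ≤ 1 + ‖h‖ + ∑ j, ‖θs j‖ := by
  have x := (good_logSumExp (C := Bool)).abs_sub_le
    (H := fun ε => h * spinVal ε + ∑ j, θs j (snocS (fun ℓ => s (j, ℓ)) ε)) (H' := fun _ => 0)
    (c := ‖h‖ + ∑ j, ‖θs j‖) fun ε => by rw [sub_zero]; exact abs_site_le θs h _ ε
  have y : Real.log (∑ _s : Bool, Real.exp 0) = Real.log 2 := by simp
  rw [y] at x
  have l1 := Real.log_two_lt_d9
  have l2 := Real.log_two_gt_d9
  unfold siteW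
  rw [abs_le] at x ⊢
  constructor <;> linarith [x.1, x.2]

theorem continuous_log_siteW {p k : ℕ} : Continuous
    fun (w : (Fin k → Inter p) × ℝ) (s : Fin k × Fin (p - 1) → Bool) =>
      Real.log (siteW w.1 w.2 s) := by
  refine continuous_pi fun s => Continuous.log ?_ fun w => (siteW_pos _ _ _).ne'
  unfold siteW
  fun_prop

theorem red_site {p k N : ℕ} (θs : Fin k → Inter p) (h : ℝ) (i : Fin k × Fin (p - 1) → Fin N)
    (H : (Fin N → Bool) → ℝ) :
    red (fun σ : Fin (N + 1) → Bool => H (fun v => σ v.castSucc) +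
      (h * spinVal (σ (Fin.last N)) +
        ∑ j, θs j (snocS (fun ℓ => σ (i (j, ℓ)).castSucc) (σ (Fin.last N))))) =
      fun s => H s + Real.log (siteW θs h fun m => s (i m)) := by
  funext s
  unfold red
  simp only [Fin.snoc_castSucc, Fin.snoc_last]
  rw [← Real.log_exp (H s), ← Real.log_mul (Real.exp_pos _).ne' (siteW_pos _ _ _).ne',
    Real.log_exp]
  unfold siteW
  simp only [Finset.mul_sum, ← Real.exp_add]

/-- Truncation. -/
theorem trunc {k n : ℕ} (hk : k ≤ n) {M : ℝ} (hM : 0 ≤ M) (u : ℝ) (v : Fin k → ℝ)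
    (hb : ¬ 1 + u + ∑ j, v j ≤ 2 * (1 + (n + 1) * M)) :
    2 * (1 + u + ∑ j, v j) ≤ 4 * (max (u - M) 0 + ∑ j, max (v j - M) 0) := by
  have x : ∑ j, (v j - M) ≤ ∑ j, max (v j - M) 0 := Finset.sum_le_sum fun j _ => le_max_left _ _
  rw [Finset.sum_sub_distrib] at x
  simp only [Finset.sum_const, Finset.card_univ, Fintype.card_fin, nsmul_eq_mul] at x
  have y := le_max_left (u - M) 0
  have z : (k : ℝ) * M ≤ n * M := mul_le_mul_of_nonneg_right (by exact_mod_cast hk) hM
  rw [not_le] at hb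
  nlinarith

end Crest.Agent.H9.MP.CP
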