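import Crest.Agent.H9.MP.T7cy

/-! MP-T8a, part 1: continuum power means. -/

set_option autoImplicit false

namespace Crest.Agent.H9.MP.PM

open MeasureTheory Crest.ProbabilityR.Diluted Filter Finset
open scoped BigOperators

variable {L : Type} [Fintype L] {r : ℕ}

/-- Arrays of uniforms. -/
abbrev U (L : Type) (r : ℕ) : Type := L → Fin (r + 1) → unitInterval

/-- Resampling one level. -/
def upd (lvl : Fin (r + 1)) (u : U L r) (v : L → unitInterval) : U L r :=
  fun ω j => if j = lvl then v ω else u ω j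

/-- The law of the fresh uniforms. -/
noncomputable abbrev VV (L : Type) [Fintype L] : Measure (L → unitInterval) :=
  Measure.pi fun _ : L => (volume : Measure unitInterval)

instance : IsProbabilityMeasure (uniformArrays L r) := by unfold uniformArrays; infer_instance

omit [Fintype L] in
theorem measurable_upd (lvl : Fin (r + 1)) :
    Measurable fun w : U L r × (L → unitInterval) => upd lvl w.1 w.2 := by
  refine measurable_pi_lambda _ fun ω => measurable_pi_lambda _ fun j => ?_
  unfold upd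
  split_ifs <;> fun_prop

theorem pmStep_eq (m : ℝ) (lvl : Fin (r + 1)) (W : U L r → ℝ) (u : U L r) :
    pmStep m lvl W u = (∫ v, W (upd lvl u v) ^ m ∂(VV L)) ^ (1 / m) := rfl

/-- Measurable functions with values in `[exp (-B), exp B]`. -/
structure Bd (B : ℝ) (W : U L r → ℝ) : Prop where
  meas : Measurable W
  lo : ∀ u, Real.exp (-B) ≤ W u
  hi : ∀ u, W u ≤ Real.exp B

variable {B B' m : ℝ} {W W' : U L r → ℝ}

omit [Fintype L] in
theorem Bd.pos (h : Bd B W) (u : U L r) : 0 < W u := (Real.exp_pos _).trans_le (h.lo u)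

omit [Fintype L] in
theorem Bd.abs_log (h : Bd B W) (u : U L r) : |Real.log (W u)| ≤ B := by
  have a := Real.log_le_log (Real.exp_pos _) (h.lo u)
  have b := Real.log_le_log (h.pos u) (h.hi u)
  rw [Real.log_exp] at a b
  exact abs_le.2 ⟨a, b⟩

theorem Bd.integrable_log (h : Bd B W) :
    Integrable (fun u => Real.log (W u)) (uniformArrays L r) :=
  (integrable_const B).mono' h.meas.log.aestronglyMeasurable (Eventually.of_forall h.abs_log)

omit [Fintype L] in
theorem Bd.measurable_upd (h : Bd B W) (lvl : Fin (r + 1)) (u : U L r) :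
    Measurable fun v => W (upd lvl u v) :=
  h.meas.comp ((PM.measurable_upd lvl).comp measurable_prodMk_left)

theorem Bd.integrable (h : Bd B W) (hm : 0 < m) (lvl : Fin (r + 1)) (u : U L r) :
    Integrable (fun v => W (upd lvl u v) ^ m) (VV L) := by
  refine (integrable_const (Real.exp B ^ m)).mono'
    ((h.measurable_upd lvl u).pow_const m).aestronglyMeasurable (Eventually.of_forall fun v => ?_)
  rw [Real.norm_eq_abs, abs_of_nonneg (Real.rpow_nonneg (h.pos _).le _)]
  exact Real.rpow_le_rpow (h.pos _).le (h.hi _) hm.le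

theorem Bd.int_lo (h : Bd B W) (hm : 0 < m) (lvl : Fin (r + 1)) (u : U L r) :
    Real.exp (-B) ^ m ≤ ∫ v, W (upd lvl u v) ^ m ∂(VV L) := by
  have := integral_mono (integrable_const (Real.exp (-B) ^ m)) (h.integrable hm lvl u)
    fun v => Real.rpow_le_rpow (Real.exp_pos _).le (h.lo _) hm.le
  simpa using this

theorem Bd.int_hi (h : Bd B W) (hm : 0 < m) (lvl : Fin (r + 1)) (u : U L r) :
    ∫ v, W (upd lvl u v) ^ m ∂(VV L) ≤ Real.exp B ^ m := by
  have := integral_mono (h.integrable hm lvl u) (integrable_const (Real.exp B ^ m))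
    fun v => Real.rpow_le_rpow (h.pos _).le (h.hi _) hm.le
  simpa using this

theorem rpow_rpow_inv {x : ℝ} (hx : 0 ≤ x) (hm : 0 < m) : (x ^ m) ^ (1 / m) = x := by
  rw [← Real.rpow_mul hx, mul_one_div_cancel hm.ne', Real.rpow_one]

theorem Bd.pmStep (h : Bd B W) (hm : 0 < m) (lvl : Fin (r + 1)) : Bd B (pmStep m lvl W) := by
  have p1 : 0 ≤ 1 / m := by positivity
  refine ⟨?_, fun u => ?_, fun u => ?_⟩
  · have : StronglyMeasurable fun w : U L r × (L → unitInterval) => W (upd lvl w.1 w.2) ^ m :=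
      ((h.meas.comp (PM.measurable_upd lvl)).pow_const m).stronglyMeasurable
    exact (this.integral_prod_right' (ν := VV L)).measurable.pow_const _
  · rw [pmStep_eq, ← rpow_rpow_inv (Real.exp_pos (-B)).le hm]
    exact Real.rpow_le_rpow (by positivity) (h.int_lo hm lvl u) p1
  · rw [pmStep_eq, ← rpow_rpow_inv (Real.exp_pos B).le hm]
    exact Real.rpow_le_rpow (le_trans (by positivity) (h.int_lo hm lvl u)) (h.int_hi hm lvl u) p1

theorem pmStep_le (h : Bd B W) (h' : Bd B' W') (hm : 0 < m) (lvl : Fin (r + 1)) {t : ℝ}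
    (ht : 0 ≤ t) (hle : ∀ u, W u ≤ t * W' u) (u : U L r) :
    pmStep m lvl W u ≤ t * pmStep m lvl W' u := by
  have a : ∫ v, W (upd lvl u v) ^ m ∂(VV L) ≤ t ^ m * ∫ v, W' (upd lvl u v) ^ m ∂(VV L) := by
    rw [← integral_const_mul]
    refine integral_mono (h.integrable hm lvl u) ((h'.integrable hm lvl u).const_mul _) fun v => ?_
    simp only
    rw [← Real.mul_rpow ht (h'.pos _).le]
    exact Real.rpow_le_rpow (h.pos _).le (hle _) hm.le
  have b := Real.rpow_le_rpow (le_trans (by positivity) (h.int_lo hm lvl u)) a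
    (show 0 ≤ 1 / m by positivity)
  rwa [Real.mul_rpow (by positivity) (le_trans (by positivity) (h'.int_lo hm lvl u)),
    rpow_rpow_inv ht hm] at b

/-- Power means along a list of levels. -/
noncomputable def pmL (m : Fin r → ℝ) (l : List (Fin r)) (W : U L r → ℝ) : U L r → ℝ :=
  l.foldr (fun d acc => pmStep (m d) d.succ acc) W

theorem Bd.pmL {m : Fin r → ℝ} (hm : ∀ d, 0 < m d) (h : Bd B W) (l : List (Fin r)) :
    Bd B (pmL m l W) := by
  induction l with
  | nil => exact h
  | cons d l ih => exact ih.pmStep (hm d) _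

theorem pmL_le {m : Fin r → ℝ} (hm : ∀ d, 0 < m d) (h : Bd B W) (h' : Bd B' W') {t : ℝ}
    (ht : 0 ≤ t) (hle : ∀ u, W u ≤ t * W' u) (l : List (Fin r)) :
    ∀ u, pmL m l W u ≤ t * pmL m l W' u := by
  induction l with
  | nil => exact hle
  | cons d l ih => exact pmStep_le (h.pmL hm l) (h'.pmL hm l) (hm d) _ ht ih

section ml
variable [DecidableEq L]

theorem wq_nonneg {q : L → ℝ} (hq : ∀ ω, q ω ∈ Set.Icc (0 : ℝ) 1) (s : L → Bool) :
    0 ≤ ∏ ω, if s ω = true then q ω else 1 - q ω :=
  Finset.prod_nonneg fun ω _ => by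
    split_ifs
    · exact (hq ω).1
    · linarith [(hq ω).2]

theorem wq_sum (q : L → ℝ) : ∑ s : L → Bool, ∏ ω, (if s ω = true then q ω else 1 - q ω) = 1 := by
  have := Finset.prod_univ_sum (fun _ : L => (univ : Finset Bool))
    (fun ω b => if b = true then q ω else 1 - q ω)
  rw [Fintype.piFinset_univ] at this
  rw [← this]
  simp

theorem mlW_le {q : L → ℝ} (hq : ∀ ω, q ω ∈ Set.Icc (0 : ℝ) 1) {A A' : (L → Bool) → ℝ} {t : ℝ}
    (h : ∀ s, A s ≤ t * A' s) : mlW A q ≤ t * mlW A' q := by
  unfold mlW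
  rw [Finset.mul_sum]
  refine Finset.sum_le_sum fun s _ => ?_
  rw [← mul_assoc]
  exact mul_le_mul_of_nonneg_right (h s) (wq_nonneg hq s)

theorem mlW_const (q : L → ℝ) (c : ℝ) : mlW (fun _ => c) q = c := by
  unfold mlW
  rw [← Finset.mul_sum, wq_sum, mul_one]

theorem bd_mlW {q : (Fin (r + 1) → unitInterval) → ℝ} (hq : Measurable q)
    (hq1 : ∀ u, q u ∈ Set.Icc (0 : ℝ) 1) {V : (L → Bool) → ℝ} (hV : ∀ s, |V s| ≤ B) :
    Bd B fun u : U L r => mlW (fun s => Real.exp (V s)) fun ω => q (u ω) := by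
  refine ⟨?_, fun u => ?_, fun u => ?_⟩
  · unfold mlW
    refine Finset.measurable_sum _ fun s _ => Measurable.const_mul
      (Finset.measurable_prod _ fun ω _ => ?_) _
    split_ifs
    · exact hq.comp (measurable_pi_apply ω)
    · exact (hq.comp (measurable_pi_apply ω)).const_sub 1
  · have := mlW_le (q := fun ω => q (u ω)) (fun ω => hq1 _) (A := fun _ => Real.exp (-B))
      (A' := fun s => Real.exp (V s)) (t := 1)
      fun s => by rw [one_mul]; exact Real.exp_le_exp.2 (abs_le.1 (hV s)).1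
    rwa [mlW_const, one_mul] at this
  · have := mlW_le (q := fun ω => q (u ω)) (fun ω => hq1 _) (A' := fun _ => Real.exp B)
      (A := fun s => Real.exp (V s)) (t := 1)
      fun s => by rw [one_mul]; exact Real.exp_le_exp.2 (abs_le.1 (hV s)).2
    rwa [mlW_const, one_mul] at this

theorem GQ_eq (m : Fin r → ℝ) (q : (Fin (r + 1) → unitInterval) → ℝ) (A : (L → Bool) → ℝ) :
    GQ m q A = ∫ u, Real.log (pmL m (List.finRange r)
      (fun u' : U L r => mlW A fun ω => q (u' ω)) u) ∂(uniformArrays L r) := rfl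

theorem GQ_good {m : Fin r → ℝ} (hm : ∀ d, 0 < m d) {q : (Fin (r + 1) → unitInterval) → ℝ}
    (hq : Measurable q) (hq1 : ∀ u, q u ∈ Set.Icc (0 : ℝ) 1) :
    Good fun V : (L → Bool) → ℝ => GQ m q fun s => Real.exp (V s) := by
  intro V V' c hc
  have b := bd_mlW hq hq1 (V := V) fun s => norm_le_pi_norm V s
  have b' := bd_mlW hq hq1 (V := V') fun s => norm_le_pi_norm V' s
  have le := pmL_le hm b b' (Real.exp_pos c).le (fun u => mlW_le (fun ω => hq1 _) fun s => by
    rw [← Real.exp_add]; exact Real.exp_le_exp.2 (by linarith [hc s])) (List.finRange r)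
  have i := (b.pmL hm (List.finRange r)).integrable_log
  have i' := (b'.pmL hm (List.finRange r)).integrable_log
  have := integral_mono i (i'.add (integrable_const c)) fun u => by
    have x := Real.log_le_log ((b.pmL hm _).pos u) (le u)
    rw [Real.log_mul (Real.exp_pos c).ne' ((b'.pmL hm _).pos u).ne', Real.log_exp] at x
    simp only [Pi.add_apply]
    linarith
  rw [integral_add' i' (integrable_const c)] at this
  simpa [GQ_eq] using this

theorem abs_GQ_le {m : Fin r → ℝ} (hm : ∀ d, 0 < m d) {q : (Fin (r + 1) → unitInterval) → ℝ}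
    (hq : Measurable q) (hq1 : ∀ u, q u ∈ Set.Icc (0 : ℝ) 1) {V : (L → Bool) → ℝ}
    (hV : ∀ s, |V s| ≤ B) : |GQ m q fun s => Real.exp (V s)| ≤ B := by
  have := CP.abs_integral_le (integrable_const (μ := uniformArrays L r) B)
    ((bd_mlW hq hq1 hV).pmL hm (List.finRange r)).abs_log
  simpa [GQ_eq] using this

end ml

/-! ### Finite-valued functions of independent variables -/

theorem integral_pi_sampler {X S : Type} [MeasurableSpace X] {P : Measure X}
    [IsProbabilityMeasure P] [Fintype S] [DecidableEq L] {ψ : L → X → S} {w : L → S → ℝ}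
    (h : ∀ ω s, MeasurableSet (ψ ω ⁻¹' {s}) ∧ P.real (ψ ω ⁻¹' {s}) = w ω s) (G : (L → S) → ℝ) :
    ∫ v, G (fun ω => ψ ω (v ω)) ∂(Measure.pi fun _ : L => P) = ∑ s, (∏ ω, w ω (s ω)) * G s := by
  classical
  have e : ∀ v : L → X, G (fun ω => ψ ω (v ω)) =
      ∑ s : L → S, (∏ ω, (ψ ω ⁻¹' {s ω}).indicator (fun _ => (1 : ℝ)) (v ω)) * G s := by
    intro v
    rw [Finset.sum_eq_single fun ω => ψ ω (v ω)]
    · simp
    · intro s _ hs
      obtain ⟨ω, hω⟩ := Function.ne_iff.1 hs
      rw [Finset.prod_eq_zero (Finset.mem_univ ω), zero_mul]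
      refine Set.indicator_of_notMem (fun h => hω ?_) (fun _ => (1 : ℝ))
      exact (Set.mem_singleton_iff.1 h).symm
    · simp
  simp only [e]
  rw [integral_finset_sum]
  · refine Finset.sum_congr rfl fun s _ => ?_
    rw [integral_mul_const, integral_fintype_prod_eq_prod
      (fun ω x => (ψ ω ⁻¹' {s ω}).indicator (fun _ => (1 : ℝ)) x)]
    congr 1
    refine Finset.prod_congr rfl fun ω _ => ?_
    rw [integral_indicator (h ω _).1, ← (h ω _).2]
    simp
  · intro s _
    exact (Integrable.fintype_prod (f := fun ω x => (ψ ω ⁻¹' {s ω}).indicator (fun _ => (1 : ℝ)) x)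
      fun ω => (integrable_const 1).indicator (h ω _).1).mul_const _

end Crest.Agent.H9.MP.PM
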