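import Crest.Agent.H9.MP.T1a
import Crest.Agent.H9.MP.T7a
import Crest.Agent.H9.MP.Poi
import Crest.Agent.H9.MP.T8ax

/-! MP-T8a: finite trials are trials. -/

/-
Sketch. siteTerm h θs x = (1/2) mlW (siteW θs h) (tilt x true), edgeTerm = mlW e^θ; tilt x false = 1 - tilt x true. powerMeans of (1/2) W = (1/2) powerMeans W (bounded positive measurable W);
GQ is 1-Lipschitz in log W for q ∈ [0,1], which gives measurability/integrability in (θs,h). GQ_sample: by downward induction on the level d, the partial power mean at u is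
T e (prodK L K) (r+1-d) (zip of sampleH (u ω) d) (W ∘ σ (ι0 (u ω 0))); an integral over v : L → unitInterval of a function of (φ (h ω) (v ω))_ω is a finite sum with product weights.
FT1: X u = (1/2) log (q/(1-q)), q = sampleQ ∈ (0,1) by PosSpin, m d = (d+1)/(r+1).
-/

set_option autoImplicit false

namespace Crest.Agent.H9.MP

open MeasureTheory Crest.ProbabilityR.Diluted

namespace PM

open Finset Filter
open scoped BigOperators

theorem tilt_pos (x : ℝ) (b : Bool) : 0 < tilt x b := by
  unfold tilt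
  have := Real.cosh_pos x
  positivity

theorem tilt_false (x : ℝ) : tilt x false = 1 - tilt x true := by
  unfold tilt spinVal
  have := Real.cosh_pos x
  rw [eq_sub_iff_add_eq, ← add_div, div_eq_one_iff_eq (by positivity), Real.cosh_eq]
  simp only [Bool.false_eq_true, if_false, if_true, mul_one, mul_neg]
  ring

theorem tilt_eq (x : ℝ) (b : Bool) :
    tilt x b = if b = true then tilt x true else 1 - tilt x true := by
  cases b <;> simp [tilt_false]

theorem tilt_mem (x : ℝ) : tilt x true ∈ Set.Icc (0 : ℝ) 1 :=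
  ⟨(tilt_pos x true).le, by linarith [tilt_pos x false, tilt_false x]⟩

theorem measurable_tilt : Measurable fun x => tilt x true := by
  unfold tilt
  fun_prop

theorem edgeTerm_eq {p : ℕ} (θ : Inter p) (x : Fin p → ℝ) :
    edgeTerm θ x = mlW (fun s => Real.exp (θ s)) fun ℓ => tilt (x ℓ) true := by
  unfold edgeTerm mlW
  simp only [← tilt_eq]

theorem siteTerm_eq {p k : ℕ} (h : ℝ) (θs : Fin k → Inter p) (x : Fin k → Fin (p - 1) → ℝ) :
    siteTerm h θs x = mlW (fun s => Real.exp (Real.log (siteW θs h s) + -Real.log 2))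
      fun ω : Fin k × Fin (p - 1) => tilt (x ω.1 ω.2) true := by
  unfold siteTerm mlW siteMessage
  simp only [← tilt_eq, Real.exp_add, Real.exp_log (CP.siteW_pos _ _ _), Real.exp_neg,
    Real.exp_log two_pos]
  unfold siteW
  simp only [Real.exp_add, Real.exp_sum, Finset.sum_mul, Finset.mul_sum]
  rw [Finset.sum_comm]
  refine Finset.sum_congr rfl fun ε _ => ?_
  have pos : ∀ j : Fin k, 0 < ∑ s' : Fin (p - 1) → Bool,
      Real.exp (θs j fun ℓ => if h : ℓ.val < p - 1 then s' ⟨ℓ.val, h⟩ else ε) *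
        ∏ ℓ, tilt (x j ℓ) (s' ℓ) := fun j =>
    Finset.sum_pos (fun s' _ => mul_pos (Real.exp_pos _)
      (Finset.prod_pos fun ℓ _ => tilt_pos _ _)) univ_nonempty
  simp only [Real.exp_log (pos _)]
  rw [Finset.prod_univ_sum, Fintype.piFinset_univ, Finset.mul_sum, Finset.mul_sum]
  refine (Fintype.sum_equiv (Equiv.curry _ _ _) _ _ fun s => ?_).symm
  rw [Finset.prod_mul_distrib, Fintype.prod_prod_type]
  simp only [Equiv.curry_apply, Function.curry]
  unfold snocS
  ring

section site
variable {p : ℕ} {μ : Measure (Inter p)} [IsProbabilityMeasure μ] {ν : Measure ℝ}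
  [IsProbabilityMeasure ν] {r : ℕ} {m : Fin r → ℝ} {q : (Fin (r + 1) → unitInterval) → ℝ}

theorem GQ_site (k : ℕ) (w : (Fin k → Inter p) × ℝ) :
    GQ m q (siteW w.1 w.2) = GQ m q fun s => Real.exp (Real.log (siteW w.1 w.2 s)) := by
  simp only [Real.exp_log (CP.siteW_pos _ _ _)]

theorem abs_GQ_site_le (hm : ∀ d, 0 < m d) (hq : Measurable q)
    (hq1 : ∀ u, q u ∈ Set.Icc (0 : ℝ) 1) (k : ℕ) (w : (Fin k → Inter p) × ℝ) :
    |GQ m q (siteW w.1 w.2)| ≤ 1 + ‖w.2‖ + ∑ j, ‖w.1 j‖ := by
  rw [GQ_site]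
  exact abs_GQ_le hm hq hq1 (CP.abs_log_siteW_le _ _)

theorem continuous_GQ_site (hm : ∀ d, 0 < m d) (hq : Measurable q)
    (hq1 : ∀ u, q u ∈ Set.Icc (0 : ℝ) 1) (k : ℕ) :
    Continuous fun w : (Fin k → Inter p) × ℝ => GQ m q (siteW w.1 w.2) := by
  simp only [GQ_site k]
  exact (GQ_good hm hq hq1).continuous.comp CP.continuous_log_siteW

theorem integrable_GQ_site (hμ : Integrable (fun θ : Inter p => ‖θ‖) μ)
    (hν : Integrable (fun x : ℝ => ‖x‖) ν) (hm : ∀ d, 0 < m d) (hq : Measurable q)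
    (hq1 : ∀ u, q u ∈ Set.Icc (0 : ℝ) 1) (k : ℕ) :
    Integrable (fun w : (Fin k → Inter p) × ℝ => GQ m q (siteW w.1 w.2))
      ((Measure.pi fun _ : Fin k => μ).prod ν) :=
  (CP.integrable_add_prod hμ hν 1).mono' (continuous_GQ_site hm hq hq1 k).aestronglyMeasurable
    (Eventually.of_forall (abs_GQ_site_le hm hq hq1 k))

theorem abs_integral_GQ_site_le (hμ : Integrable (fun θ : Inter p => ‖θ‖) μ)
    (hν : Integrable (fun x : ℝ => ‖x‖) ν) (hm : ∀ d, 0 < m d) (hq : Measurable q)
    (hq1 : ∀ u, q u ∈ Set.Icc (0 : ℝ) 1) (k : ℕ) :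
    |∫ w : (Fin k → Inter p) × ℝ, GQ m q (siteW w.1 w.2) ∂((Measure.pi fun _ : Fin k => μ).prod ν)|
      ≤ (1 + ∫ h, ‖h‖ ∂ν + ∫ θ, ‖θ‖ ∂μ) * (1 + k) := by
  refine (CP.abs_integral_le (CP.integrable_add_prod hμ hν 1)
    (abs_GQ_site_le hm hq hq1 k)).trans ?_
  rw [CP.integral_add_prod hμ hν 1]
  have a1 : 0 ≤ ∫ h, ‖h‖ ∂ν := integral_nonneg fun _ => norm_nonneg _
  have a2 : 0 ≤ ∫ θ, ‖θ‖ ∂μ := integral_nonneg fun _ => norm_nonneg _
  have : (0 : ℝ) ≤ k := Nat.cast_nonneg k
  nlinarith [mul_nonneg this a1]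

end site

section sample
variable {S I L : Type} {r : ℕ}

theorem length_sampleH (φ : List S → unitInterval → S) (u : Fin (r + 1) → unitInterval) (n : ℕ) :
    (sampleH φ u n).length = n := by
  induction n with
  | zero => rfl
  | succ n ih => simp [sampleH, ih]

/-- The joint history of all labels. -/
def zipH (φ : List S → unitInterval → S) (u : U L r) : ℕ → List (L → S)
  | 0 => []
  | n + 1 => (fun ω => φ (sampleH φ (u ω) n) (u ω (Fin.ofNat (r + 1) (n + 1)))) :: zipH φ u n

theorem zipH_map (φ : List S → unitInterval → S) (u : U L r) (n : ℕ) (ω : L) :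
    (zipH φ u n).map (fun t => t ω) = sampleH φ (u ω) n := by
  induction n with
  | zero => rfl
  | succ n ih => simp [zipH, sampleH, ih]

theorem ofNat_ne {d : Fin r} {n : ℕ} (hn : n + 1 ≤ d.val) : Fin.ofNat (r + 1) (n + 1) ≠ d.succ := by
  intro h
  have := congrArg Fin.val h
  have h2 := d.isLt
  simp only [Fin.val_ofNat, Fin.val_succ] at this
  rw [Nat.mod_eq_of_lt (by omega)] at this
  omega

theorem ofNat_eq (d : Fin r) : Fin.ofNat (r + 1) (d.val + 1) = d.succ := by
  apply Fin.ext
  have h2 := d.isLt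
  simp only [Fin.val_ofNat, Fin.val_succ]
  exact Nat.mod_eq_of_lt (by omega)

theorem sampleH_upd (φ : List S → unitInterval → S) (d : Fin r) (u : U L r)
    (v : L → unitInterval) (ω : L) (n : ℕ) (hn : n ≤ d.val) :
    sampleH φ (upd d.succ u v ω) n = sampleH φ (u ω) n := by
  induction n with
  | zero => rfl
  | succ n ih => simp only [sampleH, ih (by omega), upd, if_neg (ofNat_ne hn)]

theorem zipH_upd (φ : List S → unitInterval → S) (d : Fin r) (u : U L r)
    (v : L → unitInterval) (n : ℕ) (hn : n ≤ d.val) :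
    zipH φ (upd d.succ u v) n = zipH φ u n := by
  induction n with
  | zero => rfl
  | succ n ih =>
    simp only [zipH, ih (by omega), sampleH_upd φ d u v _ n (by omega)]
    simp only [upd, if_neg (ofNat_ne hn)]

theorem zipH_upd_succ (φ : List S → unitInterval → S) (d : Fin r) (u : U L r)
    (v : L → unitInterval) :
    zipH φ (upd d.succ u v) (d.val + 1) =
      (fun ω => φ (sampleH φ (u ω) d) (v ω)) :: zipH φ u d := by
  simp only [zipH, zipH_upd φ d u v d le_rfl, sampleH_upd φ d u v _ d le_rfl, ofNat_eq]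
  simp only [upd, if_true]

theorem mlW_sample [Fintype S] [Fintype L] [DecidableEq L] {w : L → S → ℝ}
    (h1 : ∀ ω, ∑ s, w ω s = 1) (τ : L → S → Bool) (W : (L → Bool) → ℝ) :
    mlW W (fun ω => ∑ s, w ω s * if τ ω s = true then 1 else 0) =
      ∑ s : L → S, (∏ ω, w ω (s ω)) * W fun ω => τ ω (s ω) := by
  unfold mlW
  have e : ∀ (b : L → Bool) (ω : L), (if b ω = true then ∑ s, w ω s * if τ ω s = true then 1 else 0
      else 1 - ∑ s, w ω s * if τ ω s = true then 1 else 0) =
      ∑ s, w ω s * if τ ω s = b ω then 1 else 0 := by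
    intro b ω
    cases hb : b ω
    · simp only [Bool.false_eq_true, if_false]
      rw [sub_eq_iff_eq_add, ← Finset.sum_add_distrib]
      refine (h1 ω).symm.trans (Finset.sum_congr rfl fun s _ => ?_)
      cases τ ω s <;> simp
    · simp
  simp only [e, Finset.prod_univ_sum, Fintype.piFinset_univ, Finset.mul_sum]
  rw [Finset.sum_comm]
  refine Finset.sum_congr rfl fun s _ => ?_
  rw [Finset.sum_eq_single fun ω => τ ω (s ω)]
  · simp [mul_comm]
  · intro b _ hb
    obtain ⟨ω, hω⟩ := Function.ne_iff.1 hb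
    rw [Finset.prod_eq_zero (Finset.mem_univ ω), mul_zero]
    rw [if_neg (Ne.symm hω), mul_zero]
  · simp

theorem measurable_sampleQ [Fintype S] [Fintype I] (K : Ker S) (σ : I → List S → Bool)
    {ι0 : unitInterval → I} {φ : List S → unitInterval → S}
    (hι : ∀ i, MeasurableSet (ι0 ⁻¹' {i})) (hφ : ∀ h s, MeasurableSet (φ h ⁻¹' {s})) :
    Measurable (sampleQ (r := r) K σ ι0 φ) := by
  letI : MeasurableSpace S := ⊤
  letI : MeasurableSpace I := ⊤
  letI : MeasurableSpace (List S) := ⊤
  have m1 : Measurable ι0 := measurable_to_countable' hι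
  have m2 : Measurable fun w : List S × unitInterval => φ w.1 w.2 :=
    measurable_from_prod_countable_right fun h => measurable_to_countable' (hφ h)
  have m3 : ∀ n, Measurable fun u : Fin (r + 1) → unitInterval => sampleH φ u n := by
    intro n
    induction n with
    | zero => exact measurable_const
    | succ n ih =>
      exact (Measurable.of_discrete (f := fun w : S × List S => w.1 :: w.2)).comp
        ((m2.comp (ih.prodMk (measurable_pi_apply _))).prodMk ih)
  exact (Measurable.of_discrete (f := fun w : I × List S =>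
    ∑ s, K w.2 s * if σ w.1 (s :: w.2) = true then (1 : ℝ) else 0)).comp
    ((m1.comp (measurable_pi_apply 0)).prodMk (m3 r))

end sample

end PM

theorem trialFunctional_eq_TF {p : ℕ} {α : ℝ} (hα : 0 ≤ α) {μ : Measure (Inter p)}
    [IsProbabilityMeasure μ] {ν : Measure ℝ} [IsProbabilityMeasure ν]
    (hμ : Integrable (fun θ => supNorm θ) μ) (hν : Integrable (fun x : ℝ => x) ν) {r : ℕ}
    {m : Fin r → ℝ} (hm : AdmissibleExponents m) {X : (Fin (r + 1) → unitInterval) → ℝ}
    (hX : Measurable X) :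
    trialFunctional p α μ ν r m X = TF p α μ ν m fun u => tilt (X u) true := by
  have hμ' : Integrable (fun θ : Inter p => ‖θ‖) μ := by simpa only [supNorm_eq_norm] using hμ
  have hm0 : ∀ d, 0 < m d := fun d => (hm.2 d).1
  have hq : Measurable fun u => tilt (X u) true := PM.measurable_tilt.comp hX
  have hq1 : ∀ u, tilt (X u) true ∈ Set.Icc (0 : ℝ) 1 := fun u => PM.tilt_mem _
  have hl : 0 ≤ α * p := by positivity
  unfold trialFunctional TF
  simp only [PM.edgeTerm_eq, PM.siteTerm_eq]
  congr 1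
  have e : ∀ k : ℕ, ∫ θs, ∫ h, ∫ u, Real.log (powerMeans m
      (fun u' : (Fin k × Fin (p - 1)) → Fin (r + 1) → unitInterval =>
        mlW (fun s => Real.exp (Real.log (siteW θs h s) + -Real.log 2))
          fun ω : Fin k × Fin (p - 1) => tilt (X (u' (ω.1, ω.2))) true) u)
        ∂(uniformArrays (Fin k × Fin (p - 1)) r) ∂ν ∂(Measure.pi fun _ : Fin k => μ) =
      ∫ w : (Fin k → Inter p) × ℝ, GQ m (fun u => tilt (X u) true) (siteW w.1 w.2)
        ∂((Measure.pi fun _ : Fin k => μ).prod ν) + -Real.log 2 := by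
    intro k
    have i := PM.integrable_GQ_site hμ' hν.norm hm0 hq hq1 k
    have x := integral_prod _ (i.add (integrable_const (-Real.log 2)))
    rw [integral_add' i (integrable_const _)] at x
    simp only [integral_const, probReal_univ, smul_eq_mul, one_mul, Pi.add_apply] at x
    rw [x]
    refine integral_congr_ae (Filter.Eventually.of_forall fun θs => ?_)
    refine integral_congr_ae (Filter.Eventually.of_forall fun h => ?_)
    have y := (PM.GQ_good hm0 hq hq1).add_const (fun s => Real.log (siteW θs h s)) (-Real.log 2)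
    simp only [Real.exp_log (CP.siteW_pos _ _ _)] at y
    exact y
  have e' : ∀ k : ℕ, ∫ θs, ∫ h, GQ m (fun u => tilt (X u) true) (siteW θs h) ∂ν
      ∂(Measure.pi fun _ : Fin k => μ) =
      ∫ w : (Fin k → Inter p) × ℝ, GQ m (fun u => tilt (X u) true) (siteW w.1 w.2)
        ∂((Measure.pi fun _ : Fin k => μ).prod ν) := fun k =>
    (integral_prod _ (PM.integrable_GQ_site hμ' hν.norm hm0 hq hq1 k)).symm
  simp only [e, e', mul_add]
  rw [(summable_poi hl (PM.abs_integral_GQ_site_le hμ' hν.norm hm0 hq hq1)).tsum_add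
    ((hasSum_poi _).summable.mul_right _), tsum_mul_right, (hasSum_poi _).tsum_eq]
  ring

theorem GQ_sample {S I L : Type} [Fintype S] [Fintype I] [DecidableEq S] [DecidableEq I]
    [Fintype L] [DecidableEq L] {r : ℕ} {m : Fin r → ℝ} {e : ℕ → ℝ} (he0 : e 0 = 1)
    (hem : ∀ d : Fin r, m d = e (r - d.val)) (hpos : ∀ d, 0 < m d) {K : Ker S} (hK : IsKer K)
    (σ : I → List S → Bool) (ι0 : unitInterval → I) (φ : List S → unitInterval → S)
    (hι : ∀ i, MeasurableSet (ι0 ⁻¹' {i}) ∧
      (volume : Measure unitInterval).real (ι0 ⁻¹' {i}) = (Fintype.card I : ℝ)⁻¹)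
    (hφ : ∀ h s, h.length < r → MeasurableSet (φ h ⁻¹' {s}) ∧
      (volume : Measure unitInterval).real (φ h ⁻¹' {s}) = K h s)
    {W : (L → Bool) → ℝ} (hW : ∀ s, 0 < W s) :
    GQ m (sampleQ K σ ι0 φ) W = Gprod e (r + 1) K σ W := by
  have key : ∀ j d : ℕ, d + j = r → ∀ u : PM.U L r,
      PM.pmL m ((List.finRange r).drop d)
        (fun u' : PM.U L r => mlW W fun ω => sampleQ K σ ι0 φ (u' ω)) u =
      T e (prodK L K) (j + 1) (PM.zipH φ u d)
        fun H => W fun ω => σ (ι0 (u ω 0)) (H.map fun t => t ω) := by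
    intro j
    induction j with
    | zero =>
      intro d hd u
      obtain rfl : d = r := by omega
      rw [List.drop_of_length_le (by simp)]
      simp only [PM.pmL, List.foldr_nil, T, he0, Real.rpow_one, div_one, zero_add, prodK,
        PM.zipH_map, List.map_cons, sampleQ]
      exact PM.mlW_sample (fun ω => hK.2 _) _ W
    | succ j ih =>
      intro d hd u
      have hd' : d < r := by omega
      rw [List.drop_eq_getElem_cons (by simpa using hd')]
      have g : (List.finRange r)[d]'(by simpa using hd') = ⟨d, hd'⟩ := by simp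
      rw [g]
      change pmStep (m ⟨d, hd'⟩) (Fin.succ ⟨d, hd'⟩) (PM.pmL m ((List.finRange r).drop (d + 1)) _)
        u = _
      rw [PM.pmStep_eq]
      simp only [ih (d + 1) (by omega)]
      have z := fun v => PM.zipH_upd_succ φ ⟨d, hd'⟩ u v
      simp only at z
      have z0 : ∀ v ω, PM.upd (Fin.succ ⟨d, hd'⟩) u v ω 0 = u ω 0 := fun v ω =>
        if_neg (Fin.succ_ne_zero _).symm
      simp only [z, z0]
      have me : m ⟨d, hd'⟩ = e (j + 1) := by rw [hem]; congr 1; simp only; omega
      rw [PM.integral_pi_sampler (ψ := fun ω => φ (sampleH φ (u ω) d))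
        (w := fun ω => K (sampleH φ (u ω) d))
        (fun ω s => hφ _ s (by rw [PM.length_sampleH]; exact hd'))
        (fun s => T e (prodK L K) (j + 1) (s :: PM.zipH φ u d)
          (fun H => W fun ω => σ (ι0 (u ω 0)) (H.map fun t => t ω)) ^ m ⟨d, hd'⟩), me]
      conv_rhs => rw [T]
      simp only [prodK, PM.zipH_map]
  have k0 := key r 0 (zero_add r)
  rw [List.drop_zero] at k0
  rw [PM.GQ_eq]
  simp only [k0]
  have hm := measurePreserving_eval (fun _ : Fin (r + 1) => (volume : Measure unitInterval)) 0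
  have := PM.integral_pi_sampler (L := L)
    (P := Measure.pi fun _ : Fin (r + 1) => (volume : Measure unitInterval))
    (ψ := fun _ x => ι0 (x 0)) (w := fun _ _ => (Fintype.card I : ℝ)⁻¹)
    (fun _ i => ⟨hm.measurable (hι i).1, by
      rw [← (hι i).2]
      exact hm.measureReal_preimage (hι i).1.nullMeasurableSet⟩)
    (fun i => Real.log (T e (prodK L K) (r + 1) [] fun H => W fun ω => σ (i ω) (H.map fun t => t ω)))
  refine this.trans ?_
  unfold Gprod
  rw [Fintype.expect_eq_sum_div_card, div_eq_inv_mul, Finset.mul_sum]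
  simp

theorem exists_sampler {S : Type} [Fintype S] {w : S → ℝ} (h0 : ∀ s, 0 ≤ w s) (h1 : ∑ s, w s = 1) :
    ∃ φ : unitInterval → S, ∀ s, MeasurableSet (φ ⁻¹' {s}) ∧
      (volume : Measure unitInterval).real (φ ⁻¹' {s}) = w s := by
  letI : MeasurableSpace S := ⊤
  haveI : Nonempty S := by
    by_contra h
    rw [not_nonempty_iff] at h
    simp at h1
  let P : PMF S := PMF.ofFintype (fun s => ENNReal.ofReal (w s)) (by
    rw [← ENNReal.ofReal_sum_of_nonneg fun s _ => h0 s, h1, ENNReal.ofReal_one])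
  obtain ⟨φ, hφ, hmap⟩ := P.toMeasure.exists_measurable_map_eq
  refine ⟨φ, fun s => ⟨hφ (measurableSet_singleton s), ?_⟩⟩
  rw [Measure.real, ← Measure.map_apply hφ (measurableSet_singleton s), hmap,
    PMF.toMeasure_apply_singleton _ _ (measurableSet_singleton s)]
  simp [P, h0 s]

theorem TF_sample {p : ℕ} (α : ℝ) (μ : Measure (Inter p)) (ν : Measure ℝ) {S I : Type}
    [Fintype S] [Fintype I] {r : ℕ} {m : Fin r → ℝ} {e : ℕ → ℝ} (he0 : e 0 = 1)
    (hem : ∀ d : Fin r, m d = e (r - d.val)) (hpos : ∀ d, 0 < m d) {K : Ker S} (hK : IsKer K)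
    (σ : I → List S → Bool) (ι0 : unitInterval → I) (φ : List S → unitInterval → S)
    (hι : ∀ i, MeasurableSet (ι0 ⁻¹' {i}) ∧
      (volume : Measure unitInterval).real (ι0 ⁻¹' {i}) = (Fintype.card I : ℝ)⁻¹)
    (hφ : ∀ h s, h.length < r → MeasurableSet (φ h ⁻¹' {s}) ∧
      (volume : Measure unitInterval).real (φ h ⁻¹' {s}) = K h s) :
    TF p α μ ν m (sampleQ K σ ι0 φ) = Bfin p α μ ν e (r + 1) K σ := by
  classical
  unfold TF Bfin
  simp only [fun k (θs : Fin k → Inter p) h =>
    GQ_sample he0 hem hpos hK σ ι0 φ hι hφ (CP.siteW_pos θs h),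
    fun θ : Inter p => GQ_sample he0 hem hpos hK σ ι0 φ hι hφ
      (W := fun s : Fin p → Bool => Real.exp (θ s)) fun _ => Real.exp_pos _]

/-- FT1. -/
theorem Bfin_mem_trialSet {p : ℕ} {α : ℝ} (hα : 0 ≤ α) {μ : Measure (Inter p)}
    [IsProbabilityMeasure μ] {ν : Measure ℝ} [IsProbabilityMeasure ν]
    (hμ : Integrable (fun θ => supNorm θ) μ) (hν : Integrable (fun x : ℝ => x) ν) {R : ℕ}
    (hR : 0 < R) {S I : Type} [Fintype S] [Fintype I] [Nonempty I] {K : Ker S} (hK : IsKer K)
    {σ : I → List S → Bool} (hσ : PosSpin R K σ) :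
    Bfin p α μ ν (eU R) R K σ ∈ trialSet p α μ ν := by
  obtain ⟨r, rfl⟩ : ∃ r, R = r + 1 := ⟨R - 1, by omega⟩
  obtain ⟨ι0, hι⟩ := exists_sampler (S := I) (w := fun _ => (Fintype.card I : ℝ)⁻¹)
    (fun _ => by positivity) (by simp)
  choose φ hφ using fun h => exists_sampler (hK.1 h) (hK.2 h)
  have hr : (0 : ℝ) < ((r + 1 : ℕ) : ℝ) := by positivity
  have em : ∀ d : Fin r, eU (r + 1) (r - d.val) = ((d : ℝ) + 1) / ((r + 1 : ℕ) : ℝ) := by
    intro d
    unfold eU
    rw [Nat.cast_sub d.isLt.le]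
    push_cast
    ring
  have hm : AdmissibleExponents fun d : Fin r => eU (r + 1) (r - d.val) := by
    refine ⟨fun d d' h => ?_, fun d => ?_⟩
    · simp only [em]
      have : (d : ℝ) < d' := by exact_mod_cast h
      exact div_lt_div_of_pos_right (by linarith) hr
    · simp only [em]
      have : (d : ℝ) < r := by exact_mod_cast d.isLt
      refine ⟨by positivity, (div_lt_one hr).2 ?_⟩
      push_cast
      linarith
  set q : (Fin (r + 1) → unitInterval) → ℝ := sampleQ K σ ι0 φ with hq
  have mq : Measurable q := PM.measurable_sampleQ K σ (fun i => (hι i).1) fun h s => (hφ h s).1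
  have q0 : ∀ u, 0 < q u := fun u => hσ _ _ true (by rw [PM.length_sampleH])
  have q1 : ∀ u, 0 < 1 - q u := fun u => by
    have := hσ (ι0 (u 0)) (sampleH φ u r) false (by rw [PM.length_sampleH])
    refine this.trans_eq ?_
    rw [eq_sub_iff_add_eq, hq, sampleQ, ← Finset.sum_add_distrib]
    refine (Finset.sum_congr rfl fun s _ => ?_).trans (hK.2 (sampleH φ u r))
    cases σ (ι0 (u 0)) (s :: sampleH φ u r) <;> simp
  have hX : Measurable fun u => Real.log (q u / (1 - q u)) / 2 := by fun_prop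
  refine ⟨r, _, _, hm, hX, ?_⟩
  rw [trialFunctional_eq_TF hα hμ hν hm hX,
    ← TF_sample α μ ν (exps_eU hR).zero (fun d => rfl) (fun d => (hm.2 d).1) hK σ ι0 φ hι
      fun h s _ => hφ h s]
  congr 1
  funext u
  have a := q0 u
  have b := q1 u
  set x := Real.log (q u / (1 - q u)) / 2 with hx
  have e2 : Real.exp x * Real.exp x = q u / (1 - q u) := by
    rw [← Real.exp_add, hx, add_halves, Real.exp_log (by positivity)]
  have e3 := Real.exp_pos x
  change q u = _
  unfold tilt spinVal
  rw [Real.cosh_eq, Real.exp_neg, if_pos rfl, mul_one]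
  rw [eq_div_iff b.ne'] at e2
  field_simp
  linarith

end Crest.Agent.H9.MP
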