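import Crest.Agent.H9.MP.T8a

/-! MP-T8b, part 1: `L¹` continuity of the continuum power means; grids. -/

set_option autoImplicit false

namespace Crest.Agent.H9.MP.PM

open MeasureTheory Crest.ProbabilityR.Diluted Filter Finset
open scoped BigOperators

variable {L : Type} [Fintype L] {r : ℕ}

theorem measurePreserving_upd1 (lvl : Fin (r + 1)) :
    MeasurePreserving
      (fun (w : (Fin (r + 1) → unitInterval) × unitInterval) j => if j = lvl then w.2 else w.1 j)
      ((Measure.pi fun _ => (volume : Measure unitInterval)).prod volume)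
      (Measure.pi fun _ => (volume : Measure unitInterval)) := by
  have hm : Measurable
      (fun (w : (Fin (r + 1) → unitInterval) × unitInterval) j =>
        if j = lvl then w.2 else w.1 j) := by
    refine measurable_pi_lambda _ fun j => ?_
    split_ifs <;> fun_prop
  refine ⟨hm, (Measure.pi_eq fun s hs => ?_).symm⟩
  rw [Measure.map_apply hm (MeasurableSet.univ_pi hs)]
  have e : (fun (w : (Fin (r + 1) → unitInterval) × unitInterval) j =>
      if j = lvl then w.2 else w.1 j) ⁻¹' Set.univ.pi s =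
      (Set.univ.pi (Function.update s lvl Set.univ)) ×ˢ s lvl := by
    ext w
    simp only [Set.mem_preimage, Set.mem_pi, Set.mem_univ, true_imp_iff, Set.mem_prod]
    constructor
    · intro h
      refine ⟨fun j => ?_, by simpa using h lvl⟩
      by_cases hj : j = lvl
      · subst hj; simp
      · simpa [hj] using h j
    · rintro ⟨h1, h2⟩ j
      by_cases hj : j = lvl
      · subst hj; simpa using h2
      · simpa [hj] using h1 j
  rw [e, Measure.prod_prod, Measure.pi_pi, ← Finset.prod_erase_mul _ _ (Finset.mem_univ lvl),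
    ← Finset.prod_erase_mul _ _ (Finset.mem_univ lvl)]
  simp only [Function.update_self, measure_univ, mul_one]
  congr 1
  exact Finset.prod_congr rfl fun j hj => by
    rw [Function.update_of_ne (Finset.ne_of_mem_erase hj)]

theorem measurePreserving_upd (lvl : Fin (r + 1)) :
    MeasurePreserving (fun w : U L r × (L → unitInterval) => upd lvl w.1 w.2)
      ((uniformArrays L r).prod (VV L)) (uniformArrays L r) :=
  (measurePreserving_pi _ _ fun _ : L => measurePreserving_upd1 lvl).comp
    (measurePreserving_arrowProdEquivProdArrow _ _ L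
      (fun _ => Measure.pi fun _ : Fin (r + 1) => (volume : Measure unitInterval))
      fun _ => (volume : Measure unitInterval)).symm

theorem abs_exp_sub_le {x y c : ℝ} (hx : x ≤ c) (hy : y ≤ c) :
    |Real.exp x - Real.exp y| ≤ Real.exp c * |x - y| := by
  wlog h : y ≤ x generalizing x y
  · rw [abs_sub_comm, abs_sub_comm x y]; exact this hy hx (le_of_not_ge h)
  rw [abs_of_nonneg (sub_nonneg.2 (Real.exp_le_exp.2 h)), abs_of_nonneg (sub_nonneg.2 h)]
  have a := Real.add_one_le_exp (y - x)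
  have b : Real.exp y = Real.exp x * Real.exp (y - x) := by rw [← Real.exp_add]; ring_nf
  have d := Real.exp_le_exp.2 hx
  have e := Real.exp_pos x
  nlinarith

theorem abs_log_sub_le {a b c : ℝ} (ha : Real.exp (-c) ≤ a) (hb : Real.exp (-c) ≤ b) :
    |Real.log a - Real.log b| ≤ Real.exp c * |a - b| := by
  wlog h : b ≤ a generalizing a b
  · rw [abs_sub_comm, abs_sub_comm a b]; exact this hb ha (le_of_not_ge h)
  have b0 : 0 < b := (Real.exp_pos _).trans_le hb
  have a0 : 0 < a := b0.trans_le h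
  rw [abs_of_nonneg (sub_nonneg.2 (Real.log_le_log b0 h)), abs_of_nonneg (sub_nonneg.2 h),
    ← Real.log_div a0.ne' b0.ne']
  refine (Real.log_le_sub_one_of_pos (div_pos a0 b0)).trans ?_
  rw [div_sub_one b0.ne', div_le_iff₀ b0]
  have : 1 ≤ Real.exp c * b := by
    have := mul_le_mul_of_nonneg_left hb (Real.exp_pos c).le
    rwa [← Real.exp_add, add_neg_cancel, Real.exp_zero] at this
  nlinarith

variable {B m : ℝ} {W W' : U L r → ℝ}

/-- The `L¹` distance of the logarithms. -/
noncomputable def dl (W W' : U L r → ℝ) : ℝ :=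
  ∫ u, |Real.log (W u) - Real.log (W' u)| ∂(uniformArrays L r)

theorem dl_pmStep (h : Bd B W) (h' : Bd B W') (hB : 0 ≤ B) (hm : 0 < m) (hm1 : m ≤ 1)
    (lvl : Fin (r + 1)) :
    dl (pmStep m lvl W) (pmStep m lvl W') ≤ Real.exp (2 * B) * dl W W' := by
  set g : U L r → ℝ := fun u => |Real.log (W u) - Real.log (W' u)| with hg
  have ig : Integrable g (uniformArrays L r) := (h.integrable_log.sub h'.integrable_log).abs
  have ig2 : Integrable (fun w : U L r × (L → unitInterval) => g (upd lvl w.1 w.2))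
      ((uniformArrays L r).prod (VV L)) :=
    (measurePreserving_upd lvl).integrable_comp_of_integrable ig
  have e1 : ∫ u, ∫ v, g (upd lvl u v) ∂(VV L) ∂(uniformArrays L r) = dl W W' := by
    rw [← integral_prod _ ig2]
    have hp := measurePreserving_upd (L := L) lvl
    have := integral_map (μ := (uniformArrays L r).prod (VV L)) hp.measurable.aemeasurable
      (f := g) (by rw [hp.map_eq]; exact ig.aestronglyMeasurable)
    rw [hp.map_eq] at this
    exact this.symm
  have pt : ∀ u, |Real.log (pmStep m lvl W u) - Real.log (pmStep m lvl W' u)| ≤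
      Real.exp (2 * B) * ∫ v, g (upd lvl u v) ∂(VV L) := by
    intro u
    have iv : Integrable (fun v => g (upd lvl u v)) (VV L) :=
      (integrable_const (B + B)).mono'
        ((h.measurable_upd lvl u).log.sub (h'.measurable_upd lvl u).log).abs.aestronglyMeasurable
        (Eventually.of_forall fun v => by
          rw [Real.norm_eq_abs, hg, abs_abs]
          exact (abs_sub _ _).trans (add_le_add (h.abs_log _) (h'.abs_log _)))
    have lo := h.int_lo hm lvl u
    have lo' := h'.int_lo hm lvl u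
    have ee : Real.exp (-B) ^ m = Real.exp (-(B * m)) := by rw [← Real.exp_mul]; ring_nf
    rw [ee] at lo lo'
    have a := abs_log_sub_le lo lo'
    have b : |∫ v, W (upd lvl u v) ^ m ∂(VV L) - ∫ v, W' (upd lvl u v) ^ m ∂(VV L)| ≤
        Real.exp (B * m) * m * ∫ v, g (upd lvl u v) ∂(VV L) := by
      rw [← integral_sub (h.integrable hm lvl u) (h'.integrable hm lvl u), ← integral_const_mul]
      refine CP.abs_integral_le (iv.const_mul _) fun v => ?_
      rw [Real.rpow_def_of_pos (h.pos _), Real.rpow_def_of_pos (h'.pos _)]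
      refine (abs_exp_sub_le (c := B * m)
        (mul_le_mul_of_nonneg_right (abs_le.1 (h.abs_log _)).2 hm.le)
        (mul_le_mul_of_nonneg_right (abs_le.1 (h'.abs_log _)).2 hm.le)).trans (le_of_eq ?_)
      rw [← sub_mul, abs_mul, abs_of_pos hm]
      ring
    rw [pmStep_eq, pmStep_eq, Real.log_rpow ((Real.exp_pos _).trans_le lo),
      Real.log_rpow ((Real.exp_pos _).trans_le lo'), ← mul_sub, abs_mul,
      abs_of_pos (show 0 < 1 / m by positivity), one_div, inv_mul_le_iff₀ hm]
    refine a.trans ((mul_le_mul_of_nonneg_left b (Real.exp_pos _).le).trans ?_)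
    have i0 : 0 ≤ ∫ v, g (upd lvl u v) ∂(VV L) := integral_nonneg fun v => abs_nonneg _
    have x : Real.exp (B * m) * Real.exp (B * m) ≤ Real.exp (2 * B) := by
      rw [← Real.exp_add]
      exact Real.exp_le_exp.2 (by nlinarith)
    have := mul_le_mul_of_nonneg_right x (mul_nonneg hm.le i0)
    linarith
  rw [← e1, ← integral_const_mul]
  exact integral_mono ((h.pmStep hm lvl).integrable_log.sub (h'.pmStep hm lvl).integrable_log).abs
    (ig2.integral_prod_left.const_mul _) pt

theorem dl_pmL {m : Fin r → ℝ} (hm : ∀ d, 0 < m d ∧ m d < 1) (h : Bd B W) (h' : Bd B W')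
    (hB : 0 ≤ B) (l : List (Fin r)) :
    dl (pmL m l W) (pmL m l W') ≤ Real.exp (2 * B) ^ l.length * dl W W' := by
  induction l with
  | nil => simp [pmL]
  | cons d l ih =>
    refine (dl_pmStep (h.pmL (fun d => (hm d).1) l) (h'.pmL (fun d => (hm d).1) l) hB (hm d).1
      (hm d).2.le d.succ).trans ?_
    rw [List.length_cons, pow_succ', mul_assoc]
    exact mul_le_mul_of_nonneg_left ih (Real.exp_pos _).le

theorem abs_prod_sub_prod_le {ι : Type} (s : Finset ι) {a b : ι → ℝ}
    (ha : ∀ i, a i ∈ Set.Icc (0 : ℝ) 1) (hb : ∀ i, b i ∈ Set.Icc (0 : ℝ) 1) :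
    |∏ i ∈ s, a i - ∏ i ∈ s, b i| ≤ ∑ i ∈ s, |a i - b i| := by
  classical
  induction s using Finset.induction_on with
  | empty => simp
  | insert i s hi ih =>
    rw [Finset.prod_insert hi, Finset.prod_insert hi, Finset.sum_insert hi]
    have e : a i * ∏ j ∈ s, a j - b i * ∏ j ∈ s, b j =
        (a i - b i) * ∏ j ∈ s, a j + b i * (∏ j ∈ s, a j - ∏ j ∈ s, b j) := by ring
    have p0 : 0 ≤ ∏ j ∈ s, a j := Finset.prod_nonneg fun j _ => (ha j).1
    have p1 : ∏ j ∈ s, a j ≤ 1 := Finset.prod_le_one (fun j _ => (ha j).1) fun j _ => (ha j).2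
    rw [e]
    refine (abs_add_le _ _).trans (add_le_add ?_ ?_)
    · rw [abs_mul, abs_of_nonneg p0]
      exact mul_le_of_le_one_right (abs_nonneg _) p1
    · rw [abs_mul, abs_of_nonneg (hb i).1]
      exact (mul_le_of_le_one_left (abs_nonneg _) (hb i).2).trans ih

theorem abs_mlW_sub_le [DecidableEq L] {q q' : L → ℝ} (hq : ∀ ω, q ω ∈ Set.Icc (0 : ℝ) 1)
    (hq' : ∀ ω, q' ω ∈ Set.Icc (0 : ℝ) 1) {V : (L → Bool) → ℝ} (hV : ∀ s, |V s| ≤ B) :
    |mlW (fun s => Real.exp (V s)) q - mlW (fun s => Real.exp (V s)) q'| ≤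
      2 ^ Fintype.card L * (Real.exp B * ∑ ω, |q ω - q' ω|) := by
  unfold mlW
  rw [← Finset.sum_sub_distrib]
  refine (Finset.abs_sum_le_sum_abs _ _).trans ?_
  refine (Finset.sum_le_card_nsmul _ _ (Real.exp B * ∑ ω, |q ω - q' ω|) fun s _ => ?_).trans
    (by simp)
  rw [← mul_sub, abs_mul, abs_of_pos (Real.exp_pos _)]
  refine mul_le_mul (Real.exp_le_exp.2 (abs_le.1 (hV s)).2) ?_ (abs_nonneg _) (Real.exp_pos _).le
  have m : ∀ {q : L → ℝ}, (∀ ω, q ω ∈ Set.Icc (0 : ℝ) 1) →
      ∀ ω, (if s ω = true then q ω else 1 - q ω) ∈ Set.Icc (0 : ℝ) 1 := by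
    intro q hq ω
    split_ifs
    · exact hq ω
    · exact ⟨by linarith [(hq ω).2], by linarith [(hq ω).1]⟩
  refine (abs_prod_sub_prod_le _ (m hq) (m hq')).trans (le_of_eq ?_)
  refine Finset.sum_congr rfl fun ω _ => ?_
  split_ifs
  · rfl
  · rw [abs_sub_comm]; congr 1; ring

/-- The Lipschitz constant. -/
noncomputable def Cst (r n0 : ℕ) (B : ℝ) : ℝ :=
  Real.exp (2 * B) ^ r * (Real.exp B * (2 ^ n0 * (Real.exp B * n0)))

theorem GQ_lip [DecidableEq L] {m : Fin r → ℝ} (hm : ∀ d, 0 < m d ∧ m d < 1)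
    {q q' : (Fin (r + 1) → unitInterval) → ℝ} (hq : Measurable q) (hq' : Measurable q')
    (hq1 : ∀ u, q u ∈ Set.Icc (0 : ℝ) 1) (hq1' : ∀ u, q' u ∈ Set.Icc (0 : ℝ) 1) {δ : ℝ}
    (hδ : ∫ u, |q u - q' u| ∂(Measure.pi fun _ : Fin (r + 1) => (volume : Measure unitInterval))
      ≤ δ) {V : (L → Bool) → ℝ} (hV : ∀ s, |V s| ≤ B) {n0 : ℕ} (hn : Fintype.card L ≤ n0) :
    |(GQ m q fun s => Real.exp (V s)) - GQ m q' fun s => Real.exp (V s)| ≤ Cst r n0 B * δ := by
  have hB : 0 ≤ B := (abs_nonneg _).trans (hV fun _ => true)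
  have b := bd_mlW (L := L) hq hq1 hV
  have b' := bd_mlW (L := L) hq' hq1' hV
  have hm0 : ∀ d, 0 < m d := fun d => (hm d).1
  have i := (b.pmL hm0 (List.finRange r)).integrable_log
  have i' := (b'.pmL hm0 (List.finRange r)).integrable_log
  have s1 := dl_pmL hm b b' hB (List.finRange r)
  rw [List.length_finRange] at s1
  have iq : Integrable (fun u => |q u - q' u|)
      (Measure.pi fun _ : Fin (r + 1) => (volume : Measure unitInterval)) :=
    (integrable_const (1 : ℝ)).mono' (hq.sub hq').abs.aestronglyMeasurable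
      (Eventually.of_forall fun u => by
        rw [Real.norm_eq_abs, abs_abs, abs_le]
        constructor <;> linarith [(hq1 u).1, (hq1 u).2, (hq1' u).1, (hq1' u).2])
  have iq2 : ∀ ω : L, Integrable (fun u : U L r => |q (u ω) - q' (u ω)|) (uniformArrays L r) :=
    fun ω => (measurePreserving_eval (fun _ : L => Measure.pi
      fun _ : Fin (r + 1) => (volume : Measure unitInterval)) ω).integrable_comp_of_integrable iq
  have eq2 : ∀ ω : L, ∫ u : U L r, |q (u ω) - q' (u ω)| ∂(uniformArrays L r) ≤ δ := by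
    intro ω
    have hp := measurePreserving_eval
      (fun _ : L => Measure.pi fun _ : Fin (r + 1) => (volume : Measure unitInterval)) ω
    have := integral_map hp.measurable.aemeasurable
      (f := fun u => |q u - q' u|) (by rw [hp.map_eq]; exact iq.aestronglyMeasurable)
    rw [hp.map_eq] at this
    exact this.symm.trans_le hδ
  have δ0 : 0 ≤ δ := (integral_nonneg fun u => abs_nonneg _).trans hδ
  have s2 : dl (fun u : U L r => mlW (fun s => Real.exp (V s)) fun ω => q (u ω))
      (fun u : U L r => mlW (fun s => Real.exp (V s)) fun ω => q' (u ω)) ≤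
      Real.exp B * (2 ^ n0 * (Real.exp B * n0)) * δ := by
    have is : Integrable (fun u : U L r => ∑ ω, |q (u ω) - q' (u ω)|) (uniformArrays L r) :=
      integrable_finset_sum _ fun ω _ => iq2 ω
    have x := integral_mono (b.integrable_log.sub b'.integrable_log).abs
      (((is.const_mul (Real.exp B)).const_mul (2 ^ Fintype.card L)).const_mul (Real.exp B))
      fun u => (abs_log_sub_le (b.lo u) (b'.lo u)).trans (mul_le_mul_of_nonneg_left
        (abs_mlW_sub_le (fun ω => hq1 _) (fun ω => hq1' _) hV) (Real.exp_pos _).le)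
    refine x.trans ?_
    simp only [integral_const_mul]
    rw [integral_finset_sum _ fun ω _ => iq2 ω]
    have y : ∑ ω : L, ∫ u : U L r, |q (u ω) - q' (u ω)| ∂(uniformArrays L r) ≤ n0 * δ := by
      refine (Finset.sum_le_card_nsmul _ _ δ fun ω _ => eq2 ω).trans ?_
      rw [Finset.card_univ, nsmul_eq_mul]
      exact mul_le_mul_of_nonneg_right (by exact_mod_cast hn) δ0
    have z : (2 : ℝ) ^ Fintype.card L ≤ 2 ^ n0 := pow_le_pow_right₀ one_le_two hn
    have y0 : 0 ≤ ∑ ω : L, ∫ u : U L r, |q (u ω) - q' (u ω)| ∂(uniformArrays L r) :=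
      Finset.sum_nonneg fun ω _ => integral_nonneg fun u => abs_nonneg _
    calc _ ≤ Real.exp B * (2 ^ n0 * (Real.exp B * (n0 * δ))) := by gcongr
      _ = _ := by ring
  rw [GQ_eq, GQ_eq, ← integral_sub i i']
  refine (CP.abs_integral_le (i.sub i').abs fun u => le_rfl).trans (s1.trans ?_)
  unfold Cst
  rw [mul_assoc]
  exact mul_le_mul_of_nonneg_left s2 (by positivity)

theorem exists_grid (N : ℕ) : ∃ (c : unitInterval → Fin (N + 1)) (ρ : Fin (N + 1) → unitInterval),
    (∀ j, MeasurableSet (c ⁻¹' {j}) ∧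
      (volume : Measure unitInterval).real (c ⁻¹' {j}) = (Fintype.card (Fin (N + 1)) : ℝ)⁻¹) ∧
    ∀ t, dist (ρ (c t)) t ≤ 1 / (N + 1) := by
  have hN : (0 : ℝ) < N + 1 := by positivity
  let a : Fin (N + 2) → unitInterval := fun j => ⟨j / (N + 1), by positivity, by
    rw [div_le_one hN]
    exact_mod_cast Nat.lt_succ_iff.1 j.isLt⟩
  let c : unitInterval → Fin (N + 1) := fun t =>
    ⟨min ⌊(t : ℝ) * (N + 1)⌋₊ N, Nat.lt_succ_of_le (min_le_right _ _)⟩
  have h1 : ∀ t j, c t = j → a j.castSucc ≤ t ∧ t ≤ a j.succ := by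
    rintro t _ rfl
    have t0 : 0 ≤ (t : ℝ) * (N + 1) := mul_nonneg t.2.1 hN.le
    constructor
    · change ((min ⌊(t : ℝ) * (N + 1)⌋₊ N : ℕ) : ℝ) / (N + 1) ≤ t
      rw [div_le_iff₀ hN]
      exact le_trans (by exact_mod_cast min_le_left _ _) (Nat.floor_le t0)
    · change (t : ℝ) ≤ ((min ⌊(t : ℝ) * (N + 1)⌋₊ N + 1 : ℕ) : ℝ) / (N + 1)
      rw [le_div_iff₀ hN]
      rcases min_choice ⌊(t : ℝ) * (N + 1)⌋₊ N with h | h <;> rw [h] <;> push_cast
      · exact (Nat.lt_floor_add_one _).le
      · exact mul_le_of_le_one_left hN.le t.2.2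
  have h2 : ∀ t j, a j.castSucc ≤ t → t < a j.succ → c t = j := by
    intro t j x y
    change ((j : ℕ) : ℝ) / (N + 1) ≤ t at x
    change (t : ℝ) < ((j + 1 : ℕ) : ℝ) / (N + 1) at y
    rw [div_le_iff₀ hN] at x
    rw [lt_div_iff₀ hN] at y
    have : ⌊(t : ℝ) * (N + 1)⌋₊ = j :=
      (Nat.floor_eq_iff (mul_nonneg t.2.1 hN.le)).2 ⟨x, by exact_mod_cast y⟩
    apply Fin.ext
    change min ⌊(t : ℝ) * (N + 1)⌋₊ N = j
    rw [this]
    exact min_eq_left (Nat.lt_succ_iff.1 j.isLt)
  have hd : ∀ j : Fin (N + 1), (a j.succ : ℝ) - a j.castSucc = 1 / (N + 1) := by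
    intro j
    change ((j + 1 : ℕ) : ℝ) / (N + 1) - ((j : ℕ) : ℝ) / (N + 1) = _
    push_cast
    ring
  refine ⟨c, fun j => a j.castSucc, fun j => ⟨?_, ?_⟩, fun t => ?_⟩
  · have m : Measurable fun t : unitInterval => min ⌊(t : ℝ) * (N + 1)⌋₊ N := by fun_prop
    have : c ⁻¹' {j} = (fun t : unitInterval => min ⌊(t : ℝ) * (N + 1)⌋₊ N) ⁻¹' {j.val} := by
      ext t
      simp [c, Fin.ext_iff]
    rw [this]
    exact m (measurableSet_singleton _)
  · have u : volume (c ⁻¹' {j}) ≤ volume (Set.Icc (a j.castSucc) (a j.succ)) :=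
      measure_mono fun t ht => h1 t j ht
    have l : volume (Set.Ico (a j.castSucc) (a j.succ)) ≤ volume (c ⁻¹' {j}) :=
      measure_mono fun t ht => h2 t j ht.1 ht.2
    rw [unitInterval.volume_Icc, hd] at u
    rw [unitInterval.volume_Ico, hd] at l
    rw [Measure.real, le_antisymm u l, ENNReal.toReal_ofReal (by positivity)]
    simp
  · have x := h1 t _ rfl
    have y := hd (c t)
    have x1 : (a (c t).castSucc : ℝ) ≤ t := x.1
    have x2 : (t : ℝ) ≤ a (c t).succ := x.2
    rw [Subtype.dist_eq, Real.dist_eq, abs_le]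
    constructor <;> linarith

end Crest.Agent.H9.MP.PM
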