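import Crest.Agent.H9.MP.T8a
import Crest.Agent.H9.MP.T8bx

/-! MP-T8b: trials are limits of finite trials. -/

/-
Sketch. For W ∈ [e^-B, e^B]: |mlW W q - mlW W q'| ≤ 2 e^B Σ_m |q m - q' m|; ∫|pmStep W - pmStep W'| ≤ C(B,m) ∫|W - W'| (resampling one level preserves uniformArrays); so |GQ q - GQ q'| ≤ min(2B, C δ); truncate in (k,θ,h).
FT2: q = tilt X true; approximate in L¹ by a continuous function (clamped to [0,1]), then uniformly by a function of the grid cells c(u_0..u_r), c : unitInterval → Fin n with uniform law.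
I = Fin n, S = Fin n × (I → Bool), σ i l = head.2 i, K h (c,β) = (1/n) 1[β = const] for |h| < r, (1/n) Π_i q̃(i,h)(β i) for |h| = r (anything else elsewhere); e 0 = 1, e j = m (r-j) for 1 ≤ j ≤ r, e (r+1) = 0; GQ_sample.
-/

set_option autoImplicit false

namespace Crest.Agent.H9.MP

open MeasureTheory Crest.ProbabilityR.Diluted

namespace PM

open Finset Filter
open scoped BigOperators

section cmp
variable {p : ℕ} {μ : Measure (Inter p)} [IsProbabilityMeasure μ] {ν : Measure ℝ}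
  [IsProbabilityMeasure ν] {r : ℕ} {m : Fin r → ℝ} {q q' : (Fin (r + 1) → unitInterval) → ℝ}
  {δ M : ℝ} {n1 : ℕ}

theorem site_cmp {lam : ℝ} (hl : 0 ≤ lam) (hμ : Integrable (fun θ : Inter p => ‖θ‖) μ)
    (hν : Integrable (fun x : ℝ => ‖x‖) ν) (hm : ∀ d, 0 < m d ∧ m d < 1) (hq : Measurable q)
    (hq' : Measurable q') (hq1 : ∀ u, q u ∈ Set.Icc (0 : ℝ) 1)
    (hq1' : ∀ u, q' u ∈ Set.Icc (0 : ℝ) 1)
    (hδ : ∫ u, |q u - q' u| ∂(Measure.pi fun _ : Fin (r + 1) => (volume : Measure unitInterval))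
      ≤ δ) (hM : 0 ≤ M) :
    ∑' k : ℕ, poissonWeight lam k *
        ∫ θs, ∫ h, GQ m q (siteW θs h) ∂ν ∂(Measure.pi fun _ : Fin k => μ) ≤
      ∑' k : ℕ, poissonWeight lam k *
        ∫ θs, ∫ h, GQ m q' (siteW θs h) ∂ν ∂(Measure.pi fun _ : Fin k => μ) +
      2 * (1 + ∫ h, ‖h‖ ∂ν + ∫ θ, ‖θ‖ ∂μ) *
        (∑' n : ℕ, poissonWeight lam n * (if n ≤ n1 then 0 else 1 + (n : ℝ))) +
      ((Cst r (n1 * p + p) (2 * (1 + (n1 + 1) * M)) * δ + 4 * ∫ h, max (‖h‖ - M) 0 ∂ν) +
        (4 * ∫ θ, max (‖θ‖ - M) 0 ∂μ) * lam) := by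
  have hm0 : ∀ d, 0 < m d := fun d => (hm d).1
  set A := 1 + ∫ h, ‖h‖ ∂ν + ∫ θ, ‖θ‖ ∂μ with hA
  set c := Cst r (n1 * p + p) (2 * (1 + (n1 + 1) * M)) * δ with hc
  have c0 : 0 ≤ c := mul_nonneg (by unfold Cst; positivity)
    ((integral_nonneg fun u => abs_nonneg _).trans hδ)
  have a1 : 0 ≤ ∫ h, ‖h‖ ∂ν := integral_nonneg fun _ => norm_nonneg _
  have a2 : 0 ≤ ∫ θ, ‖θ‖ ∂μ := integral_nonneg fun _ => norm_nonneg _
  let b : (k : ℕ) → (Fin k → Inter p) × ℝ → ℝ := fun k w => 1 + ‖w.2‖ + ∑ j, ‖w.1 j‖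
  let Pk : (k : ℕ) → Measure ((Fin k → Inter p) × ℝ) := fun k =>
    (Measure.pi fun _ : Fin k => μ).prod ν
  have ib : ∀ k, Integrable (b k) (Pk k) := fun k => CP.integrable_add_prod hμ hν 1
  have eb : ∀ k, ∫ w, b k w ∂(Pk k) ≤ A * (1 + k) := by
    intro k
    have : ∫ w, b k w ∂(Pk k) = _ := CP.integral_add_prod hμ hν 1
    rw [this, hA]
    have : (0 : ℝ) ≤ k := Nat.cast_nonneg k
    nlinarith [mul_nonneg this a1]
  have iG := integrable_GQ_site hμ hν hm0 hq hq1
  have iG' := integrable_GQ_site hμ hν hm0 hq' hq1'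
  have pt : ∀ k (w : (Fin k → Inter p) × ℝ), GQ m q (siteW w.1 w.2) ≤ GQ m q' (siteW w.1 w.2) +
      (if k ≤ n1 then 0 else 2) * b k w +
      (c + 4 * max (‖w.2‖ - M) 0 + ∑ j, 4 * max (‖w.1 j‖ - M) 0) := by
    intro k w
    have t0 : 0 ≤ max (‖w.2‖ - M) 0 + ∑ j, max (‖w.1 j‖ - M) 0 :=
      add_nonneg (le_max_right _ _) (Finset.sum_nonneg fun _ _ => le_max_right _ _)
    have x := (abs_le.1 (abs_GQ_site_le hm0 hq hq1 k w)).2
    have y := (abs_le.1 (abs_GQ_site_le hm0 hq' hq1' k w)).1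
    rw [← Finset.mul_sum]
    by_cases hk : k ≤ n1
    · rw [if_pos hk]
      by_cases hb : 1 + ‖w.2‖ + ∑ j, ‖w.1 j‖ ≤ 2 * (1 + (n1 + 1) * M)
      · have z := GQ_lip hm hq hq' hq1 hq1' hδ (V := fun s => Real.log (siteW w.1 w.2 s))
          (fun s => (CP.abs_log_siteW_le _ _ s).trans hb) (n0 := n1 * p + p) (by
            simp only [Fintype.card_prod, Fintype.card_fin]
            exact (Nat.mul_le_mul hk (Nat.sub_le p 1)).trans (Nat.le_add_right _ _))
        rw [← GQ_site, ← GQ_site] at z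
        linarith [(abs_le.1 z).2]
      · have z := CP.trunc hk hM _ _ hb
        linarith
    · rw [if_neg hk]
      simp only [b]
      linarith
  have iT : ∀ k, Integrable (fun w : (Fin k → Inter p) × ℝ =>
      c + 4 * max (‖w.2‖ - M) 0 + ∑ j, 4 * max (‖w.1 j‖ - M) 0) (Pk k) := fun k =>
    CP.integrable_add_prod ((CP.integrable_tail hμ M).const_mul 4)
      ((CP.integrable_tail hν M).const_mul 4) c
  have eT : ∀ k : ℕ, ∫ w : (Fin k → Inter p) × ℝ,
      (c + 4 * max (‖w.2‖ - M) 0 + ∑ j, 4 * max (‖w.1 j‖ - M) 0) ∂(Pk k) =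
      c + 4 * ∫ h, max (‖h‖ - M) 0 ∂ν + (4 * ∫ θ, max (‖θ‖ - M) 0 ∂μ) * k := fun k => by
    have := CP.integral_add_prod (k := k) ((CP.integrable_tail hμ M).const_mul 4)
      ((CP.integrable_tail hν M).const_mul 4) c
    rw [integral_const_mul, integral_const_mul] at this
    rw [mul_comm _ (k : ℝ)]
    exact this
  have int : ∀ k : ℕ, ∫ w, GQ m q (siteW w.1 w.2) ∂(Pk k) ≤ ∫ w, GQ m q' (siteW w.1 w.2) ∂(Pk k) +
      2 * A * (if k ≤ n1 then 0 else 1 + (k : ℝ)) +
      ((c + 4 * ∫ h, max (‖h‖ - M) 0 ∂ν) + (4 * ∫ θ, max (‖θ‖ - M) 0 ∂μ) * k) := by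
    intro k
    have x := integral_mono (iG k)
      (((iG' k).add ((ib k).const_mul (if k ≤ n1 then 0 else 2))).add (iT k)) (pt k)
    rw [integral_add' ((iG' k).add ((ib k).const_mul (if k ≤ n1 then 0 else 2))) (iT k),
      integral_add' (iG' k) ((ib k).const_mul (if k ≤ n1 then 0 else 2)), eT] at x
    simp only [integral_const_mul] at x
    have y : (if k ≤ n1 then 0 else 2) * ∫ w, b k w ∂(Pk k) ≤
        2 * A * (if k ≤ n1 then 0 else 1 + (k : ℝ)) := by
      split_ifs
      · simp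
      · linarith [eb k]
    linarith
  have fin := CP.tsum_final hl (abs_integral_GQ_site_le hμ hν hm0 hq hq1)
    (abs_integral_GQ_site_le hμ hν hm0 hq' hq1') int
  simp only [integral_prod _ (iG _), integral_prod _ (iG' _)] at fin
  exact fin

theorem edge_cmp (hμ : Integrable (fun θ : Inter p => ‖θ‖) μ) (hm : ∀ d, 0 < m d ∧ m d < 1)
    (hq : Measurable q) (hq' : Measurable q') (hq1 : ∀ u, q u ∈ Set.Icc (0 : ℝ) 1)
    (hq1' : ∀ u, q' u ∈ Set.Icc (0 : ℝ) 1)
    (hδ : ∫ u, |q u - q' u| ∂(Measure.pi fun _ : Fin (r + 1) => (volume : Measure unitInterval))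
      ≤ δ) (hM : 0 ≤ M) :
    |∫ θ, GQ m q (fun s : Fin p → Bool => Real.exp (θ s)) ∂μ -
      ∫ θ, GQ m q' (fun s : Fin p → Bool => Real.exp (θ s)) ∂μ| ≤
      Cst r (n1 * p + p) (2 * (1 + (n1 + 1) * M)) * δ + 4 * ∫ θ, max (‖θ‖ - M) 0 ∂μ := by
  have hm0 : ∀ d, 0 < m d := fun d => (hm d).1
  set c := Cst r (n1 * p + p) (2 * (1 + (n1 + 1) * M)) * δ with hc
  have c0 : 0 ≤ c := mul_nonneg (by unfold Cst; positivity)
    ((integral_nonneg fun u => abs_nonneg _).trans hδ)
  have bG : ∀ {q : (Fin (r + 1) → unitInterval) → ℝ}, Measurable q →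
      (∀ u, q u ∈ Set.Icc (0 : ℝ) 1) → ∀ θ : Inter p,
      |GQ m q fun s : Fin p → Bool => Real.exp (θ s)| ≤ ‖θ‖ :=
    fun hq hq1 θ => abs_GQ_le hm0 hq hq1 fun s => norm_le_pi_norm θ s
  have iG := hμ.mono' (GQ_good (L := Fin p) hm0 hq hq1).continuous.aestronglyMeasurable
    (Eventually.of_forall (bG hq hq1))
  have iG' := hμ.mono' (GQ_good (L := Fin p) hm0 hq' hq1').continuous.aestronglyMeasurable
    (Eventually.of_forall (bG hq' hq1'))
  rw [← integral_sub iG iG']
  refine (CP.abs_integral_le (g := fun θ => c + 4 * max (‖θ‖ - M) 0)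
    ((integrable_const c).add ((CP.integrable_tail hμ M).const_mul 4)) fun θ => ?_).trans ?_
  · have t0 : 0 ≤ max (‖θ‖ - M) 0 := le_max_right _ _
    by_cases hb : ‖θ‖ ≤ 2 * (1 + (n1 + 1) * M)
    · have z := GQ_lip hm hq hq' hq1 hq1' hδ (V := θ)
        (fun s => (norm_le_pi_norm θ s).trans hb) (n0 := n1 * p + p) (by simp)
      linarith
    · have x := bG hq hq1 θ
      have y := bG hq' hq1' θ
      have z := le_max_left (‖θ‖ - M) 0
      have : 0 ≤ (n1 : ℝ) * M := by positivity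
      refine (abs_sub _ _).trans ?_
      rw [not_le] at hb
      nlinarith
  · rw [integral_add (integrable_const c) ((CP.integrable_tail hμ M).const_mul 4)]
    simp only [integral_const_mul, integral_const, probReal_univ, smul_eq_mul, one_mul, le_refl]

end cmp

theorem sum_prod_eval {I : Type} [Fintype I] [DecidableEq I] (q : I → ℝ) (i0 : I) :
    ∑ β : I → Bool, (∏ i, if β i = true then q i else 1 - q i) *
      (if β i0 = true then 1 else 0) = q i0 := by
  have := Finset.prod_univ_sum (fun _ : I => (univ : Finset Bool))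
    (fun i b => (if b = true then q i else 1 - q i) *
      if i = i0 then (if b = true then 1 else 0) else 1)
  rw [Fintype.piFinset_univ] at this
  simp only [Finset.prod_mul_distrib, Finset.prod_ite_eq', Finset.mem_univ, if_true] at this
  rw [← this, Finset.prod_eq_single i0]
  · simp
  · intro i _ hi
    simp [hi]
  · simp

theorem sampleH_getD {S : Type} {r : ℕ} (ψ : unitInterval → S) (u : Fin (r + 1) → unitInterval)
    (d : S) (n j : ℕ) (h1 : 1 ≤ j) (hj : j ≤ n) :
    (sampleH (fun _ => ψ) u n).getD (n - j) d = ψ (u (Fin.ofNat (r + 1) j)) := by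
  induction n with
  | zero => omega
  | succ n ih =>
    rcases Nat.lt_or_ge n j with h | h
    · obtain rfl : j = n + 1 := by omega
      simp [sampleH]
    · rw [show n + 1 - j = (n - j) + 1 by omega]
      simp only [sampleH, List.getD_cons_succ]
      exact ih h

end PM

theorem TF_cont {p : ℕ} {α : ℝ} (hα : 0 ≤ α) {μ : Measure (Inter p)}
    [IsProbabilityMeasure μ] {ν : Measure ℝ} [IsProbabilityMeasure ν]
    (hμ : Integrable (fun θ => supNorm θ) μ) (hν : Integrable (fun x : ℝ => x) ν) {r : ℕ}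
    {m : Fin r → ℝ} (hm : AdmissibleExponents m) {ε : ℝ} (hε : 0 < ε) :
    ∃ δ > 0, ∀ q q' : (Fin (r + 1) → unitInterval) → ℝ, Measurable q → Measurable q' →
      (∀ u, q u ∈ Set.Icc (0 : ℝ) 1) → (∀ u, q' u ∈ Set.Icc (0 : ℝ) 1) →
      ∫ u, |q u - q' u| ∂(Measure.pi fun _ : Fin (r + 1) => (volume : Measure unitInterval)) ≤ δ →
      |TF p α μ ν m q - TF p α μ ν m q'| ≤ ε := by
  have hμ' : Integrable (fun θ : Inter p => ‖θ‖) μ := by simpa only [supNorm_eq_norm] using hμ
  have hν' : Integrable (fun x : ℝ => ‖x‖) ν := hν.norm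
  have l1 : 0 ≤ α * p := by positivity
  have a1 : 0 ≤ ∫ h, ‖h‖ ∂ν := integral_nonneg fun _ => norm_nonneg _
  have a2 : 0 ≤ ∫ θ, ‖θ‖ ∂μ := integral_nonneg fun _ => norm_nonneg _
  have A1 : 0 < 1 + ∫ h, ‖h‖ ∂ν + ∫ θ, ‖θ‖ ∂μ := by linarith
  obtain ⟨n1, t1⟩ := poi_tail l1 (ε := ε / 8 / (1 + ∫ h, ‖h‖ ∂ν + ∫ θ, ‖θ‖ ∂μ)) (by positivity)
  rw [le_div_iff₀ A1] at t1
  have u1 := CP.tail_tendsto hν' fun _ => norm_nonneg _
  have u2 := CP.tail_tendsto hμ' fun _ => norm_nonneg _
  have u3 := ((u1.const_mul 4).add ((u2.const_mul 4).mul_const (α * p))).add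
    ((u2.const_mul 4).const_mul |α * (p - 1)|)
  simp only [mul_zero, zero_mul, add_zero] at u3
  obtain ⟨M, hM⟩ := (u3.eventually (ge_mem_nhds (show 0 < ε / 4 by positivity))).exists
  have M0 : (0 : ℝ) ≤ M := Nat.cast_nonneg M
  set K := PM.Cst r (n1 * p + p) (2 * (1 + (n1 + 1) * M)) with hK
  have K0 : 0 ≤ K := by rw [hK]; unfold PM.Cst; positivity
  have D0 : 0 < (K + 1) * (1 + |α * (p - 1)|) := by positivity
  refine ⟨ε / 2 / ((K + 1) * (1 + |α * (p - 1)|)), by positivity, fun q q' hq hq' hq1 hq1' hδ => ?_⟩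
  set δ := ε / 2 / ((K + 1) * (1 + |α * (p - 1)|)) with hd
  have d0 : 0 ≤ δ := by positivity
  have d1 : δ * ((K + 1) * (1 + |α * (p - 1)|)) = ε / 2 := div_mul_cancel₀ _ D0.ne'
  have s1 := PM.site_cmp (n1 := n1) l1 hμ' hν' hm.2 hq hq' hq1 hq1' hδ M0
  have s2 := PM.site_cmp (n1 := n1) l1 hμ' hν' hm.2 hq' hq hq1' hq1
    (by simpa only [abs_sub_comm] using hδ) M0
  have s3 := mul_le_mul_of_nonneg_left (PM.edge_cmp (n1 := n1) hμ' hm.2 hq hq' hq1 hq1' hδ M0)
    (abs_nonneg (α * (p - 1)))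
  rw [← abs_mul, mul_sub, abs_le] at s3
  rw [← hK] at s1 s2 s3
  have d2 : 0 ≤ δ * |α * (p - 1)| := by positivity
  unfold TF
  rw [abs_le]
  constructor <;> nlinarith [s3.1, s3.2]

/-- FT2. -/
theorem exists_Bfin_approx {p : ℕ} {α : ℝ} (hα : 0 ≤ α) {μ : Measure (Inter p)}
    [IsProbabilityMeasure μ] {ν : Measure ℝ} [IsProbabilityMeasure ν]
    (hμ : Integrable (fun θ => supNorm θ) μ) (hν : Integrable (fun x : ℝ => x) ν) {B : ℝ}
    (hB : B ∈ trialSet p α μ ν) {ε : ℝ} (hε : 0 < ε) :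
    ∃ (e : ℕ → ℝ) (R : ℕ) (S I : Type) (_ : Fintype S) (_ : Fintype I) (_ : Nonempty I)
      (K : Ker S) (σ : I → List S → Bool), Exps e R ∧ IsKer K ∧
      Bfin p α μ ν e R K σ ≤ B + ε := by
  classical
  obtain ⟨r, m, X, hm, hX, rfl⟩ := hB
  rw [trialFunctional_eq_TF hα hμ hν hm hX]
  obtain ⟨δ, hδ, hc⟩ := TF_cont hα hμ hν hm hε
  set q : (Fin (r + 1) → unitInterval) → ℝ := fun u => tilt (X u) true with hqd
  have hq : Measurable q := PM.measurable_tilt.comp hX
  have hq1 : ∀ u, q u ∈ Set.Icc (0 : ℝ) 1 := fun u => PM.tilt_mem _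
  set P := Measure.pi fun _ : Fin (r + 1) => (volume : Measure unitInterval) with hP
  have iq : Integrable q P := (integrable_const (1 : ℝ)).mono' hq.aestronglyMeasurable
    (Filter.Eventually.of_forall fun u => by
      rw [Real.norm_eq_abs, abs_of_nonneg (hq1 u).1]; exact (hq1 u).2)
  obtain ⟨g, hg, ig⟩ := iq.exists_boundedContinuous_integral_sub_le (half_pos hδ)
  set q1 : (Fin (r + 1) → unitInterval) → ℝ := fun u => max 0 (min 1 (g u)) with hq1d
  have c1 : Continuous q1 := by fun_prop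
  have m1 : ∀ u, q1 u ∈ Set.Icc (0 : ℝ) 1 := fun u =>
    ⟨le_max_left _ _, max_le zero_le_one (min_le_left _ _)⟩
  have l1 : ∀ u, |q u - q1 u| ≤ |q u - g u| := by
    intro u
    have a := hq1 u
    simp only [hq1d]
    rcases le_total 1 (g u) with h | h
    · rw [min_eq_left h, max_eq_right zero_le_one, abs_of_nonpos (by linarith [a.2]),
        abs_of_nonpos (by linarith [a.2])]
      linarith
    · rw [min_eq_right h]
      rcases le_total 0 (g u) with h' | h'
      · rw [max_eq_right h']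
      · rw [max_eq_left h', abs_of_nonneg (by linarith [a.1]), abs_of_nonneg (by linarith [a.1])]
        linarith
  obtain ⟨η, hη, hu⟩ := Metric.uniformContinuous_iff.1
    (CompactSpace.uniformContinuous_of_continuous c1) (δ / 2) (half_pos hδ)
  obtain ⟨N, hN⟩ := exists_nat_one_div_lt hη
  obtain ⟨c, ρ, hcm, hcd⟩ := PM.exists_grid N
  let I := Fin (N + 1)
  let S := Fin (N + 1) × (I → Bool)
  let s0 : S := (0, fun _ => true)
  let qt : I → List S → ℝ := fun i h =>
    q1 fun j => if j = 0 then ρ i else ρ (h.getD (r - j.val) s0).1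
  let K : Ker S := fun h s => (Fintype.card (Fin (N + 1)) : ℝ)⁻¹ *
    if h.length = r then ∏ i, (if s.2 i = true then qt i h else 1 - qt i h)
    else if s.2 = fun _ => true then 1 else 0
  let σ : I → List S → Bool := fun i l => (l.headD s0).2 i
  let φ : List S → unitInterval → S := fun _ t => (c t, fun _ => true)
  let e : ℕ → ℝ := fun j => if j = 0 then 1 else
    if h : j ≤ r ∧ 0 < j then m ⟨r - j, by omega⟩ else 0
  have hK : IsKer K := by
    refine ⟨fun h s => mul_nonneg (by positivity) ?_, fun h => ?_⟩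
    · split_ifs
      · exact PM.wq_nonneg (fun i => m1 _) _
      · exact zero_le_one
      · exact le_rfl
    · have x : ∀ c : Fin (N + 1), ∑ β : I → Bool, K h (c, β) =
          (Fintype.card (Fin (N + 1)) : ℝ)⁻¹ := by
        intro c
        by_cases hl : h.length = r
        · simp only [K, if_pos hl, ← Finset.mul_sum]
          rw [PM.wq_sum fun i => qt i h, mul_one]
        · simp only [K, if_neg hl, ← Finset.mul_sum]
          rw [Finset.sum_eq_single fun _ => true]
          · rw [if_pos rfl, mul_one]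
          · exact fun β _ hβ => if_neg hβ
          · exact fun h => absurd (Finset.mem_univ _) h
      rw [show ∑ s, K h s = ∑ c : Fin (N + 1), ∑ β : I → Bool, K h (c, β) from
        Fintype.sum_prod_type _]
      simp only [x, Finset.sum_const, Finset.card_univ, nsmul_eq_mul]
      exact mul_inv_cancel₀ (by simp; positivity)
  have hem : ∀ d : Fin r, m d = e (r - d.val) := by
    intro d
    have := d.isLt
    simp only [e]
    rw [if_neg (by omega), dif_pos (by omega)]
    congr 1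
    exact Fin.ext (by simp only; omega)
  have he : Exps e (r + 1) := by
    refine ⟨by omega, by simp [e], fun j hj => ?_, ?_, ?_⟩
    · simp only [e]
      rw [if_neg (by omega), dif_pos (by omega)]
      split_ifs with h h'
      · exact (hm.2 _).2.le
      · exact hm.1.monotone (by simp only [Fin.mk_le_mk]; omega)
      · omega
    · simp only [e, Nat.add_sub_cancel]
      split_ifs with h h'
      · exact one_pos
      · exact (hm.2 _).1
      · omega
    · simp only [e]
      rw [if_neg (by omega), dif_neg (by omega)]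
  have hφ : ∀ h s, MeasurableSet (φ h ⁻¹' {s}) ∧ (h.length < r →
      (volume : Measure unitInterval).real (φ h ⁻¹' {s}) = K h s) := by
    intro h s
    by_cases hs : s.2 = fun _ => true
    · have : φ h ⁻¹' {s} = c ⁻¹' {s.1} := by
        ext t
        exact ⟨fun h => congrArg Prod.fst h, fun h => Prod.ext h hs.symm⟩
      rw [this]
      refine ⟨(hcm _).1, fun hl => ?_⟩
      simp only [K, if_neg hl.ne, if_pos hs, mul_one]
      exact (hcm _).2
    · have : φ h ⁻¹' {s} = ∅ := by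
        ext t
        exact ⟨fun h => hs (congrArg Prod.snd h).symm, fun h => h.elim⟩
      rw [this]
      refine ⟨MeasurableSet.empty, fun hl => ?_⟩
      simp only [K, if_neg hl.ne, if_neg hs, mul_zero, measureReal_empty]
  have hQ : ∀ u : Fin (r + 1) → unitInterval, sampleQ K σ c φ u = q1 fun j => ρ (c (u j)) := by
    intro u
    have e1 : sampleQ K σ c φ u = qt (c (u 0)) (sampleH φ u r) := by
      have x : sampleQ K σ c φ u = ∑ s : Fin (N + 1) × (I → Bool),
          (Fintype.card (Fin (N + 1)) : ℝ)⁻¹ * ((∏ i, if s.2 i = true then qt i (sampleH φ u r)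
            else 1 - qt i (sampleH φ u r)) * if s.2 (c (u 0)) = true then 1 else 0) := by
        refine Finset.sum_congr rfl fun s _ => ?_
        simp only [K, PM.length_sampleH, if_true, mul_assoc]
        rfl
      rw [x]
      simp only [Fintype.sum_prod_type, ← Finset.mul_sum, PM.sum_prod_eval]
      simp only [Finset.sum_const, Finset.card_univ, nsmul_eq_mul]
      rw [inv_mul_cancel_left₀ (by simp; positivity)]
    rw [e1]
    simp only [qt]
    congr 1
    funext j
    split_ifs with h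
    · rw [h]
    · have := PM.sampleH_getD (fun t => ((c t, fun _ => true) : S)) u s0 r j
        (Nat.pos_of_ne_zero fun h' => h (Fin.ext h')) (Nat.lt_succ_iff.1 j.isLt)
      rw [show sampleH φ u r = sampleH (fun _ t => ((c t, fun _ => true) : S)) u r from rfl, this]
      simp
  have mQ : Measurable (sampleQ (r := r) K σ c φ) :=
    PM.measurable_sampleQ K σ (fun i => (hcm i).1) fun h s => (hφ h s).1
  have fin := hc q (sampleQ K σ c φ) hq mQ hq1 (fun u => by rw [hQ]; exact m1 _) (by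
    have x : ∫ u, |q u - sampleQ K σ c φ u| ∂P ≤ ∫ u, (‖q u - g u‖ + δ / 2) ∂P := by
      refine integral_mono_of_nonneg (Filter.Eventually.of_forall fun u => abs_nonneg _)
        ((iq.sub ig).norm.add (integrable_const _)) (Filter.Eventually.of_forall fun u => ?_)
      have y : dist (fun j => ρ (c (u j))) u < η :=
        lt_of_le_of_lt ((dist_pi_le_iff (by positivity)).2 fun j => hcd (u j)) hN
      have z := hu y
      rw [Real.dist_eq, abs_sub_comm] at z
      simp only [hQ, Real.norm_eq_abs]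
      linarith [abs_sub_le (q u) (q1 u) (q1 fun j => ρ (c (u j))), l1 u]
    rw [integral_add (f := fun u => ‖q u - g u‖) (iq.sub ig).norm (integrable_const _)] at x
    simp only [integral_const, probReal_univ, smul_eq_mul, one_mul] at x
    linarith)
  refine ⟨e, r + 1, S, I, inferInstance, inferInstance, inferInstance, K, σ, he, hK, ?_⟩
  rw [← TF_sample α μ ν he.zero hem (fun d => (hm.2 d).1) hK σ c φ hcm
    fun h s hl => ⟨(hφ h s).1, (hφ h s).2 hl⟩]
  linarith [(abs_le.1 fin).1]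

end Crest.Agent.H9.MP
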