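import Crest.Agent.H9.MP.T6
import Crest.Agent.H9.MP.T7
import Crest.Agent.H9.MP.T8b

/-! MP-T9: the formula. -/

set_option autoImplicit false

namespace Crest.Agent.H9.MP

open MeasureTheory Crest.ProbabilityR.Diluted Filter

theorem mp_main {p : ℕ} (hp : 2 ≤ p) {α : ℝ} (hα : 0 ≤ α) {μ : Measure (Inter p)}
    [IsProbabilityMeasure μ] {ν : Measure ℝ} [IsProbabilityMeasure ν]
    (hμ : Integrable (fun θ => supNorm θ) μ) (hν : Integrable (fun x : ℝ => x) ν)
    (hfac : Fac p μ) :
    ∃ F : ℝ, Tendsto (pressure p α μ ν) atTop (nhds F) ∧ IsGLB (trialSet p α μ ν) F := by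
  have hup : ∀ N, 0 < N → ∀ B ∈ trialSet p α μ ν, pressure p α μ ν N ≤ B := by
    intro N hN B hB
    refine le_of_forall_pos_le_add fun ε hε => ?_
    obtain ⟨e, R, S, I, _, _, _, K, σ, he, hK, h⟩ := exists_Bfin_approx hα hμ hν hB hε
    exact (pressure_le_Bfin hp hα hμ hν hfac he hK σ hN).trans h
  have hne : (trialSet p α μ ν).Nonempty :=
    ⟨_, 0, Fin.elim0, fun _ => 0, ⟨fun a => a.elim0, fun a => a.elim0⟩, measurable_const, rfl⟩
  have hbd : BddBelow (trialSet p α μ ν) := ⟨_, fun B hB => hup 1 one_pos B hB⟩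
  have hglb := isGLB_csInf hne hbd
  refine ⟨_, ?_, hglb⟩
  rw [tendsto_order]
  constructor
  · intro a ha
    have h := lower_bound hp hα hμ hν hfac (F := sInf (trialSet p α μ ν))
      (fun R S I _ _ _ K σ hR hK hσ => hglb.1 (Bfin_mem_trialSet hα hμ hν hR hK hσ))
      (ε := (sInf (trialSet p α μ ν) - a) / 2) (by linarith)
    filter_upwards [h] with N hN
    linarith
  · intro a ha
    filter_upwards [eventually_gt_atTop 0] with N hN
    exact lt_of_le_of_lt (hglb.2 fun B hB => hup N hN B hB) ha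

end Crest.Agent.H9.MP
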